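import Vale.Agent.P281Z.Nt.Hyp
import Vale.Agent.P281Z.Sc.Bd
import Vale.Agent.P277Z.Bert.An

/-!
# P281Z: the theorem of Bertini
-/

open scoped Manifold ContDiff Topology
open Set Filter Function MeasureTheory
open Vale.Agent.P272.K Vale.Agent.P285.H281.FD
open Vale.Agent.P277Z (Hol at_chart hol_const)
open Vale.Agent.P277Z.Slc (Ind LEq Snc IsDiv dd dd_mul dd_congr)

noncomputable section

namespace Vale.Agent.P281Z.Lf

namespace Bt

variable {n : ℕ} {X : Type} [TopologicalSpace X] [ChartedSpace (Cm n) X]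
  [IsManifold 𝓘(ℂ, Cm n) ω X] {x y : X} {κ : Type} {G : κ → Set X} {e : Chart n X}

omit [IsManifold 𝓘(ℂ, Cm n) ω X] in
theorem co_dd {Θ : Chart n X} (h : Co n Θ) (hy : y ∈ Θ.source) (he : At e y) {a : X → ℂ}
    (ha : Hol n a y) (v : Cm n) : fderiv ℂ (fun w => a (Θ.symm w)) (Θ y) v =
      dd a e y (fderiv ℂ (fun w => e (Θ.symm w)) (Θ y) v) := by
  have h1 : (fun w => a (Θ.symm w)) =ᶠ[𝓝 (Θ y)] fun w => a (e.symm (e (Θ.symm w))) :=
    ((Θ.tendsto_symm hy).eventually (at_near he)).mono fun w hw => by simp only [hw.left_inv]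
  rw [h1.fderiv_eq, fderiv_fun_comp (g := fun z => a (e.symm z)) (Θ y)
    (by rw [Θ.left_inv hy]; exact (ha e he).differentiableAt)
    (h.inv _ (Θ.map_source hy) e (by rwa [Θ.left_inv hy])).differentiableAt, Θ.left_inv hy]
  rfl

theorem ind_opt {α : Type} {ζ : α → X → ℂ} {f : X → ℂ} (hi : Ind n ζ y) (hf : Hol n f y)
    (he : At e y) {v : Cm n} (h0 : ∀ a, dd (ζ a) e y v = 0) (h1 : dd f e y v ≠ 0) :
    Ind n (fun o : Option α => o.elim f ζ) y := by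
  refine Ind.of_chart (Option.rec hf hi.1) he (linearIndependent_option.2 ⟨hi.2 e he, fun k => h1 ?_⟩)
  refine (Submodule.span_le (p := (ContinuousLinearMap.apply ℂ ℂ v).ker)).2 ?_ k
  rintro _ ⟨a, rfl⟩
  exact h0 a

omit [IsManifold 𝓘(ℂ, Cm n) ω X] in
theorem ind_sub {α γ : Type} {h : α → X → ℂ} {k : γ → X → ℂ} {p : γ → Prop} (hi : Ind n h y)
    (g : α → γ) (hk : ∀ a, k (g a) = h a) (hp : ∀ c, p c → ∃ a, g a = c) :
    Ind n (fun c : {c // p c} => k c) y := by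
  choose f hf using hp
  exact ind_congr (hi.comp (fun c : {c // p c} => f c c.2) fun c c' e => Subtype.ext
    ((hf _ c.2).symm.trans ((congrArg g e).trans (hf _ c'.2)))) fun c => .of_forall fun _ => by
      rw [← hk, hf]

omit [IsManifold 𝓘(ℂ, Cm n) ω X] in
theorem sec_sum {L : Bd X} {ι : Type} [Fintype ι] {s : ι → L.ι → X → ℂ} (h : ∀ a, IsSec n L (s a))
    (c : ι → ℂ) : IsSec n L fun i x => ∑ a, c a * s a i x :=
  isSec_of (fun _ _ hx => Hol.sum _ fun a _ => (hol_const _ _).mul (sec_hol (h a) hx))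
    fun i j x hi hj => by simp only [(h _).change i j x hi hj, Finset.mul_sum, mul_left_comm]

theorem loc [Fintype κ] (hG : Snc n G) {ι : Type} [Fintype ι] {u : ι → X → ℂ}
    (hu : ∀ a, Hol n (u a) x) {a₀ : ι} (h0 : u a₀ x ≠ 0) : ∃ U ∈ 𝓝 x, ∀ᵐ c : ι → ℂ, ∀ y ∈ U,
      ∑ a, c a * u a y = 0 → ∃ ζ : κ → X → ℂ, (∀ l, LEq n (G l) y (ζ l)) ∧ Ind n (fun
        o : Option {l // y ∈ G l} => o.elim (fun y => ∑ a, c a * u a y) fun l => ζ l) y := by
  classical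
  obtain ⟨ζ, h1, h2⟩ := hG x
  obtain ⟨Θ, j, t1, t2, -, t3, t4⟩ := Nt.Hp.exists_crd h2 (fun a => (h1 a).mem.2 a.2) univ_mem
  obtain ⟨U, k1, -, k2⟩ := P277Z.Bert.core (t := id) (z₀ := Θ x) analyticAt_id t3
    (by rw [fderiv_id]; exact fun _ _ h => h) (u := fun a w => (u a₀ (Θ.symm w))⁻¹ * u a (Θ.symm w))
    (fun a => Nt.Hp.co_an t1 t2 (((hu a₀).inv h0).mul (hu a))) a₀
    ((Nt.Hp.ev_iff t2 (P := fun y => (u a₀ y)⁻¹ * u a₀ y = 1)).2
      (((hu a₀).ne_near h0).mono fun _ => inv_mul_cancel₀))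
  have k3 : ∀ l, ∀ᶠ y in 𝓝 x, y ∈ G l → x ∈ G l := fun l => by
    by_cases c : x ∈ G l
    · exact .of_forall fun _ _ => c
    · exact ((h1 l).not_mem_near c).mono fun _ a b => (a b).elim
  refine ⟨_, ((Θ.continuousAt t2).eventually k1).and ((eventually_all.2 fun l => (h1 l).near).and
    (h2.near.and ((eventually_all.2 k3).and ((eventually_all.2 fun a => (hu a).near).and
      (((hu a₀).ne_near h0).and (Θ.open_source.mem_nhds t2)))))), k2.mono ?_⟩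
  rintro c hc y ⟨a1, a2, a3, a4, a5, a6, a7⟩ e0
  have e1 : ∀ w, ∑ a, c a * ((u a₀ (Θ.symm w))⁻¹ * u a (Θ.symm w)) =
      (u a₀ (Θ.symm w))⁻¹ * ∑ a, c a * u a (Θ.symm w) := fun w => by
    simp only [Finset.mul_sum, mul_left_comm]
  simp only [e1] at hc
  obtain ⟨i, v, b1, b2, b3⟩ := hc _ a1 (by rw [Θ.left_inv a7, e0, mul_zero])
  have he := at_chart (n := n) y
  have hS : Hol n (fun y => ∑ a, c a * u a y) y := Hol.sum _ fun a _ => (hol_const _ _).mul (a5 a)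
  rw [co_dd t1 a7 he (((a5 a₀).inv a6).mul hS), dd_mul ((a5 a₀).inv a6) hS e0 he] at b3
  refine ⟨ζ, a2, ind_opt (ind_sub a3 (·.1) (fun _ => rfl) fun l h => ⟨⟨l, a4 l h⟩, rfl⟩)
    hS he (fun l => ?_) (right_ne_zero_of_mul b3)⟩
  have c1 : (fun w => ζ l (Θ.symm w)) =ᶠ[𝓝 (Θ y)] fun w => w (j ⟨l, a4 l l.2⟩) := by
    filter_upwards [Θ.open_target.mem_nhds (Θ.map_source a7)] with w hw
    rw [← t4 _ (Θ.map_target hw) ⟨l, a4 l l.2⟩, Θ.right_inv hw]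
  rw [fderiv_id] at b2
  rw [← co_dd t1 a7 he (a2 l).hol, c1.fderiv_eq, show v = _ from b2, (hasFDerivAt_apply _ _).fderiv]
  refine Pi.single_eq_of_ne (fun h => b1 ?_) _
  rw [← h]
  exact (t4 y a7 _).trans ((a2 l).mem.2 l.2)

end Bt

open Bt in
theorem bertini {n : ℕ} (X : Mf n) {A : Bd X.X} {κ : Type} [Fintype κ] {G : κ → Set X.X}
    (hA : IsLB n A) (hb : Bpf n A) (hG : Snc n G) :
    ∃ H σ, IsDiv n H A σ ∧ Snc n fun o : Option κ => o.elim H G := by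
  choose s hs hz using hb
  choose i hi using hA.cover
  obtain ⟨t, ht⟩ := CompactSpace.elim_nhds_subcover (fun x => {y | y ∈ A.U (i x) ∧ s x (i x) y ≠ 0})
    fun x => (lb_near hA (hi x)).and ((sec_hol (hs x) (hi x)).ne_near (hz x _ (hi x)))
  have h1 : ∀ y, ∃ a : t, s a (i y) y ≠ 0 := fun y => by
    obtain ⟨z, a, b⟩ := mem_iUnion₂.1 (ht.ge (mem_univ y))
    exact ⟨⟨z, a⟩, right_ne_zero_of_mul ((hs z).change _ _ y b.1 (hi y) ▸ b.2)⟩
  choose U h2 h3 using fun y => (h1 y).elim fun a =>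
    loc hG (u := fun a : t => s a (i y)) (a₀ := a) fun a => sec_hol (hs a) (hi y)
  obtain ⟨t', ht'⟩ := CompactSpace.elim_nhds_subcover (fun x => U x ∩ A.U (i x))
    fun x => inter_mem (h2 x) (lb_near hA (hi x))
  obtain ⟨c, hc⟩ := ((eventually_all_finset t').2 fun y _ => h3 y).exists
  have hσ := sec_sum (fun a : t => hs a) c
  set σ : A.ι → X.X → ℂ := fun i x => ∑ a : t, c a * s a i x
  have h4 : ∀ j, ∀ y ∈ A.U j, σ j y = 0 ↔ y ∈ {y | ¬ NZ A σ y} := fun j y hy =>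
    ((not_congr (nz_iff hA (fun a b => hσ.change a b y) hy)).trans not_not).symm
  have h5 : ∀ y, ∃ j, y ∈ A.U j ∧ (σ j y = 0 → ∃ ζ : κ → X.X → ℂ, (∀ l, LEq n (G l) y (ζ l)) ∧
      Ind n (fun o : Option {l // y ∈ G l} => o.elim (σ j) fun l => ζ l) y) := fun y => by
    obtain ⟨z, a, b⟩ := mem_iUnion₂.1 (ht'.ge (mem_univ y))
    exact ⟨_, b.2, hc z a y b.1⟩
  have h6 : ∀ j, ∀ y ∈ A.U j, LEq n {y | ¬ NZ A σ y} y (σ j) := fun j y hy =>
    ⟨(lb_near hA hy).mono (h4 j), fun e he => ⟨sec_hol hσ hy e he, fun h0 => by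
      obtain ⟨j', a, b⟩ := h5 y
      have h0' := (h4 j' y a).2 ((h4 j y hy).1 h0)
      obtain ⟨ζ, -, k⟩ := b h0'
      change dd (σ j) e y ≠ 0
      rw [dd_congr (((lb_near hA hy).and (lb_near hA a)).mono fun z k => hσ.change j j' z k.1 k.2)
        he, dd_mul (lb_hol hA hy a) (sec_hol hσ a) h0' he]
      exact smul_ne_zero (hA.ne_zero _ _ y hy a) ((k.2 e he).ne_zero none)⟩⟩
  refine ⟨_, σ, ⟨hA, hσ, h6⟩, fun y => ?_⟩
  obtain ⟨j, a, b⟩ := h5 y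
  by_cases h0 : σ j y = 0
  · obtain ⟨ζ, k1, k2⟩ := b h0
    refine ⟨fun o => o.elim (σ j) ζ, Option.rec (h6 j y a) k1, ind_sub (k := fun o => o.elim (σ j) ζ)
      k2 (Option.map (·.1)) (Option.rec rfl fun _ => rfl) ?_⟩
    rintro (_ | l) h
    exacts [⟨none, rfl⟩, ⟨some ⟨l, h⟩, rfl⟩]
  · obtain ⟨ζ, k1, k2⟩ := hG y
    refine ⟨fun o => o.elim (σ j) ζ, Option.rec (h6 j y a) k1, ind_sub (k := fun o => o.elim (σ j) ζ)
      k2 (fun l => some l.1) (fun _ => rfl) ?_⟩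
    rintro (_ | l) h
    exacts [(h0 ((h4 j y a).2 h)).elim, ⟨⟨l, h⟩, rfl⟩]

end Vale.Agent.P281Z.Lf
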