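import Vale.Agent.P281Z.Lf.Sk
import Vale.Agent.P281Z.Mf.Sub
import Vale.Agent.P281Z.Hm.Snc
import Vale.Agent.P281Z.Hm.Calc
import Vale.Agent.P277Z.Slc.Unit

/-!
# P281Z, two forms of simple normal crossings (SNCB, RECH)
-/

open scoped Manifold ContDiff Topology ComplexOrder
open Set Filter Function
open Vale.Agent.P272.K Vale.Agent.P285.H281.FD
open Vale.Agent.P277Z (Hol at_chart hol_const)
open Vale.Agent.P277Z.Slc (Ind LEq)
open Vale.Agent.P277.HD (pull)
open Vale.Agent.P284Z (levi cHess_quad cHess_psd_iff)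

set_option linter.unusedSectionVars false

noncomputable section

namespace Vale.Agent.P281Z.Lf

theorem posDef_iff {d : ℕ} {u : Cm d → ℝ} {z : Cm d} (hu : ContDiffAt ℝ 2 u z) :
    (cHess u z).PosDef ↔ ∀ w, w ≠ 0 → 0 < levi u z w := by
  refine ⟨fun h w hw => ?_, fun h => ?_⟩
  · have := h.dotProduct_mulVec_pos (star_ne_zero.2 hw)
    rw [cHess_quad hu, star_star, Complex.zero_lt_real] at this
    linarith
  · have h0 : (cHess u z).PosSemidef := (cHess_psd_iff hu).2 fun w => by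
      by_cases hw : w = 0
      · simp [hw, levi]
      · exact (h w hw).le
    refine Matrix.PosDef.of_dotProduct_mulVec_pos h0.isHermitian fun x hx => ?_
    rw [cHess_quad hu, Complex.zero_lt_real]
    linarith [h (star x) (star_ne_zero.2 hx)]

variable {n p : ℕ} {X Y : Type} [TopologicalSpace X] [ChartedSpace (Cm n) X]
  [TopologicalSpace Y] [ChartedSpace (Cm p) Y] [IsManifold 𝓘(ℂ, Cm n) ω X]
  [IsManifold 𝓘(ℂ, Cm p) ω Y]

/-- positivity is preserved by immersions -/
theorem pos_pull {f : X → Y} (hf : HolM n p f) (h : ∀ x, Imm n p f x) {L : Bd Y} (hL : Pos p L) :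
    Pos n (pull f L) := by
  obtain ⟨ψ, h1, h2⟩ := hL
  have e0 : ∀ i (e : Chart n X) x, At e x → (fun z => ψ i (f (e.symm z))) =ᶠ[𝓝 (e x)] fun z =>
      ψ i ((chartAt (Cm p) (f x)).symm (chartAt (Cm p) (f x) (f (e.symm z)))) := fun i e x he =>
    (at_map (hf.at x).cont he (at_chart _)).mono fun z hz => congrArg (ψ i) hz.left_inv.symm
  have s0 : ∀ i (e : Chart n X) x, At e x → f x ∈ L.U i → ContDiffAt ℝ ∞
      (fun z => ψ i ((chartAt (Cm p) (f x)).symm z)) (chartAt (Cm p) (f x) (f (e.symm (e x)))) :=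
    fun i e x he hi => he.left_inv.symm ▸ h1.smooth i _ _ (at_chart _) hi
  have s1 : ∀ i (e : Chart n X) x, At e x → f x ∈ L.U i →
      ContDiffAt ℝ ∞ (fun z => ψ i (f (e.symm z))) (e x) := fun i e x he hi =>
    ContDiffAt.congr_of_eventuallyEq (ContDiffAt.comp (e x)
      (f := fun z => chartAt (Cm p) (f x) (f (e.symm z))) (s0 i e x he hi)
      (((hf.at x).an he (at_chart _)).restrictScalars (𝕜 := ℝ)).contDiffAt) (e0 i e x he)
  refine ⟨fun i x => ψ i (f x), ⟨s1, fun i j x => h1.change i j (f x)⟩, fun i e x he hi => ?_⟩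
  have t : (2 : WithTop ℕ∞) ≤ ∞ := WithTop.coe_le_coe.2 le_top
  refine (posDef_iff ((s1 i e x he hi).of_le t)).2 fun w hw => ?_
  have s2 := (s0 i e x he hi).of_le t
  rw [Hm.levi_congr (e0 i e x he), Hm.levi_comp
    (g := fun z => chartAt (Cm p) (f x) (f (e.symm z))) s2 ((hf.at x).an he (at_chart _))]
  rw [he.left_inv] at s2 ⊢
  exact (posDef_iff s2).1 (h2 i _ _ (at_chart _) hi) _ fun k =>
    hw ((injective_iff_map_eq_zero _).1 (h x e _ he (at_chart _)) w k)

open Classical in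
/-- the local equation at `y` -/
def eqn (S : Hm.Snc p Y) (y : Y) (l : Fin S.r) (x : Y) : ℂ :=
  if y ∈ S.G l then (S.lab y l).elim 1 fun i => chartAt (Cm p) y x i else 1

theorem eqn_lab {S : Hm.Snc p Y} {y : Y} {l : Fin S.r} {i : Fin p} (h : y ∈ S.G l)
    (e : S.lab y l = some i) : eqn S y l = fun x => chartAt (Cm p) y x i := by
  funext x
  rw [eqn, if_pos h, e]
  rfl

theorem eqn_not {S : Hm.Snc p Y} {y : Y} {l : Fin S.r} (h : y ∉ S.G l) :
    eqn S y l = fun _ => 1 := funext fun _ => if_neg h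

theorem norm_eqn (S : Hm.Snc p Y) (y : Y) (l : Fin S.r) (x : Y) :
    ‖eqn S y l x‖ = S.ab y l (chartAt (Cm p) y x) := by
  by_cases h : y ∈ S.G l
  · obtain ⟨i, -, e⟩ := S.exists_lab h
    rw [eqn_lab h e, S.ab_of_lab h e]
  · rw [eqn_not h, S.ab_of_not h, norm_one]

theorem leq_eqn (S : Hm.Snc p Y) (y : Y) (l : Fin S.r) : LEq p (S.G l) y (eqn S y l) := by
  by_cases h : y ∈ S.G l
  · obtain ⟨i, -, e⟩ := S.exists_lab h
    rw [eqn_lab h e]
    refine ⟨(S.snc y l).mono fun x hx => by simp [hx, e], fun c hc =>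
      ⟨hol_chart (at_chart y) i c hc, fun _ => ((ind_chart (at_chart y)).2 c hc).ne_zero i⟩⟩
  · rw [eqn_not h]
    exact ⟨(S.ev_cut y).mono fun x hx => by simp [hx l, h], fun c hc =>
      ⟨analyticAt_const, fun k => absurd k one_ne_zero⟩⟩

theorem snc_of (S : Hm.Snc p Y) : P277Z.Slc.Snc p S.G := fun y => by
  choose c _ hc using fun l : {l // y ∈ S.G l} => S.exists_lab l.2
  refine ⟨eqn S y, leq_eqn S y, ?_⟩
  rw [show (fun l : {l // y ∈ S.G l} => eqn S y l) = fun l x => chartAt (Cm p) y x (c l) from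
    funext fun l => eqn_lab l.2 (hc l)]
  exact (ind_chart (at_chart y)).comp c fun l l' k =>
    Subtype.ext (S.inj y l l' _ (hc l) (k ▸ hc l'))

/-- **SNCB** -/
theorem sncb : SNCB := fun p W S => ⟨snc_of S, fun y l ζ h => by
  obtain ⟨u, h1, h2, h3⟩ := P277Z.Slc.stUnit p W.X (S.G l) y _ ζ (leq_eqn S y l) h
  have h4 := norm_pos_iff.2 h2
  refine ⟨‖u y‖ / 2, ‖u y‖ + 1, half_pos h4, ?_⟩
  filter_upwards [h3, h1.continuousAt.norm.eventually (lt_mem_nhds (half_lt_self h4)),
    h1.continuousAt.norm.eventually (gt_mem_nhds (lt_add_one _))] with x a b c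
  rw [a, norm_mul, ← norm_eqn]
  exact ⟨mul_le_mul_of_nonneg_right b.le (norm_nonneg _),
    mul_le_mul_of_nonneg_right c.le (norm_nonneg _)⟩⟩

/-- a chart whose coordinates contain a given independent family -/
theorem exists_chart {α : Type} [Fintype α] {h : α → Y → ℂ} {x : Y} (hi : Ind p h x) :
    ∃ (c : Chart p Y) (ι : α → Fin p), x ∈ c.source ∧ ImC p (fun y : Y => y) c ∧ AnV p c x ∧
      Injective ι ∧ ∀ y ∈ c.source, ∀ a, c y (ι a) = h a y := by
  obtain ⟨d, hd⟩ := Nat.exists_eq_add_of_le (ind_le hi)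
  obtain ⟨Θ, k1, k2, -, k4⟩ := exists_co hi hd.symm univ_mem
  let σ : α ⊕ Fin d ≃ Fin p := Fintype.equivOfCardEq (by simp [hd])
  let Λ : ((α → ℂ) × Cm d) ≃L[ℂ] Cm p := ((LinearEquiv.sumArrowLequivProdArrow α (Fin d) ℂ ℂ).symm.trans
    (LinearEquiv.funCongrLeft ℂ ℂ σ.symm)).toContinuousLinearEquiv
  refine ⟨Θ.transHomeomorph Λ.toHomeomorph, fun a => σ (.inl a), k2, fun z hz e he => ?_,
    (k1.an x k2).cmp (G := Λ) (Λ.toContinuousLinearMap.analyticAt _),
    σ.injective.comp Sum.inl_injective, fun y hy a => ?_⟩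
  · have m := k1.inv (Λ.symm z) hz e he
    refine ⟨m.fun_comp (Λ.symm.toContinuousLinearMap.analyticAt z), ?_⟩
    have m3 : HasFDerivAt (fun s => e (Θ.symm (Λ.symm s))) _ z :=
      m.differentiableAt.hasFDerivAt.comp z Λ.symm.hasFDerivAt
    rw [show (fun s => e ((Θ.transHomeomorph Λ.toHomeomorph).symm s)) =
      fun s => e (Θ.symm (Λ.symm s)) from rfl, m3.fderiv]
    exact (k1.inj hz he).comp Λ.symm.injective
  · refine Eq.trans ?_ (congrFun (k4 y hy) a)
    simp only [Λ]
    exact congrArg (Sum.elim (Θ y).1 (Θ y).2) (σ.symm_apply_apply _)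

/-- **RECH** -/
theorem rech : RECH := by
  classical
  intro p W k G hG
  choose ζ h1 h2 using hG
  choose c ι c1 c2 c3 c4 c5 using fun x => exists_chart (h2 x)
  let A : Atl p p (fun y : W.X => y) := ⟨c, c1, c2, continuous_id⟩
  let S : Hm.Snc p A.mf.X :=
    { r := k
      G := G
      lab := fun x l => if h : x ∈ G l then some (ι x ⟨l, h⟩) else none
      inj := fun x l l' i a b => by
        split_ifs at a b
        exact congrArg Subtype.val (c4 x (Option.some.inj (a.trans b.symm)))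
      snc := fun x l => by
        by_cases h : x ∈ G l
        · filter_upwards [(h1 x l).1, (c x).open_source.mem_nhds (c1 x)] with y a b
          simp only [dif_pos h, Option.some.injEq, exists_eq_left']
          exact a.symm.trans (by rw [← c5 x y b ⟨l, h⟩]; rfl)
        · filter_upwards [(h1 x l).not_mem_near h] with y a
          exact iff_of_false a (by simp [h]) }
  exact ⟨A.mf, Homeomorph.refl W.X, S, rfl, A.hol, fun x => HolA.of_an (Y := A.mf.X)
    continuousAt_id (at_chart x) (at_chart _) (c3 x _ (at_chart x)), fun _ => rfl,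
    kim _ _ _ _ _ A.hol A.imm', fun L hL => ⟨A.hol.lb hL, pos_pull A.hol A.imm'⟩⟩

end Vale.Agent.P281Z.Lf
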