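import Vale.Agent.P281Z.Lf.Sk
import Vale.Agent.P281Z.Mf.Fib
import Vale.Agent.P281Z.Hm.Calc

/-!
# P281Z, the base of the variation: restriction to a smooth divisor
-/

open scoped Manifold ContDiff Topology ComplexOrder
open Set Filter Function
open Vale.Agent.P272.K Vale.Agent.P285.H281.FD
open Vale.Agent.P277Z (Hol at_chart)
open Vale.Agent.P277Z.Slc (Ind LEq Snc dd ind_iff_surj)
open Vale.Agent.P277.HD (pull)
open Vale.Agent.P284Z (levi cHess_quad)

noncomputable section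

namespace Vale.Agent.P281Z.Lf

namespace Pl

variable {d n : ℕ} {X : Mf n} {F : Mf d} {i : F.X → X.X} {x : F.X} {κ : Type} {G : κ → Set X.X}
  {H : Set X.X} {c : Chart d F.X} {e : Chart n X.X}

theorem one {ζ : Option κ → X.X → ℂ} {y : X.X} (hy : y ∈ H)
    (h : Ind n (fun o : {o : Option κ // y ∈ o.elim H G} => ζ o) y) {α : Type} [Subsingleton α] :
    Ind n (fun _ : α => ζ none) y :=
  h.comp (fun _ => ⟨none, hy⟩) fun _ _ _ => Subsingleton.elim _ _

theorem loc [Fintype κ] (hS : Snc n fun o : Option κ => o.elim H G) (hi : Emb d n i H) (x : F.X) :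
    ∃ ζ : κ → X.X → ℂ, (∀ l, LEq n (G l) (i x) (ζ l)) ∧
      (∀ l, LEq d (i ⁻¹' G l) x fun z => ζ l (i z)) ∧
      Ind d (fun (l : {l // i x ∈ G l}) z => ζ l (i z)) x := by
  classical
  obtain ⟨ζ, h1, h2⟩ := hS (i x)
  have he := at_chart (n := n) (i x)
  have h3 : Ind d (fun (l : {l // i x ∈ G l}) z => ζ (some l) (i z)) x := by
    refine ⟨fun l => hi.hol.hol (h1 _).hol, fun c hc => (ind_iff_surj _).2 fun w => ?_⟩
    obtain ⟨v, hv⟩ := (ind_iff_surj _).1 (h2.2 _ he) fun o =>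
      o.1.elim 0 fun l => if h : i x ∈ G l then w ⟨l, h⟩ else 0
    obtain ⟨u, rfl⟩ := ((hi.tan (one (hi.mem x) h2 (α := Unit)) ((h1 none).1.mono fun z a =>
      a.symm.trans (forall_const Unit).symm)).2 c _ hc he v).1 fun _ => congrFun hv ⟨none, hi.mem x⟩
    exact ⟨u, funext fun l => (DFunLike.congr_fun (dd_comp (h1 (some l)).hol (hi.hol.at x) hc he)
      u).trans ((congrFun hv ⟨some l, l.2⟩).trans (dif_pos l.2))⟩
  exact ⟨fun l => ζ (some l), fun l => h1 (some l), fun l => ⟨hi.hol.cont.continuousAt.eventually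
    (h1 (some l)).1, fun c hc => ⟨hi.hol.hol (h1 _).hol c hc, fun k =>
      show dd (fun z => ζ (some l) (i z)) c x ≠ 0 from
        (h3.2 c hc).ne_zero ⟨l, (h1 (some l)).mem.1 k⟩⟩⟩, h3⟩

theorem cmp (hi : HolM d n i) (hc : At c x) (he : At e (i x)) {φ : X.X → ℝ} {k : WithTop ℕ∞}
    (h : ContDiffAt ℝ k (fun z => φ (e.symm z)) (e (i x))) :
    ContDiffAt ℝ k (fun z => φ (i (c.symm z))) (c x) ∧ (2 ≤ k → ∀ v,
      levi (fun z => φ (i (c.symm z))) (c x) v = levi (fun z => φ (e.symm z)) (e (i x)) (df i c e x v)) := by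
  have h0 : (fun z => φ (i (c.symm z))) =ᶠ[𝓝 (c x)] fun z => φ (e.symm (e (i (c.symm z)))) :=
    (at_map hi.cont.continuousAt hc he).mono fun z hz => by simp only [hz.left_inv]
  have h1 := (hi.at x).an hc he
  have h2 : ContDiffAt ℝ k (fun z => φ (e.symm z)) (e (i (c.symm (c x)))) := by rwa [hc.left_inv]
  refine ⟨(ContDiffAt.comp (c x) (f := fun z => e (i (c.symm z))) h2
    (h1.restrictScalars (𝕜 := ℝ)).contDiffAt).congr_of_eventuallyEq h0, fun hk v => ?_⟩
  rw [Hm.levi_congr h0, Hm.levi_comp (a := fun z => φ (e.symm z)) (g := fun z => e (i (c.symm z)))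
    (h2.of_le hk) h1, hc.left_inv]
  rfl

theorem pos (hi : Emb d n i H) {L : Bd X.X} (h : Pos n L) : Pos d (pull i L) := by
  obtain ⟨ψ, h1, h2⟩ := h
  have k := fun j (c : Chart d F.X) x (hc : At c x) hx =>
    cmp hi.hol hc (at_chart _) (h1.smooth j _ (i x) (at_chart _) hx)
  have two : (2 : WithTop ℕ∞) ≤ ∞ := by norm_cast
  refine ⟨fun j x => ψ j (i x), ⟨fun j c x hc hx => (k j c x hc hx).1,
    fun j j' x => h1.change j j' (i x)⟩, fun j c x hc hx => .of_dotProduct_mulVec_pos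
      (C2.cHess_isHermitian ((k j c x hc hx).1.of_le two)) fun v hv => ?_⟩
  have h3 := (h2 j _ _ (at_chart _) hx).dotProduct_mulVec_pos (star_ne_zero.2
    ((map_ne_zero_iff _ (hi.imm x c _ hc (at_chart _))).2 (star_ne_zero.2 hv)))
  rw [cHess_quad ((h1.smooth j _ _ (at_chart _) hx).of_le two), star_star] at h3
  rwa [cHess_quad ((k j c x hc hx).1.of_le two), (k j c x hc hx).2 two]

theorem rank {T : Cm d →ₗ[ℂ] Cm n} (hT : Injective T) (W : Submodule ℂ (Cm n)) :
    Module.finrank ℂ W + d ≤ Module.finrank ℂ (W.comap T) + n := by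
  have h1 := Submodule.finrank_sup_add_finrank_inf_eq T.range W
  have h2 := (T.range ⊔ W).finrank_le
  rw [← Submodule.map_comap_eq, (Submodule.equivMapOfInjective T hT _).finrank_eq.symm,
    LinearMap.finrank_range_of_inj hT] at h1
  simp only [Module.finrank_fin_fun] at h1 h2
  omega

end Pl

open Pl in
theorem pll : PULL := by
  intro d X κ _ G H hS
  refine ⟨⟨P277Z.Slc.isClosed_of_leq fun x => (hS x).elim fun ζ h => ⟨_, h.1 none⟩, fun x hx =>
    (hS x).elim fun ζ h => ⟨1, _, rfl, one hx h.2, (h.1 none).1.mono fun z a =>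
      a.symm.trans (forall_const (Fin 1)).symm⟩⟩, fun F i hi => ⟨fun x => (loc hS hi x).elim fun ζ h =>
        ⟨_, h.2⟩, fun x l ζ hζ => ?_, fun L hL => ⟨hi.hol.lb hL, pos hi, fun h x =>
          (h (i x)).elim fun s k => ⟨_, hi.hol.sec k.1, k.2⟩, fun φ μ h => ?_⟩⟩⟩
  · obtain ⟨ξ, h1, h2, -⟩ := loc hS hi x
    obtain ⟨w, k1, k2, k3⟩ := leq_unit (h1 l) hζ
    refine ⟨hi.hol.cont.continuousAt.eventually hζ.1, fun c hc => ⟨hi.hol.hol hζ.hol c hc, fun k => ?_⟩⟩
    have k4 := (h1 l).mem.2 (hζ.mem.1 k)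
    change dd (fun y => ζ (i y)) c x ≠ 0
    rw [P277Z.Slc.dd_congr (hi.hol.cont.continuousAt.eventually k3) hc,
      P277Z.Slc.dd_mul (hi.hol.hol k1) (h2 l).hol k4 hc]
    exact smul_ne_zero k2 (((h2 l).2 c hc).2 k4)
  · have k := fun j (c : Chart d F.X) x (hc : At c x) hx hx' =>
      cmp hi.hol hc (at_chart _) (h.sm j _ (i x) (at_chart _) hx hx')
    refine ⟨fun j c x hc hx hx' => (k j c x hc hx hx').1, fun j j' x => h.chg j j' (i x),
      fun j c x hc hx hx' => ?_, fun j x hx ζ' hζ ε hε => ?_⟩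
    · obtain ⟨W, h1, h2⟩ := h.nul j _ (i x) (at_chart _) hx hx'
      have := rank (T := (df i c _ x).toLinearMap) (hi.imm x c _ hc (at_chart _)) W
      exact ⟨W.comap (df i c _ x).toLinearMap, by omega, fun v hv =>
        ((k j c x hc hx hx').2 le_rfl v).trans_le (h2 _ hv)⟩
    · obtain ⟨ζ, h1, h2, -⟩ := loc hS hi x
      exact bd_leq (j := id) (S := fun z => Real.exp (-φ j (i z))) (P := fun z => i z ∈ off G)
        (c := fun _ => ε) (ζ := fun l z => ζ l (i z)) tendsto_id h2 hζ (fun _ => (Real.exp_pos _).le)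
        ((h.bd j (i x) hx ζ h1 ε hε).imp fun C => hi.hol.cont.continuousAt.eventually)

end Vale.Agent.P281Z.Lf
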