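import Vale.Agent.P281Z.Lf.Omm
import Vale.Agent.P281Z.Pb.Defs
import Vale.Agent.P281Z.Sc.Bd

/-!
# P281Z, the base of the variation: rows BPF and NU
-/

open scoped Manifold ContDiff Topology ComplexOrder
open Set Filter Matrix Function
open Vale.Agent.P272.K Vale.Agent.P285.H281.FD
open Vale.Agent.P281Z.Hm

noncomputable section

namespace Vale.Agent.P281Z

theorem Pos.pow {n : ℕ} {X : Type} [TopologicalSpace X] [ChartedSpace (Cm n) X] {L : Bd X}
    (h : Pos n L) {k : ℕ} (hk : 0 < k) : Pos n (L.pow k) := by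
  obtain ⟨ψ, h1, h2⟩ := h
  refine ⟨fun i x => (k : ℝ) * ψ i x, ⟨fun i e x he hx => contDiffAt_const.mul
    (h1.smooth i e x he hx), fun i j x hi hj => ?_⟩, fun i e x he hx => ?_⟩
  · show (k : ℝ) * ψ i x = k * ψ j x + Real.log (‖L.g i j x ^ k‖ ^ 2)
    rw [h1.change i j x hi hj, norm_pow, ← pow_mul, mul_comm k 2, pow_mul, Real.log_pow _ k,
      mul_add]
  · show (cHess (fun z => (k : ℝ) * ψ i (e.symm z)) (e x)).PosDef
    rw [C2.cHess_const_mul _ ((h1.smooth i e x he hx).of_le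
      (WithTop.coe_le_coe.2 (le_top : (2 : ℕ∞) ≤ ⊤)))]
    exact (h2 i e x he hx).smul (Complex.zero_lt_real.2 (Nat.cast_pos.2 hk))

namespace Lf

/-- row BPF -/
theorem bpf_of (hK : Pb.KODE) : BPF := by
  intro r Z A hA hP
  obtain ⟨k, m, s, hk, hs, hne, -⟩ := hK r Z A hA hP
  refine ⟨k, hk, lb_pow hA k, hP.pow hk, fun x => ?_⟩
  obtain ⟨b, hb⟩ := hA.cover x
  obtain ⟨a, ha⟩ := Function.ne_iff.1 (hne b x hb)
  refine ⟨_, hs a, fun i hi e => ha ?_⟩
  have h := (hs a).change b i x hb hi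
  rw [e, mul_zero] at h
  exact h

namespace Nu

variable {p : ℕ} {n : Type} [Fintype n] {ψ ψ' : Cm p → n → ℂ} {z : Cm p}

omit [Fintype n] in
theorem mem_ker {v : Cm p} : v ∈ kerL ψ z ↔ ∃ c : ℂ, c • ψ z = fderiv ℂ ψ z v :=
  Submodule.mem_span_singleton

theorem ker_lin (A : (n → ℂ) →L[ℂ] n → ℂ) (hA : Injective A) (h : DifferentiableAt ℂ ψ z)
    (e : ψ' =ᶠ[𝓝 z] fun x => A (ψ x)) : kerL ψ' z = kerL ψ z := by
  ext v
  rw [mem_ker, mem_ker, e.fderiv_eq, e.self_of_nhds,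
    fderiv_fun_comp (g := A) z A.differentiableAt h, A.fderiv]
  exact exists_congr fun c => by rw [← map_smul]; exact hA.eq_iff

theorem ker_comp {τ : Cm p → Cm p} (hτ : DifferentiableAt ℂ τ z) (hs : Surjective (fderiv ℂ τ z))
    (h : DifferentiableAt ℂ ψ (τ z)) :
    Module.finrank ℂ (kerL (fun x => ψ (τ x)) z) = Module.finrank ℂ (kerL ψ (τ z)) := by
  have e : kerL (fun x => ψ (τ x)) z = (kerL ψ (τ z)).comap (fderiv ℂ τ z : Cm p →ₗ[ℂ] Cm p) := by
    ext v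
    rw [Submodule.mem_comap, mem_ker, mem_ker, fderiv_fun_comp z h hτ]
    rfl
  rw [e]
  exact (LinearEquiv.ofSubmodule' (LinearEquiv.ofBijective (fderiv ℂ τ z : Cm p →ₗ[ℂ] Cm p)
    ⟨LinearMap.injective_iff_surjective.2 hs, hs⟩) _).finrank_eq

theorem ker_usc (h : AnalyticAt ℂ ψ z) (h0 : ψ z ≠ 0) :
    ∀ᶠ x in 𝓝 z, Module.finrank ℂ (kerL ψ x) ≤ Module.finrank ℂ (kerL ψ z) := by
  obtain ⟨W, hW⟩ := (kerL ψ z).exists_isCompl
  let T : Cm p → (ℂ × W) →L[ℂ] n → ℂ := fun x =>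
    (fderiv ℂ ψ x).comp (W.subtypeL.comp (ContinuousLinearMap.snd ℂ ℂ W)) -
      (ContinuousLinearMap.fst ℂ ℂ W).smulRight (ψ x)
  have hT : ∀ x c (w : W), T x (c, w) = fderiv ℂ ψ x w - c • ψ x := fun _ _ _ => rfl
  have c1 : ContinuousAt T z :=
    (h.fderiv.continuousAt.clm_comp continuousAt_const).sub
      ((ContinuousLinearMap.smulRightL ℂ (ℂ × W) (n → ℂ)
        (ContinuousLinearMap.fst ℂ ℂ W)).continuous.continuousAt.comp h.continuousAt)
  have i0 : Injective (T z) := by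
    rw [injective_iff_map_eq_zero]
    rintro ⟨c, w⟩ e
    rw [hT, sub_eq_zero] at e
    have a : w = 0 := Subtype.ext
      (Submodule.disjoint_def.1 hW.disjoint _ (mem_ker.2 ⟨c, e.symm⟩) w.2)
    rw [a, Submodule.coe_zero, map_zero] at e
    rw [a, (smul_eq_zero_iff_left h0).1 e.symm]
    rfl
  filter_upwards [c1.eventually (ContinuousLinearMap.isOpen_injective.mem_nhds i0)] with x hx
  have d : Disjoint (kerL ψ x) W := Submodule.disjoint_def.2 fun w a b => by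
    obtain ⟨c, e⟩ := mem_ker.1 a
    have k : T x (c, ⟨w, b⟩) = T x 0 := by rw [hT, map_zero, sub_eq_zero, e]
    exact congrArg (fun y : ℂ × W => (y.2 : Cm p)) (hx k)
  have a := Submodule.finrank_add_finrank_le_of_disjoint d
  have b := Submodule.finrank_add_eq_of_isCompl hW
  omega

variable {Y : Type} [TopologicalSpace Y] [ChartedSpace (Cm p) Y] [IsManifold 𝓘(ℂ, Cm p) ω Y]
  {U : Set Y} {C : Cv Y U} [DecidableEq n] {V : GV p C n} {l : Bd Y} (L : Ln V l)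
  {e e' : Chart p Y} {σ σ' : Cm p → C.X} {i : l.ι}

theorem ln (h : Sc C e σ z) (he : e ∈ atlas (Cm p) Y) (hi : e.symm z ∈ l.U i) :
    LnAt V.w (fun x => V.gr (σ x)) (fun x => L.ψ i (σ x)) z :=
  L.ln i _ σ z (h.lift he) (h.pi ▸ hi)

/-- the rank of the line does not depend on the chart and the section -/
theorem rk_eq (h : Sc C e σ z) (he : e ∈ atlas (Cm p) Y) (hi : e.symm z ∈ l.U i)
    (he' : At e' (e.symm z)) (h' : Sc C e' σ' (e' (e.symm z))) :
    Module.finrank ℂ (kerL (fun x => L.ψ i (σ' x)) (e' (e.symm z))) =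
      Module.finrank ℂ (kerL (fun x => L.ψ i (σ x)) z) := by
  have k := h'.chg h.tgt he'.2
  obtain ⟨g, hg⟩ := h.two k
  have a : At e (e.symm z) := ⟨he, e.map_target h.tgt⟩
  have s := P277Z.Slc.tr_surj he' a
  rw [P277Z.Slc.tr, e.right_inv h.tgt] at s
  rw [← ker_comp (ψ := fun x => L.ψ i (σ' x)) (Sc.trans he h.tgt he').differentiableAt s
    (ln L h' he'.1 (by rw [e'.left_inv he'.2]; exact hi)).an.differentiableAt]
  refine congrArg (fun K : Submodule ℂ (Cm p) => Module.finrank ℂ K) (ker_lin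
    (L.lam g • (Matrix.toLin' (cz (V.ρ g))).toContinuousLinearMap) (fun u v huv => ?_)
    (ln L h he hi).an.differentiableAt ?_)
  · have b : L.lam g ≠ 0 := norm_pos_iff.1 (by rw [L.norm_lam]; exact one_pos)
    have c : cz (V.ρ g) *ᵥ u = cz (V.ρ g) *ᵥ v := smul_right_injective _ b huv
    have d := congrArg (fun w => cz (V.ρ g⁻¹) *ᵥ w) c
    simpa only [mulVec_mulVec, V.r_inv_mul, one_mulVec] using d
  · filter_upwards [hg, h.ev, (e.continuousAt_symm h.tgt).eventually_mem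
      ((L.lb.isOpen i).mem_nhds hi)] with x b c d
    rw [b, L.eqv i g _ (c.pi ▸ d)]
    rfl

end Nu

open Nu

/-- row NU -/
theorem nu : NU := by
  intro r D hD
  classical
  obtain ⟨i₀, hi₀⟩ : ∃ i₀, ∀ z, z ∈ (P277Z.Slc.triv D.Z.X).U i₀ := ⟨(), fun _ => mem_univ _⟩
  have ex : ∃ k, ∃ e ∈ atlas (Cm r) D.Z.X, ∃ σ z, Sc D.C e σ z ∧
      Module.finrank ℂ (kerL (fun x => D.L.ψ i₀ (σ x)) z) = k := by
    obtain ⟨y, hy, -⟩ := hD.imm
    obtain ⟨σ, hσ⟩ := exists_sc' (C := D.C) hy (mem_chart_source (Cm r) y)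
    exact ⟨_, _, chart_mem_atlas _ y, σ, _, hσ, rfl⟩
  obtain ⟨e, he, σ, z, hσ, hk⟩ := Nat.find_spec ex
  have mn : ∀ e ∈ atlas (Cm r) D.Z.X, ∀ σ z, Sc D.C e σ z →
      Nat.find ex ≤ Module.finrank ℂ (kerL (fun x => D.L.ψ i₀ (σ x)) z) := fun e he σ z h =>
    Nat.find_min' ex ⟨e, he, σ, z, h, rfl⟩
  have le : Nat.find ex ≤ r := by
    rw [← hk]
    exact (Submodule.finrank_le _).trans_eq (Module.finrank_fin_fun ℂ)
  have l0 := ln D.L hσ he (hi₀ _)
  have h1 := mem_closure_iff_frequently.1 ((omm r D.Z D.S D.C D.n D.V).dense r hD.imm (e.symm z))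
  rw [← e.symm.map_nhds_eq hσ.tgt, frequently_map] at h1
  obtain ⟨x, ⟨a1, a2⟩, a3, a4⟩ := (h1.and_eventually (hσ.ev.and (ker_usc l0.an l0.ne))).exists
  refine ⟨r - Nat.find ex, fun i y σ' z' h _ => ?_, _, a1, a2, fun i e' he' σ' h' => ?_⟩
  · exact (Nat.add_sub_cancel' le).ge.trans
      (Nat.add_le_add_right (mn _ (chart_mem_atlas _ y) σ' z' h) _)
  · have b := rk_eq D.L a3 he (hi₀ _) he' h'
    have c := mn e he σ x a3
    show Module.finrank ℂ (kerL (fun x => D.L.ψ i₀ (σ' x)) _) + _ = r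
    omega

theorem nu_of : OMM → NU := fun _ => nu

end Lf

end Vale.Agent.P281Z
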