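import Vale.Agent.P281Z.Lf.Sk
import Vale.Agent.P281Z.An.Basic
import Vale.Agent.P277Z.Luf.Hol
import Vale.Agent.P277Z.Hl.Defs

/-!
# P281Z, block HL: the rows POLAR and MON
-/

open scoped Manifold ContDiff Topology
open Set Filter
open Vale.Agent.P272.K Vale.Agent.P285.H281.FD
open Vale.Agent.P277Z
open Vale.Agent.P277Z.Hl (cn cn_eq cn_hol cn_gen)
open Vale.Agent.P277Z.Slc (LEq)

noncomputable section

namespace Vale.Agent.P281Z.Lf

namespace Pol

variable {n : ℕ} {W : Type} [TopologicalSpace W] [ChartedSpace (Cm n) W]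
  [IsManifold 𝓘(ℂ, Cm n) ω W] {x : W} {a b u v : W → ℂ}

/-- a meromorphic germ is a quotient of germs which are coprime at all points nearby -/
theorem mer_cop (h : Mer n a x) : ∃ u v : W → ℂ, ∀ᶠ y in 𝓝 x, Hol n u y ∧ Hol n v y ∧ Nz v y ∧
    (∀ᶠ z in gen {y}, a z * v z = u z) ∧ Cop n u v y := by
  obtain ⟨u, v, hu, hv, h0, e⟩ := h
  obtain ⟨d, u', v', -, hu', hv', k⟩ := (luf n W x).gcd u v hu hv h0
  have g := Nz.gen h0 hv
  have h1 : Nz v' x := nz_of_gen (by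
    filter_upwards [g, gen_of_nhds k] with y a b c using a (by rw [b.2.1, c, mul_zero]))
  have e' : ∀ᶠ z in gen {x}, a z * v' z = u' z := by
    filter_upwards [g, gen_of_nhds k, e] with y k1 k2 k3
    refine mul_left_cancel₀ (left_ne_zero_of_mul (k2.2.1 ▸ k1)) ?_
    rw [← k2.1, ← k3, k2.2.1]
    ring
  exact ⟨u', v', by
    filter_upwards [hu'.near, hv'.near, h1.near hv', gen_near e', k] with y k1 k2 k3 k4 k5
      using ⟨k1, k2, k3, k4, k5.2.2⟩⟩

/-- at a point where the quotient is holomorphic the denominator is a unit -/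
theorem cop_unit (hu : Hol n u x) (hv : Hol n v x) (hc : Cop n u v x) (hb : Hol n b x)
    (e : ∀ᶠ z in gen {x}, b z * v z = u z) : v x ≠ 0 ∧ b x * v x = u x := by
  have k := (hb.mul hv).eq_of_gen hu e
  obtain ⟨c, -, hc⟩ := hc _ (hol_const 1 x) ⟨b, hb, k.mono fun y h => (one_mul _).trans h.symm⟩
  exact ⟨fun h => by simpa [h] using hc.self_of_nhds, k.self_of_nhds⟩

/-- the Nullstellensatz for principal ideals -/
theorem nul (ha : Hol n a x) (hb : Hol n b x) (h0 : Nz a x) (h : ∀ᶠ y in 𝓝 x, a y = 0 → b y = 0) :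
    ∃ (k : ℕ) (c : W → ℂ), Hol n c x ∧ ∀ᶠ y in 𝓝 x, b y ^ k = c y * a y := by
  obtain ⟨r, k, -, ⟨c, -, e1⟩, ⟨d, hd, e2⟩, h3⟩ := (luf n W x).red a ha h0
  obtain ⟨e, he, e3⟩ := h3.self_of_nhds b hb (by
    filter_upwards [h, e1] with y k1 k2 k3 using k1 (by rw [k2, k3, mul_zero]))
  exact ⟨k, _, (he.pow k).mul hd, by
    filter_upwards [e2, e3] with y k1 k2 using by rw [k2, mul_pow, k1, mul_assoc]⟩

omit [IsManifold 𝓘(ℂ, Cm n) ω W] in
theorem bdd (ha : Hol n a x) : ∃ C : ℝ, 0 < C ∧ ∀ᶠ y in 𝓝 x, ‖a y‖ ≤ C :=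
  ⟨‖a x‖ + 1, by positivity, (ha.cont.norm.eventually_lt_const (lt_add_one _)).mono fun _ => le_of_lt⟩

omit [ChartedSpace (Cm n) W] [IsManifold 𝓘(ℂ, Cm n) ω W] in
theorem gen_dense {D : Set W} (h1 : IsOpen D) (h2 : Dense D) (x : W) : ∀ᶠ y in gen {x}, y ∈ D :=
  ⟨univ, isOpen_univ, subset_univ _, fun y _ => by
    rw [ofPred_mem_eq, h1.interior_eq]; exact h2 y⟩

end Pol

open Pol

theorem polar : POLAR := by
  intro p W l a q D hW hl hD hD' hq hc ⟨i₀, y₀, hy₀, h1, h2⟩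
  have hg : ∀ {i j y}, y ∈ l.U i → y ∈ l.U j → Hol p (fun x => l.g i j x ^ a) y :=
    fun hi hj => Hol.pow (fun e he => (hl.holo _ _ e _ he hi hj).analyticAt) a
  have key : ∀ {i j y}, y ∈ l.U i → y ∈ l.U j → Hol p (cn p (q j)) y →
      ∀ᶠ x in 𝓝 y, cn p (q i) x = l.g i j x ^ a * cn p (q j) x := fun {i j y} hi hj h =>
    cn_eq ((hg hi hj).mul h) (by
      filter_upwards [gen_dense hD hD' y, gen_of_nhds ((hl.isOpen i).eventually_mem hi),
        gen_of_nhds ((hl.isOpen j).eventually_mem hj), cn_gen (hq j y hj)] with z k1 k2 k3 k4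
      rw [k4, hc i j z k1 k2 k3])
  have ind : ∀ {i y}, y ∈ l.U i → (y ∉ {y | ∃ j, y ∈ l.U j ∧
      ¬ (Hol p (cn p (q j)) y ∧ cn p (q j) y ≠ 0)} ↔ Hol p (cn p (q i)) y ∧ cn p (q i) y ≠ 0) :=
    fun {i y} hi => ⟨fun h => by_contra fun k => h ⟨i, hi, k⟩, fun h ⟨j, hj, k⟩ => k
      ⟨((hg hj hi).mul h.1).congr ((key hj hi h.1).mono fun _ => Eq.symm), by
        rw [(key hj hi h.1).self_of_nhds]
        exact mul_ne_zero (pow_ne_zero _ (hl.ne_zero _ _ _ hj hi)) h.2⟩⟩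
  refine ⟨_, fun i => cn p (q i), An.thin (fun y => ?_) fun h => ?_,
    fun i y hi => ⟨?_, fun h => cn_eq h (.of_forall fun _ => rfl), ind hi⟩,
    fun i j y hy hi hj => (key hi hj ((ind hj).1 hy).1).self_of_nhds⟩
  · obtain ⟨i, hi⟩ := hl.cover y
    obtain ⟨u, v, h⟩ := mer_cop (hq i y hi)
    refine ⟨1, fun _ x => u x * v x, fun _ => h.self_of_nhds.1.mul h.self_of_nhds.2.1, ?_⟩
    filter_upwards [h, (hl.isOpen i).eventually_mem hi] with z ⟨hu, hv, _, e, hc⟩ hz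
    rw [forall_const]
    refine not_iff_not.1 ((ind hz).trans ⟨fun k => ?_, fun k => ?_⟩)
    · obtain ⟨k1, k2⟩ := cop_unit hu hv hc k.1 (by
        filter_upwards [e, cn_gen (hq i z hz)] with w a b using b ▸ a)
      exact mul_ne_zero (k2 ▸ mul_ne_zero k.2 k1) k1
    · have k1 := right_ne_zero_of_mul k
      have e' : ∀ᶠ w in gen {z}, q i w = u w / v w := by
        filter_upwards [e, gen_of_nhds (hv.ne_near k1)] with w a b using eq_div_of_mul_eq b a
      exact ⟨cn_hol (hu.div hv k1) e', by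
        rw [(cn_eq (hu.div hv k1) e').self_of_nhds]
        exact div_ne_zero (left_ne_zero_of_mul k) k1⟩
  · obtain ⟨z, k1, k2, k3⟩ := ((not_eventually.1 h2).and_eventually
      (h1.near.and ((hl.isOpen i₀).eventually_mem hy₀))).exists
    refine (ind k3).2 ⟨cn_hol k2 (.of_forall fun _ => rfl), ?_⟩ (h ▸ mem_univ z)
    rwa [(cn_eq k2 (.of_forall fun _ => rfl)).self_of_nhds]
  · obtain ⟨u, v, hu, hv, h0, e⟩ := hq i y hi
    exact ⟨u, v, hu, hv, h0, by
      filter_upwards [e, cn_gen (hq i y hi)] with w a b using b ▸ a⟩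

theorem mon : MON := by
  intro p W κ _ G x ζ f _ hζ hf hol
  obtain ⟨u, v, h⟩ := mer_cop hf
  obtain ⟨hu, hv, h0, -, -⟩ := h.self_of_nhds
  have hP : Hol p (fun y => ∏ k, ζ k y) x := Hol.prod _ fun k _ => (hζ k).hol
  have k1 : ∀ᶠ y in 𝓝 x, y ∈ off G → v y ≠ 0 ∧ f y * v y = u y := by
    filter_upwards [h, hol] with y ⟨a, b, _, c, d⟩ e hy using cop_unit a b d (e hy) c
  have k2 : ∀ᶠ y in 𝓝 x, ∏ k, ζ k y ≠ 0 → y ∈ off G := by
    filter_upwards [eventually_all.2 fun k => (hζ k).1] with y a b k hk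
      using Finset.prod_ne_zero_iff.1 b k (Finset.mem_univ k) ((a k).2 hk)
  have nm : ∀ y (A : ℕ), ∏ k, ‖ζ k y‖ ^ A = ‖(∏ k, ζ k y) ^ A‖ := fun y A => by
    rw [norm_pow, norm_prod, Finset.prod_pow]
  refine ⟨?_, fun hne => ?_⟩
  · obtain ⟨A, c, hc, e⟩ := nul hv hP h0 (by
      filter_upwards [k1, k2] with y a b c using by_contra fun d => (a (b d)).1 c)
    obtain ⟨C, -, hC⟩ := bdd (hc.mul hu)
    refine ⟨C, A, ?_⟩
    filter_upwards [k1, e, hC] with y a b c hy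
    rwa [nm, b, ← norm_mul, mul_left_comm, (a hy).2]
  · have k3 : ∀ᶠ y in 𝓝 x, y ∈ off G → u y ≠ 0 := by
      filter_upwards [k1, hne] with y a b hy using (a hy).2 ▸ mul_ne_zero (b hy) (a hy).1
    by_cases h1 : Nz u x
    · obtain ⟨A, c, hc, e⟩ := nul hu hP h1 (by
        filter_upwards [k3, k2] with y a b c using by_contra fun d => a (b d) c)
      obtain ⟨C, hC0, hC⟩ := bdd (hc.mul hv)
      refine ⟨C⁻¹, A, inv_pos.2 hC0, ?_⟩
      filter_upwards [k1, e, hC] with y a b d hy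
      rw [nm, b, ← (a hy).2, inv_mul_le_iff₀ hC0, mul_comm (f y), ← mul_assoc, norm_mul]
      exact mul_le_mul_of_nonneg_right d (norm_nonneg _)
    · refine ⟨1, 0, one_pos, ?_⟩
      filter_upwards [k3, not_not.1 h1] with y a b hy using (a hy b).elim

end Vale.Agent.P281Z.Lf
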