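import Vale.Agent.P281Z.Lf.AtbC
import Vale.Agent.P281Z.Lf.AtbW

/-!
# P281Z, ATB: holomorphic forms with given jets along the core of a tube
-/

open scoped Manifold ContDiff Topology ComplexConjugate ComplexOrder ENNReal
open Set Filter Metric MeasureTheory
open Vale.Agent.P272.K Vale.Agent.P284 Vale.Agent.P284.H608.K Vale.Agent.P285.H281.FD
open Vale.Agent.P277Z.Van.Ka (sub sub_symm sub_near tr_near tgt)
open Vale.Agent.P284Z (levi cHess_psd_iff)
open Vale.Agent.P284.H619.K (tL Ad_nonneg Ad_mono Ad_smul sq_posSemidef)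

noncomputable section

namespace Vale.Agent.P281Z.Lf

namespace Atb

/-- the cut-off of an entire function -/
theorem exists_F {R : ℕ} {ρ : ℝ} (hρ : 0 < ρ) {f : Cm R → ℂ} (hf : Differentiable ℂ f) :
    ∃ (F : Cm R → ℂ) (A E : ℝ), ContDiff ℝ ∞ F ∧ (∀ y, ρ < ‖y‖ → F y = 0) ∧ (∀ y, ‖F y‖ ≤ A) ∧
      (∀ y, ‖y‖ < ρ / 4 → F y = f y) ∧ 0 ≤ E ∧
      (∀ y ∉ {y : Cm R | ρ / 4 ≤ ‖y‖ ∧ ‖y‖ ≤ ρ}, ∀ l, dzb l F y = 0) ∧
      ∀ y ∈ {y : Cm R | ρ / 4 ≤ ‖y‖ ∧ ‖y‖ ≤ ρ}, ∑ l, ‖dzb l F y‖ ^ 2 ≤ E := by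
  let χ : ContDiffBump (0 : Cm R) := ⟨ρ / 4, ρ, by positivity, by linarith⟩
  have h1 : ContDiff ℝ ∞ fun y => (χ y : ℂ) * f y :=
    (Complex.ofRealCLM.contDiff.comp χ.contDiff).mul (contDiff_iff_contDiffAt.2 fun y =>
      (P281.MF.analyticAt_of_differentiableOn isOpen_univ hf.differentiableOn
        (mem_univ y)).restrictScalars.contDiffAt)
  have h2 : ∀ y, ρ < ‖y‖ → (χ y : ℂ) * f y = 0 := fun y hy => by
    rw [χ.zero_of_le_dist (by rw [dist_zero_right]; exact hy.le), Complex.ofReal_zero, zero_mul]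
  have h3 : ∀ y, ‖y‖ < ρ / 4 → (χ y : ℂ) * f y = f y := fun y hy => by
    rw [χ.one_of_mem_closedBall (mem_closedBall_zero_iff.2 hy.le), Complex.ofReal_one, one_mul]
  obtain ⟨A, hA⟩ := h1.continuous.bounded_above_of_compact_support (HasCompactSupport.intro
    (isCompact_closedBall 0 ρ) fun y hy => h2 y (not_le.1 fun h =>
      hy (mem_closedBall_zero_iff.2 h)))
  have h4 := h1.continuous_fderiv (by simp)
  obtain ⟨E, hE⟩ := (isCompact_closedBall (0 : Cm R) ρ).exists_bound_of_continuousOn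
    (f := fun y => ∑ l, ‖dzb l (fun y => (χ y : ℂ) * f y) y‖ ^ 2)
    (Continuous.continuousOn (by unfold dzb; fun_prop))
  refine ⟨_, A, |E|, h1, h2, hA, h3, abs_nonneg E, fun y hy l => ?_, fun y hy =>
    (le_abs_self _).trans ((hE y (mem_closedBall_zero_iff.2 hy.2)).trans (le_abs_self E))⟩
  rcases not_and_or.1 hy with h | h
  · have : (fun y => (χ y : ℂ) * f y) =ᶠ[𝓝 y] f :=
      (continuous_norm.continuousAt.eventually_lt continuousAt_const (not_le.1 h)).mono h3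
    rw [← dzb_of_holo (i := l) (hf y), dzb, dzb, this.fderiv_eq]
  · have : (fun y => (χ y : ℂ) * f y) =ᶠ[𝓝 y] fun _ => 0 :=
      (continuousAt_const.eventually_lt continuous_norm.continuousAt (not_le.1 h)).mono h2
    simp [dzb, this.fderiv_eq]

variable {n R p K : ℕ} {X : Type} [TopologicalSpace X] [ChartedSpace (Cm n) X] {Ω N : Set X}
  {h : Chart n X → Cm n → Matrix (Fin n) (Fin n) ℂ} {β : X → Cm R} {ρ c t : ℝ} {G : Cm R → ℝ}
  {e : Chart n X} {x : X} {L : Bd X} {φ : L.ι → X → ℝ} {P : L.ι → X → ℂ} {i : L.ι}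

open Classical in
/-- the weight -/
def wt (N : Set X) (β : X → Cm R) (G : Cm R → ℝ) (x : X) : ℝ := if x ∈ N then G (β x) else 0

theorem anB (T : Tube n Ω h p ρ N β) (he : At e x) (hx : x ∈ N) :
    AnalyticAt ℂ (fun z => β (e.symm z)) (e x) := AnalyticAt.pi fun k => T.hol x hx k e he

theorem wt_in (T : Tube n Ω h p ρ N β) (he : At e x) (hx : x ∈ N) :
    (fun z => wt N β G (e.symm z)) =ᶠ[𝓝 (e x)] fun z => G (β (e.symm z)) :=
  ((e.tendsto_symm he.2).eventually (T.opn.mem_nhds hx)).mono fun _ hz => if_pos hz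

theorem wt_out (hρ : 0 < ρ) (T : Tube n Ω h p ρ N β) (hG : Wg ρ K c t G) (he : At e x) (h1 : x ∈ Ω)
    (hx : x ∉ N) : (fun z => wt N β G (e.symm z)) =ᶠ[𝓝 (e x)] fun _ => 0 :=
  ((e.tendsto_symm he.2).eventually (isClosed_closure.isOpen_compl.mem_nhds fun h' =>
    hx (T.cls x h1 h'))).mono fun z hz => by
      beta_reduce
      unfold wt
      split_ifs with h2
      · exact hG.zero _ (le_trans (by linarith) (not_le.1 fun h3 => hz (subset_closure ⟨h2, h3⟩)).le)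
      · rfl

theorem wt_wt (hρ : 0 < ρ) (T : Tube n Ω h p ρ N β) (hG : Wg ρ K c t G) :
    Wt n Ω N β (wt N β G) := by
  refine ⟨fun e x he h1 => ?_, fun e x he h1 v hv => ?_⟩ <;> by_cases hx : x ∈ N
  · exact (hG.sm.contDiffAt.comp _ (anB T he hx).restrictScalars.contDiffAt).congr_of_eventuallyEq
      (wt_in T he hx)
  · exact contDiffAt_const.congr_of_eventuallyEq (wt_out hρ T hG he h1 hx)
  · rw [dv_congr (wt_in T he hx)]
    exact dv_comp (hG.sm.differentiable (by simp) _) (anB T he hx).differentiableAt (hv hx)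
  · rw [dv_congr (wt_out hρ T hG he h1 hx)]
    simp [dv, dz]

/-- the curvature of the total weight -/
theorem curv (hρ : 0 < ρ) (hc : 0 ≤ c) (T : Tube n Ω h p ρ N β) (hG : Wg ρ K c t G)
    (lb : LBOn n Ω L φ) (Fm : Frm n φ N β ρ (2 * c + 4 * R) P) (he : At e x) (hi : x ∈ L.U i) :
    (cHess (fun z => φ i (e.symm z) + wt N β G (e.symm z)) (e x) -
      ((2⁻¹ : ℝ) : ℂ) • cHess (fun z => φ i (e.symm z)) (e x)).PosSemidef ∧
    (x ∈ N → ‖β x‖ ≤ ρ → (cHess (fun z => φ i (e.symm z) + wt N β G (e.symm z)) (e x) -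
      ((1 : ℝ) : ℂ) • H619.K.sq (tL (dB β e x))).PosSemidef) := by
  have a1 := (lb.sm i e x he hi).of_le two_le
  have a2 := ((wt_wt hρ T hG).sm e x he (lb.sub i hi)).of_le two_le
  have a3 : ∀ v, x ∈ N → levi (fun z => wt N β G (e.symm z)) (e x) v =
      levi G (β x) (dB β e x v) := fun v hx => by
    rw [Hm.levi_congr (wt_in T he hx), Hm.levi_comp (hG.sm.contDiffAt.of_le two_le) (anB T he hx),
      he.left_inv]
    rfl
  refine ⟨psd_sub (herm_smul _ (herm_cHess a1)) (herm_cHess (a1.add a2)) fun v => ?_, fun hx hb =>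
    psd_sub (herm_smul _ (sq_posSemidef _).1) (herm_cHess (a1.add a2)) fun v => ?_⟩
  · rw [qd_smul, qd_cHess a1, qd_cHess (a1.add a2), Hm.levi_add a1 a2]
    have b1 := Fm.psd i e x he hi v
    by_cases hx : x ∈ N
    · rw [a3 v hx]
      rcases le_or_gt ‖β x‖ ρ with hb | hb
      · have b2 : 0 ≤ (R : ℝ) * ‖dB β e x v‖ ^ 2 := by positivity
        linarith [Fm.pos i e x he hx hi hb v, hG.low (β x) (dB β e x v)]
      · rw [Hm.levi_congr (b := fun _ => 0) ((continuousAt_const.eventually_lt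
          continuous_norm.continuousAt hb).mono fun y hy => hG.zero y (by linarith)), Hm.levi_const]
        linarith
    · rw [Hm.levi_congr (wt_out hρ T hG he (lb.sub i hi) hx), Hm.levi_const]
      linarith
  · rw [qd_smul, qd_sq, qd_cHess (a1.add a2), Hm.levi_add a1 a2, a3 v hx]
    have b2 : 0 ≤ c * ‖dB β e x v‖ ^ 2 := by positivity
    linarith [Fm.pos i e x he hx hi hb v, hG.low (β x) (dB β e x v), sum_le (dB β e x v)]

variable [IsManifold 𝓘(ℂ, Cm n) ω X] [MeasurableSpace Ω] [BorelSpace Ω] {μ : Measure Ω} {x₀ : Ω}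
  {Ψ : X → ℝ}

omit [BorelSpace Ω] in
theorem tb (D : Dt h x₀ μ L φ Ψ) (T : Tube n Ω h p ρ N β) (Fm : Frm n φ N β ρ c P)
    (W : Wt n Ω N β Ψ) : Tb (ka D) p ρ (Subtype.val ⁻¹' N) (fun x => β x.1)
      (fun i z => β (i.1.1.symm z)) fun i z => P i.1.2 (i.1.1.symm z) where
  opn := T.opn.preimage continuous_subtype_val
  eq i _ hx := congrArg β (i.1.1.left_inv hx.1)
  an i _ hx hN := ⟨anB T ⟨i.2, hx.1⟩ hN, Fm.hol _ _ hN hx.2 _ ⟨i.2, hx.1⟩⟩
  rk i _ hx hN := T.rk _ _ ⟨i.2, hx.1⟩ hN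
  cls x hx := T.cls _ x.2 (map_mem_closure continuous_subtype_val hx fun _ hy => hy)
  chg i j x hi hj hN := by
    change P _ (i.1.1.symm (i.1.1 x.1)) =
      L.g _ _ (i.1.1.symm (i.1.1 x.1)) * P _ (j.1.1.symm (j.1.1 x.1))
    rw [i.1.1.left_inv hi.1, j.1.1.left_inv hj.1, Fm.chg _ _ _ hN hi.2 hj.2]
  flat i x hx hN v hv := by
    have he : At i.1.1 x.1 := ⟨i.2, hx.1⟩
    have h1 := dv_add ((D.lb.sm _ _ _ he hx.2).differentiableAt (by simp))
      ((D.sm _ _ he x.2).differentiableAt (by simp)) v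
    rw [W.ker _ _ he x.2 v fun _ => hv, add_zero] at h1
    refine (Fm.flat _ _ _ he hN hx.2 v hv).trans (congrArg₂ _ ?_ h1.symm)
    exact congrArg (P _) he.left_inv.symm

open Classical in
/-- the form on `X` -/
def frm (D : Dt h x₀ μ L φ Ψ) (s : (ka D).Fm p) : Fr n L p := fun i e =>
  if he : e ∈ atlas (Cm n) X then s ⟨(e, i), he⟩ else 0

omit [BorelSpace Ω] in
theorem frm_eq (D : Dt h x₀ μ L φ Ψ) (s : (ka D).Fm p) (he : e ∈ atlas (Cm n) X) :
    frm D s i e = s ⟨(e, i), he⟩ := dif_pos he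

omit [BorelSpace Ω] in
theorem mem_tgt (D : Dt h x₀ μ L φ Ψ) (he : At e x) (hi : x ∈ L.U i) :
    e x ∈ ((ka D).e ⟨(e, i), he.1⟩).target :=
  ((ka D).e ⟨(e, i), he.1⟩).map_source (x := ⟨x, D.lb.sub i hi⟩) ⟨he.2, hi⟩

variable [T2Space X]

theorem sol (D : Dt h x₀ μ L φ Ψ) {M : ℝ} (hM : ∀ x, Ψ x ≤ M) {s : (ka D).Fm p}
    (h1 : (ka D).IsForm s) (h2 : (ka D).Hol s) (h3 : ∀ i, ∀ z ∈ ((ka D).e i).target,
      Ad ((ka D).w i z) (cHess ((ka D).φ i) z) (s i z) = 0 ∧ dhL ((ka D).φ i) (s i) z = 0)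
    (h4 : (ka D).nl s < ⊤) (h5 : ∀ i (e : Chart n X) x, At e x → x ∈ L.U i →
      (cHess (fun z => φ i (e.symm z)) (e x)).PosSemidef ∧
      (cHess (fun z => φ i (e.symm z) + Ψ (e.symm z)) (e x) -
        ((2⁻¹ : ℝ) : ℂ) • cHess (fun z => φ i (e.symm z)) (e x)).PosSemidef) :
    Sol n h φ Ψ (frm D s) := by
  refine ⟨⟨fun i e x he hi => ?_, fun i j e e' x he he' hi hj => ?_⟩, fun i e x he hi => ?_,
    fun i e x he hi => ?_, fun e x he => ?_⟩
  · rw [frm_eq D s he.1]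
    exact h2 _ _ (mem_tgt D he hi)
  · have := h1.change ⟨(e, i), he.1⟩ ⟨(e', j), he'.1⟩ ⟨x, D.lb.sub i hi⟩ ⟨he.2, hi⟩ ⟨he'.2, hj⟩
    rw [frm_eq D s he.1, frm_eq D s he'.1, ← (tr_near (hU := D.lb.isOpen i) (hU' := D.lb.isOpen j)
      (hΩ := D.vol.ck.opn) (e' := e') (mem_tgt D he hi)).fderiv_eq]
    exact this.trans (congrArg (fun y => L.g i j y • _) he.left_inv)
  · have hw := (ka D).wpos _ _ (mem_tgt D he hi)
    have a1 := (Ad_mono hw (h5 i e x he hi).2 _).trans_eq (h3 _ _ (mem_tgt D he hi)).1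
    have a2 := Ad_nonneg hw (h5 i e x he hi).1 (s ⟨(e, i), he.1⟩ (e x))
    rw [Ad_smul] at a1
    rw [frm_eq D s he.1]
    exact (mul_eq_zero.1 (le_antisymm a1 (mul_nonneg (Complex.zero_le_real.2 (by norm_num))
      a2))).resolve_left (by norm_num)
  · rw [frm_eq D s he.1]
    exact (h3 _ _ (mem_tgt D he hi)).2
  · obtain ⟨C, O, a1, -, a2, a3⟩ := D.vol.loc p he
    obtain ⟨ν, a4, a5⟩ := a3 L φ Ψ D s h1 (H286.K.smooth_of_hol h2)
    refine ⟨O, a1, a2, fun z => ENNReal.ofReal (Real.exp M) * ν z, ?_, fun z hz i hi => ?_⟩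
    · rw [lintegral_const_mul' _ _ ENNReal.ofReal_ne_top]
      exact ENNReal.mul_lt_top ENNReal.ofReal_lt_top (((setLIntegral_le_lintegral _ _).trans
        a4).trans_lt (ENNReal.mul_lt_top ENNReal.ofReal_lt_top h4))
    · refine le_trans ?_ (mul_le_mul_right (a5 z hz i hi) _)
      rw [← ENNReal.ofReal_mul (Real.exp_pos _).le, ← mul_assoc, ← Real.exp_add, frm_eq D s he.1]
      exact ENNReal.ofReal_le_ofReal (mul_le_mul_of_nonneg_right
        (Real.exp_le_exp.2 (by linarith [hM (e.symm z)])) (sq_nonneg _))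

/-- one line bundle -/
theorem one [CompactSpace X] (V : Vol h x₀ μ) (hρ : 0 < ρ) (hc : 0 ≤ c) {G : ℝ → Cm R → ℝ}
    (hG : ∀ t ∈ Ioc (0 : ℝ) 1, Wg ρ (n + 2) c t (G t)) (T : Tube n Ω h (p + 1) ρ N β)
    (lb : LBOn n Ω L φ) (Fm : Frm n φ N β ρ (2 * c + 4 * R) P) {f : Cm R → ℂ}
    (hf : Differentiable ℂ f) (I : Fin (p + 1) → Fin R) :
    ∃ b : ℝ → Fr n L (p + 1), (∀ t ∈ Ioc (0 : ℝ) 1, Sol n h φ (wt N β (G t)) (b t)) ∧
      ∀ x e i ε, x ∈ N → β x = 0 → At e x → x ∈ L.U i → 0 < ε → ∀ᶠ t in 𝓝[>] (0 : ℝ),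
        Jet (fun z => (f (β (e.symm z)) * P i (e.symm z)) • dX (fun z k => β (e.symm z) (I k)) z)
          (b t i e) (e x) ε := by
  classical
  obtain ⟨F, A, E, F1, F2, F3, F4, F5, F6, F7⟩ := exists_F hρ hf
  obtain ⟨Cm', hm⟩ := T.met
  obtain ⟨Cp, hp⟩ := Fm.bd
  obtain ⟨ct⟩ := V.ck.cut
  set Q := |Cp| * |(((p + 1 : ℕ) : ℝ) * Cm' + 1) ^ n| with hQ
  have Q0 : 0 ≤ Q := by positivity
  have D : ∀ t ∈ Ioc (0 : ℝ) 1, Dt h x₀ μ L φ (wt N β (G t)) := fun t ht =>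
    ⟨V, lb, (wt_wt hρ T (hG t ht)).sm⟩
  have key : ∀ t ht, ∃ s : (ka (D t ht)).Fm (p + 1), Sol n h φ (wt N β (G t)) (frm (D t ht) s) ∧
      (ka (D t ht)).IsForm s ∧ (ka (D t ht)).Hol s ∧ (ka (D t ht)).nl (s - s0 (ka (D t ht)) (Subtype.val ⁻¹' N)
        (fun i z => β (i.1.1.symm z)) (fun i z => P i.1.2 (i.1.1.symm z)) F (DI I)) ≤
          ENNReal.ofReal (E * (Q * (μ univ).toReal)) := fun t ht => by
    obtain ⟨M, hM⟩ := (hG t ht).bd
    have cv := fun i e x => curv (i := i) (e := e) (x := x) hρ hc T (hG t ht) lb Fm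
    have c0 : ∀ i (e : Chart n X) x, At e x → x ∈ L.U i →
        (cHess (fun z => φ i (e.symm z)) (e x)).PosSemidef := fun i e x he hi =>
      (cHess_psd_iff ((lb.sm i e x he hi).of_le two_le)).2 (Fm.psd i e x he hi)
    have nb : ∀ i, ∀ x ∈ ((ka (D t ht)).e i).source, x.1 ∈ N → ‖β x.1‖ ≤ ρ →
        nP (ka (D t ht)) (fun i z => β (i.1.1.symm z)) (fun i z => P i.1.2 (i.1.1.symm z)) (DI I) i
          ((ka (D t ht)).e i x) ≤ Real.exp (-G t (β x.1)) * Q := fun i x hx hN hb => by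
      have he : At i.1.1 x.1 := ⟨i.2, hx.1⟩
      have hw := H205.K.wp hx
      have a1 := mul_le_mul ((hp _ _ hN hx.2 hb).trans (le_abs_self _)) ((hn_DI I hw _
        (hm _ _ he hN hb)).trans (le_abs_self _)) (H366.K.hn_self_nonneg H752.k1Stmt hw _)
        (abs_nonneg _)
      refine le_of_eq_of_le ?_ (mul_le_mul_of_nonneg_left a1 (Real.exp_pos _).le)
      change Real.exp (-(φ _ (i.1.1.symm (i.1.1 x.1)) + wt N β (G t) (i.1.1.symm (i.1.1 x.1)))) *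
        ‖P _ (i.1.1.symm (i.1.1 x.1))‖ ^ 2 * _ = _
      rw [he.left_inv, wt, if_pos hN, neg_add, Real.exp_add, mul_comm (Real.exp (-φ _ _)),
        mul_assoc, mul_assoc, ← mul_assoc (Real.exp (-φ _ _))]
      rfl
    obtain ⟨s, h1, h2, h3, h4, h5⟩ := (tb (D t ht) T Fm (wt_wt hρ T (hG t ht))).core
      (cut (D t ht) ct) V.fin (DI I) F2 F1 (fun i => tgt' fun x hx => by
        have := (cv _ _ _ ⟨i.2, hx.1⟩ hx.2).1.add ((c0 _ _ _ ⟨i.2, hx.1⟩ hx.2).smul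
          (Complex.zero_le_real.2 (by norm_num : (0 : ℝ) ≤ 2⁻¹)))
        rwa [sub_add_cancel] at this) F3 (B := Real.exp M * Q) (by positivity)
      (fun i x hx hN hb => (nb i x hx hN hb).trans (mul_le_mul_of_nonneg_right
        (Real.exp_le_exp.2 (neg_le.1 (neg_le_of_abs_le (hM _)))) Q0)) F5 Q0 F6 F7
      fun i x hx hN hb => ⟨(nb i x hx hN hb.2).trans_eq (by
        rw [(hG t ht).zero _ hb.1, neg_zero, Real.exp_zero, one_mul]),
        (cv _ _ _ ⟨i.2, hx.1⟩ hx.2).2 hN hb.2⟩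
    refine ⟨s, sol (D t ht) (M := M) (fun x => ?_) h1 h2 h3 h4
      fun i e x he hi => ⟨c0 i e x he hi, (cv i e x he hi).1⟩, h1, h2, h5⟩
    unfold wt
    split_ifs
    exacts [le_of_abs_le (hM _), (abs_nonneg _).trans (hM 0)]
  choose s k1 k2 k3 k4 using key
  refine ⟨fun t => if ht : t ∈ Ioc (0 : ℝ) 1 then frm (D t ht) (s t ht) else 0,
    fun t ht => by simpa only [dif_pos ht] using k1 t ht, fun x e i ε hx h0 he hi hε => ?_⟩
  obtain ⟨C, O, a1, C0, -, a3⟩ := V.loc (p + 1) he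
  have b0 : β (e.symm (e x)) = 0 := by rw [he.left_inv, h0]
  obtain ⟨a, a0, b1⟩ := (anB T he hx).differentiableAt.hasFDerivAt.isBigO_sub.exists_pos
  obtain ⟨r, r0, hr⟩ := Metric.eventually_nhds_iff_ball.1 (b1.bound.and ((Eventually.and a1
    (e.open_target.mem_nhds (e.map_source he.2))).and (((e.tendsto_symm he.2).eventually
    (inter_mem (T.opn.mem_nhds hx) ((lb.isOpen i).mem_nhds hi))).and
    (((anB T he hx).continuousAt.norm.eventually_lt_const (u := ρ / 8)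
      (by beta_reduce; rw [b0, norm_zero]; positivity)).and
    ((lb.sm i e x he hi).continuousAt.eventually_lt_const (lt_add_one _))))))
  set A' := φ i (e.symm (e x)) + 1
  filter_upwards [jet_small n (Af n (p + 1)) (Real.exp A' * (R * a ^ 2 + 1) ^ (n + 2) *
    (C * (E * (Q * (μ univ).toReal)))) hε, Ioc_mem_nhdsGT one_pos, Ioc_mem_nhdsGT r0]
    with t j1 ht htr
  have hs : ∀ z ∈ ball (e x) t, _ := fun z hz => hr z (ball_subset_ball htr.2 hz)
  have at' : ∀ z ∈ ball (e x) t, At e (e.symm z) := fun z hz => At.of_target he.1 (hs z hz).2.1.2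
  have tg : ∀ z ∈ ball (e x) t, z ∈ ((ka (D t ht)).e ⟨(e, i), he.1⟩).target := fun z hz =>
    ⟨(hs z hz).2.1.2, (hs z hz).2.2.1.2, lb.sub i (hs z hz).2.2.1.2⟩
  have an : ∀ z ∈ ball (e x) t, AnalyticAt ℂ (fun z => β (e.symm z)) z := fun z hz =>
    tgt (hs z hz).2.1.2 (anB T (at' z hz) (hs z hz).2.2.1.1)
  have d1 : ∀ z ∈ ball (e x) t, DifferentiableAt ℂ (fun z => (f (β (e.symm z)) * P i (e.symm z)) •
      dX (fun z k => β (e.symm z) (I k)) z) z := fun z hz =>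
    (((hf _).comp z (an z hz).differentiableAt).mul (tgt (hs z hz).2.1.2 (Fm.hol i _
      (hs z hz).2.2.1.1 (hs z hz).2.2.1.2 e (at' z hz))).differentiableAt).smul (an_pull
      (((prI I).analyticAt _).comp (an z hz)) (detF (p + 1))).differentiableAt
  have d2 : ∀ z ∈ ball (e x) t, DifferentiableAt ℂ (s t ht ⟨(e, i), he.1⟩) z := fun z hz =>
    (k3 t ht _ z (tg z hz)).differentiableAt
  have T' := tb (D t ht) T Fm (wt_wt hρ T (hG t ht))
  obtain ⟨ν, n1, n2⟩ := a3 L φ _ (D t ht) _ (H286.K.form_sub (k2 t ht) (T'.form (F := F) (DI I)))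
    (H286.K.smooth_sub (H286.K.smooth_of_hol (k3 t ht)) (T'.smooth (DI I) F2 F1))
  have j2 := j1 _ (e x) (fun z hz => ((d2 z hz).sub (d1 z hz)).differentiableWithinAt) ?_
  · rw [Jet, dif_pos ht, frm_eq _ _ he.1, ← fderiv_sub (d2 _ (mem_ball_self ht.1))
      (d1 _ (mem_ball_self ht.1))]
    exact j2
  have c1 : 0 ≤ Real.exp A' * ((R * a ^ 2 + 1) * t ^ 2) ^ (n + 2) := by positivity
  refine (setLIntegral_mono' (g := fun z => ENNReal.ofReal
    (Real.exp A' * ((R * a ^ 2 + 1) * t ^ 2) ^ (n + 2)) * ν z) measurableSet_ball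
    fun z hz => ?_).trans ?_
  · obtain ⟨e1, e2, e3, e4, e5⟩ := hs z hz
    refine le_trans ?_ (mul_le_mul_right (n2 z e2.1 i e3.2) _)
    rw [← ENNReal.ofReal_mul c1, ← mul_assoc]
    refine ENNReal.ofReal_le_ofReal (le_of_eq_of_le ?_ (le_mul_of_one_le_left (sq_nonneg _) ?_))
    · refine congrArg (fun y => ‖s t ht ⟨(e, i), he.1⟩ z - y‖ ^ 2) (Eq.trans ?_ (if_pos ⟨tg z hz, by
        rw [mem_preimage, show (((ka (D t ht)).e _).symm z).1 = _ from
          sub_symm (hU := lb.isOpen i) (hΩ := V.ck.opn) (tg z hz)]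
        exact e3.1⟩).symm)
      beta_reduce
      rw [F4 _ (by linarith), dX_eq I (an z hz).differentiableAt]
    · rw [b0, sub_zero] at e1
      have e6 := (hG t ht).pole _ a e4.le (e1.trans (mul_le_mul_of_nonneg_left
        (mem_ball_iff_norm.1 hz).le a0.le))
      rw [wt, if_pos e3.1, Real.exp_neg, ← div_eq_mul_inv, one_le_div (Real.exp_pos _),
        Real.exp_add]
      exact mul_le_mul (Real.exp_le_exp.2 e5.le) e6 (Real.exp_pos _).le (Real.exp_pos _).le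
  · rw [lintegral_const_mul' _ _ ENNReal.ofReal_ne_top]
    refine (mul_le_mul_right ((setLIntegral_le_lintegral _ _).trans
      (n1.trans (mul_le_mul_right (k4 t ht) _))) _).trans_eq ?_
    rw [← ENNReal.ofReal_mul C0, ← ENNReal.ofReal_mul c1]
    congr 1
    rw [mul_pow, ← pow_mul, show 2 * (n + 2) = 2 * n + 4 by ring]
    ring

end Atb

open Atb in
/-- **ATB** -/
theorem atb : ATB := by
  intro n R ρ hρ
  obtain ⟨c, G, hc, hG⟩ := exists_wg R hρ (n + 2)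
  refine ⟨2 * c + 4 * R, fun W Ω h ck r N β T τ _ x₀ e₀ hx I J _ L φ P f i₀ hL ε hε => ?_⟩
  rcases Ω.eq_empty_or_nonempty with rfl | ⟨y, hy⟩
  · have h0 : ∀ j i x, x ∉ (L j).U i := fun j i x hx => (hL j).1.sub i hx
    exact ⟨0, ⟨fun _ _ _ h => h.elim, fun _ _ _ h => h.elim⟩, fun j => ⟨0,
      ⟨⟨fun _ _ _ _ h => (h0 _ _ _ h).elim, fun _ _ _ _ _ _ _ h => (h0 _ _ _ h).elim⟩,
        fun _ _ _ _ h => (h0 _ _ _ h).elim, fun _ _ _ _ h => (h0 _ _ _ h).elim,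
        fun e x he => ⟨_, e.open_target.mem_nhds (e.map_source he.2), subset_rfl, 0, by simp,
          fun _ _ _ h => (h0 _ _ _ h).elim⟩⟩, fun t => (T.sub (hx t).1).elim⟩⟩
  let _ : MeasurableSpace Ω := borel Ω
  have : BorelSpace Ω := ⟨rfl⟩
  obtain ⟨μ, V⟩ := exists_vol ck ⟨y, hy⟩
  choose b h1 h2 using fun j => one V hρ hc hG T (hL j).1 (hL j).2.1 (hL j).2.2.1 I
  obtain ⟨t, ht, h3⟩ := (Eventually.and (Ioc_mem_nhdsGT one_pos) (eventually_all.2 fun j =>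
    eventually_all.2 fun t => h2 j (x₀ t) (e₀ t) (i₀ j t) ε (hx t).1 (hx t).2.1 (hx t).2.2
      ((hL j).2.2.2 t) hε)).exists
  exact ⟨_, wt_wt hρ T (hG t ht), fun j => ⟨b j t, h1 j t ht, h3 j⟩⟩

end Vale.Agent.P281Z.Lf
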