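import Vale.Agent.P281Z.Lf.Van

/-!
# P281Z, the base of the variation: upper bounds for the number of sections
-/

open scoped Manifold ContDiff Topology
open Set Filter
open Vale.Agent.P272.K Vale.Agent.P285.H281.FD
open Vale.Agent.P277Z.Slc (lin triv isLB_triv)
open Vale.Agent.P277.HD (pull)
open Vale.Agent.P284Z (levi)

noncomputable section

namespace Vale.Agent.P281Z.Lf

namespace Vn

/-- POLY in the dimension `d` -/
def PolyD (d : ℕ) : Prop := ∀ (X : Mf d) (α : Type) [Fintype α] (E : α → Bd X.X) (a₀ : α),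
  (∀ a, IsLB d (E a)) → Pos d (E a₀) → Bpf d (E a₀) → ∃ C : ℕ, ∀ (N : ℕ) (n : α → ℤ),
    (∀ a, |n a| ≤ N) → ∀ k, Ge d (lin E n) k → k ≤ C * (N + 1) ^ d

/-- CNT in the dimension `d` -/
def CntD (μ d : ℕ) : Prop := ∀ (X : Mf d) (α : Type) [Fintype α] (E : α → Bd X.X) (a₀ a₁ : α)
  (κ : Type) [Fintype κ] (G : κ → Set X.X) φ, a₀ ≠ a₁ → (∀ a, IsLB d (E a)) →
  Pos d (E a₀) → Bpf d (E a₀) → P277Z.Slc.Snc d G → NullW d G (E a₁) φ μ →
  ∃ C : ℕ, ∀ (N c : ℕ) (n : α → ℤ), n a₁ = c → (∀ a, a ≠ a₁ → |n a| ≤ N) →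
    ∀ k, Ge d (lin E n) k → k ≤ C * (N + 1) ^ (d - μ) * (N + c + 1) ^ μ

theorem poly_zero : PolyD 0 := by
  intro X α _ E a₀ hE _ _
  have : DiscreteTopology X.X := ChartedSpace.discreteTopology (Cm 0) X.X
  have : Finite X.X := finite_of_compact_of_discrete
  have := Fintype.ofFinite X.X
  refine ⟨Fintype.card X.X, fun N n _ k ⟨s, hs, h⟩ => ?_⟩
  choose i hi using (lb_lin hE n).cover
  have key : LinearIndependent ℂ fun j x => s j (i x) x :=
    Fintype.linearIndependent_iff.2 fun c hc => congrFun (h c fun a x ha => by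
      have h1 : ∑ j, c j * s j (i x) x = 0 := by simpa using congrFun hc x
      simp only [fun j => (hs j).change a _ x ha (hi x), mul_left_comm (c _), ← Finset.mul_sum, h1,
        mul_zero])
  simpa using key.fintype_card_le_finrank

theorem cnt_ind (subm : SUBM) (slice : SLICE) (pl : PULL) (step : STEP) (vn : VAN) {μ : ℕ}
    (base : ∀ d ≤ μ, PolyD d) (d : ℕ) : CntD μ d := by
  have low : ∀ d ≤ μ, CntD μ d := fun d hd X α _ E a₀ a₁ κ _ G φ _ hE hp hb _ _ => by
    obtain ⟨C, hC⟩ := base d hd X α E a₀ hE hp hb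
    refine ⟨C, fun N c n h1 h2 k hk => (hC (N + c) n (fun a => ?_) k hk).trans ?_⟩
    · by_cases h : a = a₁
      · rw [h, h1, abs_of_nonneg (Int.natCast_nonneg c)]
        exact_mod_cast Nat.le_add_left c N
      · exact (h2 a h).trans (by exact_mod_cast Nat.le_add_right N c)
    · rw [Nat.sub_eq_zero_of_le hd, pow_zero, mul_one]
      exact Nat.mul_le_mul_left _ (Nat.pow_le_pow_right (Nat.succ_pos _) hd)
  induction d with
  | zero => exact low 0 μ.zero_le
  | succ d ih =>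
  rcases le_or_gt (d + 1) μ with hd | hd
  · exact low _ hd
  intro X α _ E a₀ a₁ κ _ G φ h01 hE hp hb hG hN
  classical
  obtain ⟨H, σ, hH, hS⟩ := slice _ X _ κ G (hE a₀) hb hG
  obtain ⟨⟨p1, p2⟩, p3⟩ := pl d X κ G H hS
  obtain ⟨F, i, hi⟩ := subm _ _ X H p1 p2
  obtain ⟨q1, -, q2⟩ := p3 F i hi
  obtain ⟨C, hC⟩ := ih F α (fun a => pull i (E a)) a₀ a₁ κ _ _ h01 (fun a => (q2 _ (hE a)).1)
    ((q2 _ (hE _)).2.1 hp) ((q2 _ (hE _)).2.2.1 hb) q1 ((q2 _ (hE _)).2.2.2 φ μ hN)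
  obtain ⟨b, hb⟩ := vn _ X α E a₀ a₁ κ G φ μ h01 hE hp hG hN hd
  refine ⟨(b + 1) * C * (b + 2) ^ (d - μ) * (b + 2) ^ μ, fun N c n h1 h2 k hk => ?_⟩
  obtain ⟨T, hT⟩ : ∃ T, T = (b + 1) * (N + 1) := ⟨_, rfl⟩
  obtain ⟨K, hK⟩ : ∃ K, K = C * (N + T + 1) ^ (d - μ) * (N + T + c + 1) ^ μ := ⟨_, rfl⟩
  have e1 : ∀ j : ℕ, (n - Pi.single a₀ (j : ℤ) : α → ℤ) a₁ = c := fun j => by
    rw [Pi.sub_apply, Pi.single_eq_of_ne h01.symm, sub_zero, h1]
  have key : ∀ j ≤ T, Ge (d + 1) (lin E (n - Pi.single a₀ (j : ℤ))) (k - j * K) := fun j hj => by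
    induction j with
    | zero => simpa using hk
    | succ j ihj =>
      have := step d X α E a₀ σ H F i _ _ K hE hH hi (fun k' h => hK ▸ hC (N + T) c _ (e1 j)
        (fun a ha => by
          have := abs_le.1 (h2 a ha)
          by_cases h : a = a₀
          · rw [h, Pi.sub_apply, Pi.single_eq_same, abs_le]
            rw [h] at this
            constructor <;> push_cast <;> omega
          · rw [Pi.sub_apply, Pi.single_eq_of_ne h, abs_le]
            constructor <;> push_cast <;> omega) k' h) (ihj (Nat.le_of_succ_le hj))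
      rwa [sub_sub, ← Pi.single_add, Nat.sub_sub, ← add_one_mul, ← Nat.cast_add_one] at this
  obtain ⟨s, hs, h⟩ := key T le_rfl
  have h3 := h (fun _ => 1) fun a x ha => Finset.sum_eq_zero fun j _ => by
    rw [hb N _ (e1 T ▸ Int.natCast_nonneg c) (fun a h h' => by
      rw [Pi.sub_apply, Pi.single_eq_of_ne h, sub_zero]
      exact h2 a h') (by
      have := (abs_le.1 (h2 a₀ h01)).2
      rw [Pi.sub_apply, Pi.single_eq_same, hT]
      push_cast
      linarith) _ (hs j) a x ha, mul_zero]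
  have h4 : k ≤ T * K := Nat.le_of_not_lt fun h =>
    one_ne_zero (congrFun h3 ⟨0, Nat.sub_pos_of_lt h⟩)
  have h5 : N + T + c + 1 ≤ (b + 2) * (N + c + 1) := by
    rw [hT]
    nlinarith [Nat.zero_le (b * c)]
  refine h4.trans (le_of_le_of_eq (Nat.mul_le_mul_left _ (hK.trans_le (Nat.mul_le_mul_left _
    (Nat.pow_le_pow_left h5 μ)))) ?_)
  rw [show N + T + 1 = (b + 2) * (N + 1) by rw [hT]; ring, hT, Nat.succ_sub (Nat.le_of_lt_succ hd),
    mul_pow, mul_pow, pow_succ]
  ring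

end Vn

open Vn

theorem poly_of (subm : SUBM) (slice : SLICE) (pl : PULL) (step : STEP) (vn : VAN) : POLY := by
  intro d X α _ E a₀ hE hp hb
  obtain ⟨C, hC⟩ := cnt_ind subm slice pl step vn (μ := 0)
    (fun d hd => Nat.le_zero.1 hd ▸ poly_zero) d X (Option α) (fun o => o.elim (triv _) E) (some a₀)
    none Empty (fun _ => ∅) (fun _ _ => 0) (Option.some_ne_none _) (Option.rec isLB_triv hE) hp hb
    (fun x => ⟨fun _ _ => 0, fun l => l.elim, fun l => l.1.elim, fun _ _ =>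
      have : IsEmpty {l : Empty // x ∈ (∅ : Set X.X)} := ⟨fun l => l.1.elim⟩
      linearIndependent_empty_type⟩)
    ⟨fun _ _ _ _ _ _ => contDiffAt_const, fun _ _ _ _ _ _ => by simp [triv],
      fun _ _ _ _ _ _ => ⟨⊤, by simp, fun v _ => by simp [levi]⟩,
      fun _ _ _ _ _ _ _ => ⟨1, .of_forall fun _ _ => by simp⟩⟩
  refine ⟨C, fun N n hn k ⟨s, hs, h⟩ => ?_⟩
  simpa using hC N 0 (fun o => o.elim 0 n) rfl (Option.rec (fun h => (h rfl).elim) fun a _ => hn a) k
    ⟨fun j i => s j fun a => i (some a), fun j => ⟨fun i e x he hi => (hs j).holo _ e x he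
      fun a => hi (some a), fun i i' x hi hi' => by
        refine ((hs j).change _ (fun a => i' (some a)) x (fun a => hi (some a))
          fun a => hi' (some a)).trans (congrArg (· * _) ?_)
        simp only [lin, Fintype.prod_option, Option.elim_none, zpow_zero, one_mul]
        rfl⟩, fun c hc => h c fun i x hi => hc (Option.rec () i) x (Option.rec trivial hi)⟩

theorem cnt_of (subm : SUBM) (slice : SLICE) (pl : PULL) (step : STEP) (vn : VAN) : CNT :=
  fun d X α _ E a₀ a₁ κ _ G φ _ => cnt_ind subm slice pl step vn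
    (fun d _ => poly_of subm slice pl step vn d) d X α E a₀ a₁ κ G φ

end Vale.Agent.P281Z.Lf
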