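import Vale.Agent.P281Z.Lf.Sk
import Vale.Agent.P281Z.Hm.Flag
import Vale.Agent.P281Z.Hm.Cpt

/-!
# P281Z, transverse coordinates at a point of maximal rank
-/

open scoped Matrix.Norms.Operator Topology
open Filter Set Matrix
open Vale.Agent.P272.K
open Vale.Agent.P281Z.Hm

noncomputable section

namespace Vale.Agent.P281Z.Lf

namespace FlxH

variable {n : Type} [Fintype n] [DecidableEq n] {p w : ℕ} {Q : Mx n} {π : Cm p → Gr n} {π₀ : Gr n}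
  {y z : Cm p}

/-- all the flag coordinates -/
def fl (w : ℕ) (π₀ : Gr n) (π : Cm p → Gr n) (x : Cm p) : Fin (w + 1) → Mx n :=
  fun k => flag w π₀ (π x) k

/-- a bound for their differential -/
def bd (w : ℕ) (π₀ : Gr n) (π : Cm p → Gr n) (x : Cm p) : ℝ :=
  ∑ k : Fin (w + 1), ‖1 - flag w π₀ (π x) k‖ * ‖π x k‖ * ‖flag w π₀ (π x) k‖

theorem key (h : LVAt Q w π y) (h₀ : Hs Q w π₀) (hn : Near w π₀ (π y)) :
    AnalyticAt ℂ (fl w π₀ π) y ∧ ContinuousAt (bd w π₀ π) y ∧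
    ∀ v, (fderiv ℂ (fl w π₀ π) y v = 0 → th w π y v = 0) ∧
      ‖fderiv ℂ (fl w π₀ π) y v‖ ≤ bd w π₀ π y * ‖th w π y v‖ := by
  have k := (stFlag _ _ _ _ _ _ π₀ h h₀ hn).2
  have e : ∀ v (j : Fin (w + 1)), fderiv ℂ (fl w π₀ π) y v j =
      fderiv ℂ (fun x => flag w π₀ (π x) j) y v := fun v j =>
    congrArg (fun f => f v j) (fderiv_pi fun j : Fin (w + 1) => (k j).1.differentiableAt)
  refine ⟨analyticAt_pi_iff.2 fun j => (k j).1, tendsto_finsetSum _ fun j _ =>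
    ((continuousAt_const.sub (k j).1.continuousAt).norm.mul (h.an j).continuousAt.norm).mul
      (k j).1.continuousAt.norm, fun v => ⟨fun h0 => h.hs0.ext_right fun q hq => ?_, ?_⟩⟩
  · rw [((k q).2 v).1, ← e v ⟨q, Nat.lt_succ_of_le hq⟩, h0]
    simp
  · have p0 : ∀ j : Fin (w + 1), 0 ≤ ‖1 - flag w π₀ (π y) j‖ * ‖π y j‖ * ‖flag w π₀ (π y) j‖ :=
      fun j => by positivity
    refine (pi_norm_le_iff_of_nonneg (mul_nonneg (Finset.sum_nonneg fun j _ => p0 j)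
      (norm_nonneg _))).2 fun j => le_trans ?_ (mul_le_mul_of_nonneg_right
        (Finset.single_le_sum (fun j _ => p0 j) (Finset.mem_univ j)) (norm_nonneg _))
    rw [e, ((k j).2 v).2]
    refine ((norm_mul_le _ _).trans (mul_le_mul_of_nonneg_right ((norm_mul_le _ _).trans
      (mul_le_mul_of_nonneg_right (norm_mul_le _ _) (norm_nonneg _))) (norm_nonneg _))).trans_eq ?_
    ring

theorem th_le (h : LVAt Q w π z) :
    ∃ B : ℝ, 0 < B ∧ ∀ᶠ y in 𝓝 z, ∀ v, ‖th w π y v‖ ^ 2 ≤ B * omH w π y v := by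
  obtain ⟨B, h0, hB⟩ := Cp.bounds Q (Fintype.card n * (‖gH Q w (π z)‖ + 1))
  refine ⟨B, h0, ?_⟩
  filter_upwards [h.ev, h.an_H.continuousAt.norm.eventually (gt_mem_nhds (lt_add_one _))]
    with y a b v
  rw [omH, omB, a.ts_eq]
  exact ((hB _ (Cp.mem_HS a.hs0 fun s => (Cp.hn_le _ s).trans (by gcongr))).2 _).1

theorem abs {F G : Type} [NormedAddCommGroup F] [NormedSpace ℂ F] [FiniteDimensional ℂ F]
    [AddCommGroup G] [Module ℂ G] {Φ : Cm p → F} (hΦ : AnalyticAt ℂ Φ z) (T : Cm p → Cm p →ₗ[ℂ] G)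
    {om : Cm p → Cm p → ℝ} {B : ℝ} (hB : 0 ≤ B)
    (h : ∀ᶠ y in 𝓝 z, ∀ u, (fderiv ℂ Φ y u = 0 ↔ T y u = 0) ∧
      ‖fderiv ℂ Φ y u‖ ^ 2 ≤ B * om y u ∧ 0 ≤ om y u) {r : ℕ} {v : Fin r → Cm p}
    (hv : LinearIndependent ℂ fun j => T z (v j))
    (hr : ∀ᶠ y in 𝓝 z, ∀ u : Fin (r + 1) → Cm p, ¬ LinearIndependent ℂ fun j => T y (u j)) :
    ∃ (X : Cm p → Cm r) (ε : ℝ), AnalyticAt ℂ X z ∧ 0 < ε ∧
    ∀ᶠ y in 𝓝 z, Function.Surjective (fderiv ℂ X y) ∧ ∀ u,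
      (fderiv ℂ X y u = 0 → T y u = 0) ∧ ε * ‖fderiv ℂ X y u‖ ^ 2 ≤ om y u := by
  have := FiniteDimensional.complete ℂ F
  obtain ⟨ι, e0⟩ : ∃ ι : Cm r →L[ℂ] Cm p, ∀ c, ι c = ∑ j, c j • v j :=
    ⟨LinearMap.toContinuousLinearMap (Fintype.linearCombination ℂ v), fun _ => rfl⟩
  have e1 : ∀ y c, T y (ι c) = ∑ j, c j • T y (v j) := fun y c => by simp only [e0, map_sum, map_smul]
  obtain ⟨L₀, hL⟩ := (fderiv ℂ Φ z ∘L ι).toLinearMap.exists_leftInverse_of_injective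
    (LinearMap.ker_eq_bot'.2 fun c hc => funext (Fintype.linearIndependent_iff.1 hv c
      ((e1 z c).symm.trans ((h.self_of_nhds _).1.1 hc))))
  obtain ⟨L, u1⟩ : ∃ L : F →L[ℂ] Cm r, L ∘L fderiv ℂ Φ z ∘L ι = 1 :=
    ⟨LinearMap.toContinuousLinearMap L₀, ContinuousLinearMap.ext fun c => LinearMap.congr_fun hL c⟩
  have c1 : ContinuousAt (fun y => L ∘L fderiv ℂ Φ y ∘L ι) z :=
    continuousAt_const.clm_comp (hΦ.fderiv.continuousAt.clm_comp continuousAt_const)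
  refine ⟨fun x => L (Φ x), (‖L‖ ^ 2 * B + 1)⁻¹, (L.analyticAt _).comp hΦ, by positivity, ?_⟩
  filter_upwards [hΦ.eventually_analyticAt, h, hr,
    c1.eventually (Units.isOpen.mem_nhds (u1 ▸ isUnit_one :))] with y b1 b3 a4 a5
  have b4 := ContinuousLinearMap.isUnit_iff_bijective.1 a5
  rw [show fderiv ℂ (fun x => L (Φ x)) y = L ∘L fderiv ℂ Φ y from
    (L.hasFDerivAt.comp y b1.differentiableAt.hasFDerivAt).fderiv]
  refine ⟨fun c => (b4.2 c).elim fun t ht => ⟨ι t, ht⟩, fun u => ⟨fun hu => ?_, ?_⟩⟩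
  · obtain ⟨c, h1, j, h2⟩ := Fintype.not_linearIndependent_iff.1 (a4 (Fin.cons u v))
    rw [Fin.sum_univ_succ] at h1
    simp only [Fin.cons_zero, Fin.cons_succ] at h1
    rw [← e1, ← map_smul, ← map_add] at h1
    have h4 : (fun i : Fin r => c i.succ) = 0 := b4.1 (by
      have := congrArg L ((b3 _).1.2 h1)
      rw [ContinuousLinearMap.comp_apply] at hu
      simpa [hu] using this)
    rw [h4, map_zero, add_zero, map_smul] at h1
    exact (smul_eq_zero.1 h1).resolve_left fun h5 => h2 (Fin.cases h5 (congrFun h4) j)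
  · rw [inv_mul_le_iff₀ (by positivity), ContinuousLinearMap.comp_apply]
    nlinarith [pow_le_pow_left₀ (norm_nonneg _) (L.le_opNorm (fderiv ℂ Φ y u)) 2, (b3 u).2.2,
      mul_le_mul_of_nonneg_left (b3 u).2.1 (sq_nonneg ‖L‖)]

theorem loc (h : LVAt Q w π z) {r : ℕ} {v : Fin r → Cm p}
    (hv : LinearIndependent ℂ fun j => th w π z (v j))
    (hr : ∀ᶠ y in 𝓝 z, ∀ u : Fin (r + 1) → Cm p, ¬ LinearIndependent ℂ fun j => th w π y (u j)) :
    ∃ (X : Cm p → Cm r) (ε : ℝ), AnalyticAt ℂ X z ∧ 0 < ε ∧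
    ∀ᶠ y in 𝓝 z, Function.Surjective (fderiv ℂ X y) ∧ ∀ u,
      (fderiv ℂ X y u = 0 → th w π y u = 0) ∧ ε * ‖fderiv ℂ X y u‖ ^ 2 ≤ omH w π y u := by
  have n0 := (stFlagA _ _ _ _ h.hs0).1
  obtain ⟨k1, k2, -⟩ := key h h.hs0 n0
  obtain ⟨B, hB, k4⟩ := th_le h
  refine abs k1 (thL w π) (B := (bd w (π z) π z + 1) ^ 2 * B) (by positivity) ?_ hv hr
  filter_upwards [h.ev, (stFlag _ _ _ _ _ _ _ h h.hs0 n0).1, k4,
    k2.eventually (gt_mem_nhds (lt_add_one _))] with y a1 a2 a3 a6 u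
  obtain ⟨b1, b2⟩ := (key a1 h.hs0 a2).2.2 u
  refine ⟨⟨b1, fun h0 : th w π y u = 0 => norm_le_zero_iff.1
    (b2.trans_eq (by rw [h0, norm_zero, mul_zero]))⟩, ?_,
    nonneg_of_mul_nonneg_right ((sq_nonneg _).trans (a3 u)) hB⟩
  refine (pow_le_pow_left₀ (norm_nonneg _) (b2.trans (mul_le_mul_of_nonneg_right a6.le
    (norm_nonneg _))) 2).trans ?_
  rw [mul_pow, mul_assoc]
  exact mul_le_mul_of_nonneg_left (a3 u) (sq_nonneg _)

end FlxH

/-- **FLX** -/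
theorem flx_of (hO : OMM) : FLX := fun p W S C n _ _ V r hr e he σ z a b => by
  have h := (hO p W S C n V).lift e he σ z a
  have t := a.self_of_nhds.2.1
  obtain ⟨v, hv⟩ := b e ⟨he, e.map_target t⟩ σ (by rwa [e.right_inv t])
  rw [e.right_inv t] at hv
  exact FlxH.loc (V.lv _ σ z h.1) hv (h.2.mono fun y hy => hr e he σ y hy)

end Vale.Agent.P281Z.Lf
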