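import Vale.Agent.P281Z.Lf.GermB

/-!
# P281Z, descent of the variation to the base of the fibration
-/

open scoped Manifold ContDiff Topology Matrix.Norms.Operator
open Set Filter Matrix Metric
open Vale.Agent.P272.K Vale.Agent.P285.H281.FD
open Vale.Agent.P277Z (at_chart)
open Vale.Agent.P277Z.Slc (Ind isLB_triv)
open Vale.Agent.P281Z.Hm (Cv GV Mx Gr LnAt LVAt)

noncomputable section

namespace Vale.Agent.P281Z.Lf

variable {p r : ℕ} {W : Mf p} {u : Fin r → W.X → ℂ} {B₀ : Set W.X} (F : Fo W u B₀)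
  {U : Set W.X} {C : Cv W.X U} {n : Type} [Fintype n] [DecidableEq n] {V : GV p C n}
  {Ψ : C.X → n → ℂ}

namespace Fo

/-- the inverse of the modification -/
def nu : W.X → F.W'.X := F.modif.inv.choose

theorem mu_nu (y : W.X) : F.μ (F.nu y) = y := F.modif.inv.choose_spec.1 y

theorem nu_mu {t : F.W'.X} (h : F.μ t ∉ F.B) : F.nu (F.μ t) = t := F.modif.inv.choose_spec.2.1 t h

theorem hol_nu {y : W.X} (h : y ∉ F.B) : HolA p p F.nu y := (F.modif.inv.choose_spec.2.2 y h).1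

theorem off_iff {t : F.W'.X} : t ∈ off F.G ↔ F.μ t ∉ F.B := by
  rw [F.bad, not_exists]
  rfl

/-- the map to the model -/
def up (x : X0 C F.B) : F.W'.X := F.nu (C.π x.1)

theorem up_off (x : X0 C F.B) : F.up x ∈ off F.G := F.off_iff.2 ((F.mu_nu _).symm ▸ x.2)

theorem up_cont : Continuous (F.up : X0 C F.B → _) := continuous_iff_continuousAt.2 fun x =>
  (F.hol_nu x.2).cont.comp (f := fun x : X0 C F.B => C.π x.1)
    ((Hm.Br.loc C).continuous.comp continuous_subtype_val).continuousAt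

theorem up_eq {x : X0 C F.B} {t : F.W'.X} (h : C.π x.1 = F.μ t) : F.up x = t :=
  (congrArg F.nu h).trans (F.nu_mu (h ▸ x.2))

theorem up_surj (hU : B₀ᶜ ⊆ U) {t : F.W'.X} (h : t ∈ off F.G) : ∃ x : X0 C F.B, F.up x = t :=
  let ⟨x, k⟩ := C.surj _ (hU fun c => F.off_iff.1 h (F.sub c))
  ⟨⟨x, k ▸ F.off_iff.1 h⟩, F.up_eq k⟩

theorem sec1 (x : X0 C F.B) : ∃ s : F.W'.X → X0 C F.B,
    (∀ᶠ t in 𝓝 (F.up x), ContinuousAt s t ∧ C.π (s t) = F.μ t) ∧ ∀ᶠ y in 𝓝 x, s (F.up y) = y :=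
  let ⟨s, h1, h2⟩ := lsec F.modif.thin.closed F.modif.hol.cont x
  ⟨s, h1 _ (F.mu_nu _), h2.mono fun _ k => k _ (F.mu_nu _)⟩

theorem sec2 (x : X0 C F.B) : ∃ τ : F.Z.X → X0 C F.B, τ (F.γ (F.up x)) = x ∧
    ∀ᶠ z in 𝓝 (F.γ (F.up x)), ContinuousAt τ z ∧ F.γ (F.up (τ z)) = z ∧
      HolA r p (fun z => C.π (τ z)) z := by
  obtain ⟨s, h1, h2⟩ := F.sec1 x
  obtain ⟨t, k1, k2, k3⟩ := (F.sbm _ (F.up_off x)).sec (F.hol.at _)
  have k4 : Tendsto t (𝓝 (F.γ (F.up x))) (𝓝 (F.up x)) := by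
    simpa only [ContinuousAt, k1] using k2.cont
  refine ⟨fun z => s (t z), (congrArg s k1).trans h2.self_of_nhds, ?_⟩
  filter_upwards [(k4.eventually h1).eventually_nhds, k2.near, k3] with z a b c
  exact ⟨a.self_of_nhds.1.comp b.cont, (congrArg F.γ (F.up_eq a.self_of_nhds.2)).trans c,
    ((F.modif.hol.at _).cmp b).cng (a.mono fun _ e => e.2.symm)⟩

theorem lift_smul {E : Type} [NormedAddCommGroup E] [NormedSpace ℝ E] [NormedSpace ℂ E]
    [IsScalarTower ℝ ℂ E] {q : ℕ} {T : Mf q} {β : E → T.X} {z : E} (h : HE q β z)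
    {τ : T.X → X0 C F.B} (h1 : ∀ᶠ t in 𝓝 (β z), ContinuousAt τ t)
    (h2 : HolA q p (fun t => C.π (τ t)) (β z)) (g : C.Γ) :
    C.Lift p (fun x => (g • τ (β x)).1) z :=
  h.lift (τ := fun t => g • (τ t).1) (h1.mono fun _ a => (C.csm g).continuousAt.comp
    (continuous_subtype_val.continuousAt.comp a)) (h2.cng (.of_forall fun _ => (C.inv g _).symm))

theorem loc (H : Fl V Ψ u B₀) (hU : IsOpen U) (x : X0 C F.B) : ∀ᶠ q in 𝓝 (x, x),
    F.γ (F.up q.1) = F.γ (F.up q.2) → dv2 V Ψ q.1.1 = dv2 V Ψ q.2.1 := by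
  obtain ⟨s, h1, h2⟩ := F.sec1 x
  have hs := F.sbm _ (F.up_off x)
  have he := at_chart (n := r) (F.γ (F.up x))
  set c := chartAt (Cm r) (F.γ (F.up x))
  obtain ⟨Θ, t1, t2, t3, t4⟩ := exists_co ((sbm_iff_ind (F.hol.at _) he).1 hs) (d := p - r)
    (by simpa using Nat.add_sub_cancel' hs.le)
    (h1.eventually_nhds.and (F.hol.cont.continuousAt.eventually (at_near he)))
  obtain ⟨ρ, hρ, hb⟩ := Metric.mem_nhds_iff.1 (Θ.open_target.mem_nhds (Θ.map_source t2))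
  have key : ∀ v w w', (v, w) ∈ ball (Θ (F.up x)) ρ → (v, w') ∈ ball (Θ (F.up x)) ρ →
      dv2 V Ψ (s (Θ.symm (v, w))).1 = dv2 V Ψ (s (Θ.symm (v, w'))).1 := fun v w w' a a' => by
    rw [← ball_prod_same] at a a' hb
    have m : ∀ w ∈ ball (Θ (F.up x)).2 ρ, (v, w) ∈ Θ.target := fun w b => hb ⟨a.1, b⟩
    have m1 := fun w b => t3 (Θ.map_target (m w b))
    have m2 := fun w b => (m1 w b).1.self_of_nhds.2
    have m3 : ∀ w ∈ ball (Θ (F.up x)).2 ρ, Θ.symm (v, w) ∈ off F.G := fun w b =>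
      F.off_iff.2 (m2 w b ▸ (s _).2)
    have m4 : ∀ w ∈ ball (Θ (F.up x)).2 ρ, c (F.γ (Θ.symm (v, w))) = v := fun w b =>
      (t4 _ (Θ.map_target (m w b))).symm.trans (congrArg Prod.fst (Θ.right_inv (m w b)))
    have m5 : ∀ w ∈ ball (Θ (F.up x)).2 ρ, C.Lift p (fun w => (s (Θ.symm (v, w))).1) w :=
      fun w b => (he_co t1 (k := fun w => (v, w)) (by fun_prop) (by fun_prop) (m w b)).lift
        (τ := fun t => (s t).1) ((m1 w b).1.mono fun _ e =>
          continuous_subtype_val.continuousAt.comp e.1)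
        ((F.modif.hol.at _).cng ((m1 w b).1.mono fun _ e => e.2.symm))
    have m6 := fun w => mt (@F.sub _) (s (Θ.symm (v, w))).2
    refine funext fun k => isOpen_ball.is_const_of_fderiv_eq_zero (𝕜 := ℝ)
      (f := fun w => dv2 V Ψ (s (Θ.symm (v, w))).1 k) (convex_ball _ _).isPreconnected
      (fun w b => (H.anL (m5 w b) (m6 w) k).differentiableAt.differentiableWithinAt)
      (fun w b => H.flatL hU (m5 w b) (m6 w) (m2 w b ▸ F.ind _ (m3 w b)) (fun j => ?_) k) a.2 a'.2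
    filter_upwards [isOpen_ball.mem_nhds b] with w' b'
    rw [m2 w b, m2 w' b']
    exact F.fac _ (m3 w' b') _ (m3 w b)
      (c.injOn (m1 w' b').2.2 (m1 w b).2.2 ((m4 w' b').trans (m4 w b).symm)) j
  have h3 : ∀ᶠ y in 𝓝 x, s (F.up y) = y ∧ F.up y ∈ Θ.source ∧ Θ (F.up y) ∈ ball (Θ (F.up x)) ρ :=
    h2.and ((F.up_cont.continuousAt.eventually_mem (Θ.open_source.mem_nhds t2)).and
      (((Θ.continuousAt t2).comp F.up_cont.continuousAt).eventually_mem (ball_mem_nhds _ hρ)))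
  filter_upwards [(continuous_fst.tendsto (x, x)).eventually h3,
    (continuous_snd.tendsto (x, x)).eventually h3] with q a b e
  have e1 : (Θ (F.up q.1)).1 = (Θ (F.up q.2)).1 := by rw [t4 _ a.2.1, t4 _ b.2.1, e]
  have e2 := key (Θ (F.up q.1)).1 (Θ (F.up q.1)).2 (Θ (F.up q.2)).2 a.2.2 (e1 ▸ b.2.2)
  rwa [Prod.mk.eta, e1, Prod.mk.eta, Θ.left_inv a.2.1, Θ.left_inv b.2.1, a.1, b.1] at e2

/-- the data for the space of germs -/
def et (H : Fl V Ψ u B₀) (hU : IsOpen U) (hB : B₀ᶜ ⊆ U) :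
    GEt (X0 C F.B) F.W'.X F.Z.X (ℕ → Mx n × (n → ℂ)) C.Γ where
  a := F.up
  γ := F.γ
  D x := dv2 V Ψ x.1
  cb := F.hol.cont.comp F.up_cont
  csm g := ((C.csm g).comp continuous_subtype_val).subtype_mk _
  inv g x := congrArg F.nu (C.inv g x.1)
  tr x x' h := (C.tr x.1 x'.1 ((F.mu_nu _).symm.trans ((congrArg F.μ h).trans (F.mu_nu _)))).imp
    fun _ => Subtype.ext
  opn x N hN := by
    obtain ⟨s, h1, h2⟩ := F.sec1 x
    filter_upwards [h1, h1.self_of_nhds.1.eventually_mem (h2.self_of_nhds.symm ▸ hN :)] with t a b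
    exact ⟨_, b, F.up_eq a.2⟩
  fib x x' h := ⟨_, (F.fib _ (F.pre _ (F.up_off x))).2, ⟨rfl, F.up_off x⟩, ⟨h.symm, F.up_off x'⟩,
    fun _ a => ⟨a.1, F.up_surj hB a.2⟩⟩
  eqv g x x' h := funext fun k => Prod.ext
    ((V.gr_smul g _ k).trans ((congrArg (fun D => _ * (D k).1 * _) h).trans (V.gr_smul g _ k).symm))
    ((H.eqv g _ (mt (@F.sub _) x.2)).trans ((congrArg (fun D => _ *ᵥ (D k).2) h).trans
      (H.eqv g _ (mt (@F.sub _) x'.2)).symm))
  loc := F.loc H hU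
  sec x := by
    obtain ⟨τ, h1, h2⟩ := F.sec2 x
    have he := at_chart (n := r) (F.γ (F.up x))
    set c := chartAt (Cm r) (F.γ (F.up x))
    obtain ⟨ρ, hρ, hb⟩ := eventually_nhds_iff_ball.1
      ((at_ev he h2.eventually_nhds).and he.nhds_target)
    have h3 := fun z (a : z ∈ c.source ∩ c ⁻¹' ball (c (F.γ (F.up x))) ρ) =>
      (c.left_inv a.1 ▸ (hb _ a.2).1 :).self_of_nhds
    have h4 : ∀ (g : C.Γ) k, AnalyticOnNhd ℝ (fun w => dv2 V Ψ (g • τ (c.symm w)).1 k)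
        (ball (c (F.γ (F.up x))) ρ) := fun g k w a =>
      H.anL (F.lift_smul (he_co (co_chart he.1) continuous_id analyticAt_id (hb w a).2)
        ((hb w a).1.mono fun _ e => e.1) (hb w a).1.self_of_nhds.2.2 g)
        (mt (@F.sub _) (g • τ _).2) k
    refine ⟨_, τ, c.isOpen_inter_preimage isOpen_ball, ⟨he.2, mem_ball_self hρ⟩, h1,
      fun z a => (h3 z a).1.continuousWithinAt, fun z a => (h3 z a).2.1,
      fun g g' z a e z' a' => funext fun k => ?_⟩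
    have e1 := (h4 g k).eqOn_of_preconnected_of_eventuallyEq (h4 g' k)
      (convex_ball _ _).isPreconnected a.2 ((at_ev ⟨he.1, a.1⟩ e).mono fun _ b => congrFun b k) a'.2
    simpa only [c.left_inv a'.1] using e1

end Fo

/-- **GERM** -/
theorem germ : GERM := by
  intro p W S C n _ _ V r u B₀ F Ψ _ hB H
  let E := F.et H S.isOpen_U hB
  have := conn0 (C := C) F.modif.thin
  let C' : Cv F.Z.X F.S.U := E.cv (Subset.antisymm
    (by rintro _ ⟨x, rfl⟩; exact F.pre _ (F.up_off x)) fun z hz => by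
      obtain ⟨t, h1, h2⟩ := (F.fib z hz).1
      obtain ⟨x, rfl⟩ := F.up_surj (C := C) hB h2
      exact ⟨x, h1⟩)
  have key : ∀ (E' : Type) [NormedAddCommGroup E'] [NormedSpace ℝ E'] [NormedSpace ℂ E']
      [IsScalarTower ℝ ℂ E'] (f : E' → C'.X) (z : E'), C'.Lift r f z → ∃ f' : E' → X0 C F.B,
      C.Lift p (fun x => (f' x).1) z ∧ ∀ᶠ x in 𝓝 z, dv2 V Ψ (f' x).1 = E.val (f x) := by
    intro E' _ _ _ _ f z h
    obtain ⟨x, hx⟩ := E.gm_surj (f z)
    obtain ⟨τ, h1, h2⟩ := F.sec2 x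
    have h3 : E.S τ x := ⟨h1, h2.self_of_nhds.1, h2.mono fun _ a => a.2.1⟩
    have h4 : F.γ (F.up x) = C'.π (f z) := congrArg E.pr hx
    rw [h4] at h2
    refine ⟨fun y => τ (C'.π (f y)), (he_lift h).lift (τ := fun t => (τ t).1) (h2.mono fun _ a =>
      continuous_subtype_val.continuousAt.comp a.1) h2.self_of_nhds.2.2, ?_⟩
    filter_upwards [h.1.self_of_nhds.eventually (hx ▸ h3.ev :)] with y a
    exact (congrArg E.val a).symm
  let V' : GV r C' n :=
    { Q := V.Q, w := V.w, gr := fun q k => (E.val q k).1, ρ := V.ρ, pQ := V.pQ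
      eqv := fun g q k => Quotient.inductionOn q fun x => V.eqv g x.1 k
      lv := fun E' _ _ _ _ f z h => (key E' f z h).elim fun _ a => (V.lv E' _ z a.1).congr
        (a.2.mono fun _ e => funext fun k => congrArg (fun D => (D k).1) e) }
  obtain ⟨Φ, hΦ⟩ : ∃ Φ : C.X → C'.X, ∀ x : X0 C F.B, Φ x.1 = E.gm x :=
    ⟨_, Subtype.val_injective.extend_apply E.gm fun _ => Classical.arbitrary C'.X⟩
  exact ⟨{
    C' := C', V' := V', Φ := Φ, ε := id, Q := rfl, w := rfl, ρ := fun _ => rfl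
    L' :=
      { lb := isLB_triv, ψ := fun _ q => (E.val q 0).2, lam := fun _ => 1, m := 1, hm := one_pos
        pow := fun _ => one_pow _
        eqv := fun _ g q _ => Quotient.inductionOn q fun x =>
          (H.eqv g x.1 (mt (@F.sub _) x.2)).trans (one_smul ℂ _).symm
        ch := fun _ _ _ _ _ => (one_smul ℂ _).symm
        ln := fun _ E' _ _ _ _ f z h _ => let ⟨f', a, b⟩ := key E' f z h
          ln_congr2 (H.lnL a (mt (@F.sub _) (f' z).2))
            (b.mono fun _ e => funext fun k => congrArg (fun D => (D k).1) e)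
            (b.mono fun _ e => congrArg (fun D => (D 0).2) e) }
    cont := continuousOn_iff_continuous_domRestrict.2 (E.gm_cont.congr fun x => (hΦ x).symm)
    π := fun x y a b => (congrArg E.pr (hΦ ⟨x, b⟩)).trans
      (congrArg F.γ (F.up_eq (x := ⟨x, b⟩) a.symm))
    gr := fun x b => congrArg V'.gr (hΦ ⟨x, b⟩)
    ψ := fun _ x b => congrArg (fun q => (E.val q 0).2) (hΦ ⟨x, b⟩)
    surj := fun q => let ⟨x, a⟩ := E.gm_surj q; ⟨x.1, x.2, (hΦ x).trans a⟩ }⟩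

theorem germ_of (_ : OMM) (_ : Hm.StPull) : GERM := germ

end Vale.Agent.P281Z.Lf
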