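import Vale.Agent.P281Z.Lf.Merq

/-!
# P281Z, square integrable forms have exponential growth on the model (GROW)
-/

open scoped Topology Matrix.Norms.Operator ENNReal
open Set Filter Matrix Metric MeasureTheory
open Vale.Agent.P272.K (Cm Chart At)
open Vale.Agent.P284.H608.K (Af ev)
open Vale.Agent.P281Z.Hm (Mx cz Dm St ex pl StGrow)
open Vale.Agent.P281Z.Hm.L1
open Vale.Agent.P281Z.Hm.DescH
open Vale.Agent.P281Z.Hm.LiftH
open Vale.Agent.P281Z.Hm.FrH (pl_le le_pl)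

noncomputable section

namespace Vale.Agent.P281Z.Lf

open MerqH

namespace GrowH

variable {p : ℕ} {K : Finset (Fin p)} {u : Cm p → ℂ} {ζ σ : Cm p}

theorem of_sq (h : AnalyticOnNhd ℂ u (Dm K)) {M : ℝ} (k : ∀ R η : ℝ, 0 < η → ∃ B : ℝ,
    ∀ ζ ∈ St K R η, ‖u ζ‖ ^ 2 ≤ B * Real.exp (M * ∑ i ∈ K, (ζ i).im)) : Eg K u := by
  refine ⟨h, M / 2, fun R η hη => (k R η hη).elim fun B k => ⟨√|B|, fun ζ hζ => ?_⟩⟩
  refine (pow_le_pow_iff_left₀ (norm_nonneg _) (by positivity) two_ne_zero).1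
    ((up (st_dm hη hζ) (k ζ hζ) le_rfl).trans_eq ?_)
  rw [mul_pow, Real.sq_sqrt (abs_nonneg B), ← Real.exp_nat_mul]
  congr 2
  push_cast
  ring

theorem mo_eq (ζ : Cm p) :
    mo K (ex K 1 ζ) = Real.exp (-(2 * Real.pi * ∑ i ∈ K, (ζ i).im)) := by
  rw [mo, Finset.mul_sum, ← Finset.sum_neg_distrib, Real.exp_sum]
  exact Finset.prod_congr rfl fun i hi => by rw [ex, if_pos hi, norm_e, Nat.cast_one, div_one]

theorem lb_mem' {R η t : ℝ} (hη : 0 < η) (h : ζ ∈ St K R η) (t0 : 0 ≤ t) (t1 : t ≤ 1 / 4)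
    (t2 : t ≤ η / 2) (hσ : σ ∈ ball (ex K 1 ζ) (mo K (ex K 1 ζ) * t)) :
    lb K 1 ζ (ex K 1 ζ) σ ∈ St K (R + 1) (η / 2) := by
  have hd := st_dm hη h
  have h0 : ∀ i, ‖σ i - ex K 1 ζ i‖ ≤ mo K (ex K 1 ζ) * t := fun i =>
    (norm_le_pi_norm (σ - ex K 1 ζ) i).trans (mem_ball_iff_norm.1 hσ).le
  have h1 : ∀ i ∈ K, ‖lb K 1 ζ (ex K 1 ζ) σ i - ζ i‖ ≤ t := fun i hi => by
    have h2 : ‖σ i / ex K 1 ζ i - 1‖ ≤ t := by
      rw [div_sub_one (ex_ne ζ hi), norm_div, div_le_iff₀' (norm_pos_iff.2 (ex_ne ζ hi))]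
      exact (h0 i).trans (mul_le_mul_of_nonneg_right (mo_le hd hi) t0)
    have h3 := Complex.norm_log_one_add_half_le_self (h2.trans (t1.trans (by norm_num)))
    rw [add_sub_cancel] at h3
    rw [lb, if_pos hi, add_sub_cancel_left, Nat.cast_one, one_mul, norm_div,
      div_le_iff₀ (norm_pos_iff.2 Complex.two_pi_I_ne_zero)]
    have h4 : ‖(2 * Real.pi * Complex.I : ℂ)‖ = 2 * Real.pi := by simp [Real.pi_pos.le]
    rw [h4]
    nlinarith [Real.pi_gt_three]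
  refine ⟨⟨fun i hi => ?_, fun i hi => ?_⟩, fun i hi => ?_⟩
  · have := abs_le.1 ((Complex.abs_im_le_norm _).trans (h1 i hi))
    rw [Complex.sub_im] at this
    linarith [h.1.1 i hi]
  · have h2 := (h0 i).trans (mul_le_of_le_one_left t0 (mo_le_one hd))
    rw [ex, if_neg hi] at h2
    rw [lb, if_neg hi]
    linarith [h.1.2 i hi, norm_sub_norm_le (σ i) (ζ i)]
  · have := abs_le.1 ((Complex.abs_re_le_norm _).trans (h1 i hi))
    have h2 := abs_le.1 (h.2 i hi)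
    rw [Complex.sub_re] at this
    exact abs_le.2 ⟨by linarith, by linarith⟩

/-- the mean value inequality -/
theorem mv {h : Cm p → ℂ} {z : Cm p} {r B : ℝ} (hr : 0 < r)
    (hh : DifferentiableOn ℂ h (ball z (2 * r))) {ν : Cm p → ℝ≥0∞} {O : Set (Cm p)}
    (hO : ball z r ⊆ O) (hν : ∫⁻ x in O, ν x < ⊤) (hB : 0 ≤ B)
    (k : ∀ x ∈ ball z r, ENNReal.ofReal (‖h x‖ ^ 2) ≤ ENNReal.ofReal B * ν x) :
    ‖h z‖ ^ 2 * (r ^ Module.finrank ℝ (Cm p) * volume.real (ball (0 : Cm p) 1)) ≤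
      B * (∫⁻ x in O, ν x).toReal := by
  have hP := (P284Z.lpsh_norm isOpen_ball hh).pow 2
  have h1 := hP.psh.le_ball volume hP.lb (closedBall_subset_ball (by linarith : r < 2 * r))
  rw [measureReal_def, Measure.addHaar_ball_of_pos _ _ hr, ENNReal.toReal_mul,
    ENNReal.toReal_ofReal (by positivity), integral_eq_lintegral_of_nonneg_ae
      (.of_forall fun x => by positivity) (((hh.continuousOn.mono (ball_subset_ball
        (by linarith))).norm.fun_pow 2).aestronglyMeasurable measurableSet_ball)] at h1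
  refine h1.trans ?_
  rw [← ENNReal.toReal_ofReal_mul _ _ hB]
  refine ENNReal.toReal_mono (ENNReal.mul_ne_top ENNReal.ofReal_ne_top hν.ne)
    ((setLIntegral_mono' measurableSet_ball k).trans ?_)
  rw [lintegral_const_mul' _ _ ENNReal.ofReal_ne_top]
  exact mul_le_mul_right (lintegral_mono_set hO) _

/-- from a bound in the mean to exponential growth -/
theorem model (hu : AnalyticOnNhd ℂ u (Dm K)) {c : Cm p} {ρ : ℝ} (hρ : 0 < ρ) {ν : Cm p → ℝ≥0∞}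
    {O : Set (Cm p)} (hO : ball c ρ ⊆ O) (hν : ∫⁻ x in O, ν x < ⊤)
    (h : ∀ R η : ℝ, 0 < η → ∃ B : ℝ, 0 ≤ B ∧ ∀ ζ ∈ St K R η, ENNReal.ofReal
      ((‖u ζ‖ * mo K (ex K 1 ζ)) ^ 2) ≤ ENNReal.ofReal B * ν (c + (ρ : ℂ) • ex K 1 ζ)) :
    Eg K u := by
  refine of_sq hu (M := (2 + Module.finrank ℝ (Cm p) : ℕ) * (2 * Real.pi)) fun R η hη => ?_
  obtain ⟨B, hB, h⟩ := h (R + 1) (η / 2) (half_pos hη)
  have hV : 0 < (volume : Measure (Cm p)).real (ball 0 1) :=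
    ENNReal.toReal_pos (measure_ball_pos _ _ one_pos).ne' measure_ball_lt_top.ne
  obtain ⟨t, t0, t1, t2⟩ : ∃ t : ℝ, 0 < t ∧ t ≤ 1 / 4 ∧ t ≤ η / 2 :=
    ⟨min (1 / 4) (η / 2), by positivity, min_le_left _ _, min_le_right _ _⟩
  refine ⟨B * (∫⁻ x in O, ν x).toReal /
    ((ρ * t / 2) ^ Module.finrank ℝ (Cm p) * volume.real (ball (0 : Cm p) 1)), fun ζ hζ => ?_⟩
  have hd := st_dm hη hζ
  have hm := mo_pos (K := K) ζ
  have hρ' : (ρ : ℂ) ≠ 0 := Complex.ofReal_ne_zero.2 hρ.ne'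
  have h0 : (ρ : ℂ)⁻¹ • (c + (ρ : ℂ) • ex K 1 ζ - c) = ex K 1 ζ := by
    rw [add_sub_cancel_left, inv_smul_smul₀ hρ']
  have h1 : ∀ x ∈ ball (c + (ρ : ℂ) • ex K 1 ζ) (2 * (ρ * t / 2 * mo K (ex K 1 ζ))),
      (ρ : ℂ)⁻¹ • (x - c) ∈ ball (ex K 1 ζ) (mo K (ex K 1 ζ) * t) := fun x hx => by
    rw [mem_ball_iff_norm] at hx ⊢
    nth_rw 1 [← h0]
    rw [← smul_sub, sub_sub_sub_cancel_right, norm_smul, norm_inv, Complex.norm_real,
      Real.norm_of_nonneg hρ.le, inv_mul_lt_iff₀ hρ]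
    linarith
  have h2 : ball (ex K 1 ζ) (mo K (ex K 1 ζ) * t) ⊆ ball (ex K 1 ζ) (mo K (ex K 1 ζ) / 4) :=
    ball_subset_ball (by nlinarith)
  have h3 : ball (c + (ρ : ℂ) • ex K 1 ζ) (ρ * t / 2 * mo K (ex K 1 ζ)) ⊆
      ball (c + (ρ : ℂ) • ex K 1 ζ) (2 * (ρ * t / 2 * mo K (ex K 1 ζ))) :=
    ball_subset_ball (by nlinarith [mul_pos (mul_pos hρ t0) hm])
  have h4 := fun x hx => lb_mem' hη hζ t0.le t1 t2 (h1 x hx)
  have h5 := fun x hx => ex_lb (c := ζ) one_pos (fun _ _ => rfl) (near_ne hd (h2 (h1 x hx)))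
  have h6 := mv (h := fun x => u (lb K 1 ζ (ex K 1 ζ) ((ρ : ℂ)⁻¹ • (x - c))) *
      ∏ i ∈ K, ((ρ : ℂ)⁻¹ • (x - c)) i) (z := c + (ρ : ℂ) • ex K 1 ζ)
    (r := ρ * t / 2 * mo K (ex K 1 ζ)) (by positivity) (fun x hx => by
      refine (DifferentiableAt.mul ?_ (by fun_prop)).differentiableWithinAt
      exact (hu _ (st_dm (half_pos hη) (h4 x hx))).differentiableAt.comp x
        ((lb_df hd (h2 (h1 x hx))).comp x (f := fun x => (ρ : ℂ)⁻¹ • (x - c)) (by fun_prop)))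
    (fun x hx => hO (by
      rw [← pt_inv hρ c x, ← h5 x (h3 hx)]
      exact pt_mem hρ c ((mem_dm one_pos).1 (st_dm (half_pos hη) (h4 x (h3 hx)))))) hν hB
    fun x hx => by
      have := h _ (h4 x (h3 hx))
      rw [h5 x (h3 hx), pt_inv hρ] at this
      simpa only [norm_mul, norm_prod, mo] using this
  simp only [h0, lb_self, norm_mul, norm_prod] at h6
  rw [div_mul_eq_mul_div, le_div_iff₀ (by positivity), mul_assoc _ (2 * Real.pi), Real.exp_nat_mul,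
    ← mul_inv_le_iff₀ (by positivity), ← inv_pow, ← Real.exp_neg, ← mo_eq]
  refine Eq.trans_le ?_ h6
  rw [← mo]
  ring

theorem ev_le {k : ℕ} (A : Af p k) (J : Fin k → Fin p) : ‖ev A J‖ ≤ ‖A‖ :=
  (A.le_opNorm _).trans (mul_le_of_le_one_right (norm_nonneg _) (by simp [Pi.norm_single]))

theorem an_ev {k : ℕ} {b : Cm p → Af p k} {z : Cm p} (h : AnalyticAt ℂ b z) (J : Fin k → Fin p) :
    AnalyticAt ℂ (fun x => ev (b x) J) z :=
  ((ContinuousAlternatingMap.apply ℂ (Cm p) ℂ fun i => Pi.single (J i) 1).analyticAt _).comp h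

end GrowH

open GrowH in
/-- **GROW** -/
theorem grow_of (hG : StGrow) : GROW := by
  intro p W S C n _ _ V L φ m hL hD k b hb h2 y
  set e := chartAt (Cm p) y with he
  have hy : At e y := ⟨chart_mem_atlas _ _, mem_chart_source _ _⟩
  obtain ⟨O, hO, -, ν, hν, h2⟩ := h2 e y hy
  refine ⟨e ⁻¹' O, e.continuousAt hy.2 hO, fun ρ f g h hB J => ?_⟩
  have hO' : ball (e y) ρ ⊆ O := fun z hz => e.right_inv (h.sub hz) ▸ hB z hz
  choose ι hι using fun x : C.X => hL.cover (C.π x) (C.mem x)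
  have key : ∀ A x, C.π x ∈ e.source → ∀ i j, C.π x ∈ L.U i → C.π x ∈ L.U j →
      ev (b i e (e (C.π x))) J * m A i x = ev (b j e (e (C.π x))) J * m A j x := by
    intro A x hx i j hi hj
    have h1 : (fun z => e (e.symm z)) =ᶠ[𝓝 (e (C.π x))] id :=
      e.eventually_right_inverse (e.map_source hx)
    rw [hb.chg i j e e _ ⟨hy.1, hx⟩ ⟨hy.1, hx⟩ hi hj, h1.fderiv_eq, fderiv_id, hD.chg A i j x hi hj,
      ← mul_assoc, mul_comm _ (L.g i j _)]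
    rfl
  obtain ⟨hπ, hσ, -, hf, -⟩ := Hm.stBr p W.X S.U C S.isOpen_U
  obtain ⟨h1, -, -⟩ := (Hm.stLift p W.X S C).2.2 y ρ f g h
  obtain ⟨F, hF⟩ : ∃ F : Mx n → Cm p → ℂ, ∀ A, ∀ ζ ∈ Dm (S.K y), ∀ i, C.π (f ζ) ∈ L.U i →
      F A ζ = ev (b i e (e (C.π (f ζ)))) J * m A i (f ζ) :=
    ⟨fun A ζ => ev (b (ι (f ζ)) e (e (C.π (f ζ)))) J * m A (ι (f ζ)) (f ζ),
      fun A ζ hζ i hi => key A _ (src h hζ) _ _ (hι _) hi⟩
  have an : ∀ A, AnalyticOnNhd ℂ (F A) (Dm (S.K y)) := fun A ζ hζ => by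
    obtain ⟨σ, s1, s2, -⟩ := hσ y (f ζ) (src h hζ)
    obtain ⟨a1, -, a2⟩ := hf _ f ζ y σ (h1 ζ hζ).1 (src h hζ) s1 s2
    refine (((an_ev (hb.an _ e _ ⟨hy.1, src h hζ⟩ (hι (f ζ))) J).mul (hD.an A _ e hy.1 σ _ s1
      ((e.left_inv (src h hζ)).symm ▸ hι (f ζ)))).comp_of_eq a1 rfl).congr ?_
    filter_upwards [a2, (Hm.TorH.dm_open _).mem_nhds hζ, (hπ.continuousAt.comp
      (h1 ζ hζ).1.1.self_of_nhds).eventually_mem ((hL.isOpen _).mem_nhds (hι (f ζ)))] with x a c d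
    rw [hF A x c _ d, Function.comp_apply, Pi.mul_apply, ← a]
  refine ⟨F, ⟨an, fun A i hi ζ hζ => ?_, ?_, fun A => (model (an A) h.pos hO' hν
    fun R η hη => ?_).gr⟩, hF⟩
  · have h3 := h.mono i hi ζ hζ
    rw [hF A _ (add_mem hζ hi) (ι (f ζ)) (by rw [h3, C.inv]; exact hι _), hF _ ζ hζ _ (hι _), h3,
      C.inv, hD.eqv A _ _ _ (hι _)]
  · obtain ⟨d, hd⟩ := hD.poly
    refine ⟨d, fun ζ hζ => ?_⟩
    obtain ⟨P, -, h3, h4⟩ := hd _ (f ζ) (hι _)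
    refine ⟨MvPolynomial.C (ev (b (ι (f ζ)) e (e (C.π (f ζ)))) J) * P,
      (MvPolynomial.totalDegree_mul _ _).trans (by simpa using h3), fun A => ?_⟩
    rw [hF A ζ hζ _ (hι _), h4, map_mul, MvPolynomial.eval_C]
  obtain ⟨B, d, hd⟩ := hD.bd A
  obtain ⟨B', N, hN⟩ := (hG n p (S.K y) V.Q V.w (fun ζ => V.gr (f ζ))
    (fun ζ hζ => V.lv _ f ζ (h1 ζ hζ).1) η hη).2 R
  obtain ⟨c, c0, hc⟩ := pl_le (S.K y) (N * d)
  refine ⟨|B| * (|B'| + 1) ^ d * c, by positivity, fun ζ hζ => ?_⟩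
  have hζ' := st_dm hη hζ
  have h3 := (le_pl hζ').1
  have h4 := hd _ (f ζ) ((|B'| + 1) * pl (S.K y) ζ ^ N) (hι _)
    (one_le_mul_of_one_le_of_one_le (by linarith [abs_nonneg B']) (one_le_pow₀ h3)) fun s =>
      (hN ζ hζ s).2.trans (mul_le_mul_of_nonneg_right (mul_le_mul_of_nonneg_right
        (by linarith [le_abs_self B']) (by positivity)) (Hm.hn_nonneg (V.hs _).pos _))
  have h5 := h2 _ (hO' (pt_mem h.pos _ ((mem_dm one_pos).1 hζ'))) (ι (f ζ)) (h.eq ζ hζ' ▸ hι _)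
  refine le_trans ?_ (mul_le_mul_right h5 _)
  rw [← ENNReal.ofReal_mul (by positivity), ← h.eq ζ hζ', ← crd h hζ', hF A ζ hζ' _ (hι _)]
  refine ENNReal.ofReal_le_ofReal ?_
  have h6 : pl (S.K y) ζ ^ (N * d) * mo (S.K y) (ex (S.K y) 1 ζ) ^ 2 ≤ c := by
    refine (mul_le_mul_of_nonneg_right (hc ζ hζ') (sq_nonneg _)).trans ?_
    rw [mo_eq, ← Real.exp_nat_mul, mul_assoc, ← Real.exp_add]
    refine mul_le_of_le_one_right c0 (Real.exp_le_one_iff.2 ?_)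
    push_cast
    nlinarith [Real.pi_gt_three, im_nonneg hζ']
  rw [mul_pow, ← pow_mul] at h4
  calc _ ≤ ‖b (ι (f ζ)) e (e (C.π (f ζ)))‖ ^ 2 * (|B| * ((|B'| + 1) ^ d * pl (S.K y) ζ ^ (N * d)) *
        Real.exp (-φ (ι (f ζ)) (C.π (f ζ)))) * mo (S.K y) (ex (S.K y) 1 ζ) ^ 2 := by
        rw [mul_pow, norm_mul, mul_pow]
        gcongr
        · exact ev_le _ _
        · exact h4.trans (by gcongr; exact le_abs_self B)
    _ = |B| * (|B'| + 1) ^ d * (pl (S.K y) ζ ^ (N * d) * mo (S.K y) (ex (S.K y) 1 ζ) ^ 2) *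
        (Real.exp (-φ (ι (f ζ)) (C.π (f ζ))) * ‖b (ι (f ζ)) e (e (C.π (f ζ)))‖ ^ 2) := by ring
    _ ≤ _ := by gcongr

end Vale.Agent.P281Z.Lf
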