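import Vale.Agent.P281Z.Lf.LamB

/-!
# P281Z, the determinant of the Hodge filtration
-/

open scoped Matrix.Norms.Operator Topology ContDiff
open Filter Set Matrix
open Vale.Agent.P272.K Vale.Agent.P285.H281.FD
open Vale.Agent.P277Z (Hol)
open Vale.Agent.P284Z (levi)
open Vale.Agent.P281Z.Hm hiding Bd

noncomputable section

namespace Vale.Agent.P281Z.Lf

namespace LamH

theorem levi_sum {E : Type} [NormedAddCommGroup E] [NormedSpace ℝ E] [NormedSpace ℂ E]
    [IsScalarTower ℝ ℂ E] {z : E} (s : Finset ℕ) {a : ℕ → E → ℝ}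
    (h : ∀ k, AnalyticAt ℝ (a k) z) (v : E) :
    levi (fun x => ∑ k ∈ s, a k x) z v = ∑ k ∈ s, levi (a k) z v := by
  induction s using Finset.induction_on with
  | empty => simpa using levi_const 0 z v
  | insert k s hk ih =>
    simp only [Finset.sum_insert hk]
    rw [levi_add (h k).contDiffAt (Finset.analyticAt_fun_sum s fun k _ => h k).contDiffAt, ih]

theorem dv_eq {p : ℕ} (φ : Cm p → ℝ) (z v : Cm p) : dv φ z v = wd v (fun y => (φ y : ℂ)) z := by
  nth_rw 2 [pi_eq_sum_univ' v]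
  rw [wd_sumv, dv]
  exact Finset.sum_congr rfl fun a _ => by rw [wd_single, smul_eq_mul, mul_comm]

theorem small {n : Type} [Fintype n] [DecidableEq n] (w k : ℕ) (π : Gr n) {P : Mx n → Prop}
    (h : ∀ᶠ F in 𝓝 (gF w π k), P F) :
    ∀ᶠ δ in 𝓝[>] (0 : ℝ), ∀ π' : Gr n, (∀ q, ‖π' q - π q‖ ≤ δ) → P (gF w π' k) := by
  obtain ⟨ε, h0, h1⟩ := Metric.eventually_nhds_iff.1 h
  have : Tendsto (fun δ : ℝ => (Finset.Icc k w).card • δ) (𝓝 0) (𝓝 0) :=
    Continuous.tendsto' (by fun_prop) _ _ (by simp)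
  filter_upwards [nhdsWithin_le_nhds (this.eventually (gt_mem_nhds h0))] with δ a π' b
  refine h1 ((dist_eq_norm _ _).trans_lt (lt_of_le_of_lt ?_ a))
  rw [gF, gF, ← Finset.sum_sub_distrib]
  exact (norm_sum_le _ _).trans (Finset.sum_le_card_nsmul _ _ _ fun q _ => b q)

variable {p : ℕ} {W : Mf p} {S : Snc p W.X} {C : Cv W.X S.U} {n : Type} [Fintype n]
  [DecidableEq n] {V : GV p C n} (D : Fs V) (R : ∀ k, Matrix (Fin (D.d k)) n ℂ)

namespace Fs

/-- the coordinates -/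
def m (A : Mx n) (i x : C.X) : ℂ := ∏ k ∈ Finset.range (V.w + 1), mm (R k) A (D.B i k x)

/-- the norm of the frame -/
def G (i x : C.X) : ℝ := ∏ k ∈ Finset.range (V.w + 1), gg V.Q (D.B i k x)

/-- the weight -/
def φ (i : C.X) (y : W.X) : ℝ := -Real.log (D.G i (Classical.epsilon fun x => C.π x = y))

/-- the change of the frame -/
def Ch (i j : C.X) (y : W.X) (c : ℂ) : Prop :=
  ∀ x, C.π x = y → (∀ A, D.m R A j x = c * D.m R A i x) ∧ D.G j x = ‖c‖ ^ 2 * D.G i x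

/-- the cocycle -/
def g (i j : C.X) (y : W.X) : ℂ := Classical.epsilon (D.Ch R i j y)

/-- the bundle -/
abbrev bd : Bd W.X := ⟨C.X, D.U, D.g R⟩

variable {D R} {i j x : C.X} {e : Chart p W.X} {σ : Cm p → C.X} {z : Cm p}

theorem m_eqv (A : Mx n) (g : C.Γ) (h : C.π x ∈ D.U i) :
    D.m R A i (g • x) = D.m R (A * cz (V.ρ g)) i x :=
  Finset.prod_congr rfl fun k _ => by rw [D.eqv i k g x h, mm_left]

theorem G_eqv (g : C.Γ) (h : C.π x ∈ D.U i) : D.G i (g • x) = D.G i x :=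
  Finset.prod_congr rfl fun k _ => by rw [D.eqv i k g x h, gg_left (V.pQ g)]

theorem φ_eq (h : C.π x ∈ D.U i) : D.φ i (C.π x) = -Real.log (D.G i x) := by
  obtain ⟨g, hg⟩ := C.tr x _ (Classical.epsilon_spec (p := fun x' => C.π x' = C.π x) ⟨x, rfl⟩).symm
  rw [φ, hg, G_eqv g h]

theorem ch (h : C.π x ∈ D.U i) (h' : C.π x ∈ D.U j) :
    D.Ch R i j (C.π x) (D.g R i j (C.π x)) := by
  refine Classical.epsilon_spec (p := D.Ch R i j (C.π x)) ?_
  choose M hM using fun k => (D.fr i k x h).fac (D.fr j k x h').fix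
  refine ⟨∏ k ∈ Finset.range (V.w + 1), (M k).det, fun x' a => ?_⟩
  obtain ⟨g, rfl⟩ := C.tr x x' a.symm
  refine ⟨fun A => ?_, ?_⟩
  · rw [m_eqv A g h, m_eqv A g h', m, m, mul_comm, ← Finset.prod_mul_distrib]
    exact Finset.prod_congr rfl fun k _ => by rw [hM, mm_mul]
  · rw [G_eqv g h, G_eqv g h', G, G, norm_prod, ← Finset.prod_pow, ← Finset.prod_mul_distrib]
    exact Finset.prod_congr rfl fun k _ => by rw [hM, gg_mul]

theorem ev_mem (a : Sc C e σ z) (b : e.symm z ∈ D.U i) :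
    ∀ᶠ x in 𝓝 z, e.symm x ∈ D.U i ∧ C.π (σ x) = e.symm x :=
  ((e.continuousAt_symm a.self_of_nhds.2.1).eventually_mem ((D.opn i).mem_nhds b)).and
    (a.mono fun _ h => h.2.2)

theorem ev_fix (a : Sc C e σ z) (b : e.symm z ∈ D.U i) (k : ℕ) :
    ∀ᶠ x in 𝓝 z, gF V.w (V.gr (σ x)) k * D.B i k (σ x) = D.B i k (σ x) :=
  (ev_mem a b).mono fun _ h => (D.fr i k _ (h.2 ▸ h.1)).fix

theorem grif (hG : StGram) (hO : Omm V) (he : e ∈ atlas (Cm p) W.X) (a : Sc C e σ z)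
    (b : e.symm z ∈ D.U i) (k : ℕ) : gg V.Q (D.B i k (σ z)) ≠ 0 ∧
    AnalyticAt ℝ (fun x => Real.log (gg V.Q (D.B i k (σ x)))) z ∧ ∀ v,
      levi (fun x => -Real.log (gg V.Q (D.B i k (σ x)))) z v = 4 * (trace (thS V σ z v *
        V.gr (σ z) k * ts V.w (fun x => V.gr (σ x)) z v)).re := by
  have h := D.fr i k (σ z) (a.self_of_nhds.2.2 ▸ b)
  obtain ⟨h1, h2⟩ := ((stGrif hG _ _ _ _ _ z (lv hO he a)).2 k).2 _ _ (D.an i k e he σ z a b) h.inj
    (ev_fix a b k) (h.imp fun _ h => h.2)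
  exact ⟨norm_ne_zero_iff.2 h1, h2⟩

theorem gg_ne (hG : StGram) (hO : Omm V) (h : C.π x ∈ D.U i) (k : ℕ) : gg V.Q (D.B i k x) ≠ 0 := by
  obtain ⟨σ, h1, h2, -⟩ := hO.ex _ x (at_self _)
  simpa only [h2] using (grif hG hO (at_self _).1 h1
    (by rwa [OpenPartialHomeomorph.left_inv _ (mem_chart_source _ _)]) k).1

theorem G_pos (hG : StGram) (hO : Omm V) (h : C.π x ∈ D.U i) : 0 < D.G i x :=
  Finset.prod_pos fun k _ => (norm_nonneg _).lt_of_ne' (gg_ne hG hO h k)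

theorem exp_φ (hG : StGram) (hO : Omm V) (h : C.π x ∈ D.U i) :
    Real.exp (-D.φ i (C.π x)) = D.G i x := by
  rw [φ_eq h, neg_neg, Real.exp_log (G_pos hG hO h)]

theorem φ_ev (hG : StGram) (hO : Omm V) (a : Sc C e σ z) (b : e.symm z ∈ D.U i) :
    (fun x => D.φ i (e.symm x)) =ᶠ[𝓝 z]
      fun x => ∑ k ∈ Finset.range (V.w + 1), -Real.log (gg V.Q (D.B i k (σ x))) := by
  filter_upwards [ev_mem a b] with x h
  rw [← h.2, φ_eq (h.2 ▸ h.1), G, Real.log_prod fun k _ => gg_ne hG hO (h.2 ▸ h.1) k,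
    Finset.sum_neg_distrib]

theorem m_an (A : Mx n) (he : e ∈ atlas (Cm p) W.X) (a : Sc C e σ z) (b : e.symm z ∈ D.U i) :
    AnalyticAt ℂ (fun x => D.m R A i (σ x)) z :=
  Finset.analyticAt_fun_prod _ fun k _ => an_det (an_mul analyticAt_const (D.an i k e he σ z a b))

variable {R' : ∀ k, Matrix n (Fin (D.d k)) ℂ}

open MvPolynomial in
theorem m_poly (hR : ∀ k, R k * R' k = 1) (h : C.π x ∈ D.U i) : ∃ P : MvPolynomial (n × n) ℂ,
    P ≠ 0 ∧ P.totalDegree ≤ ∑ k ∈ Finset.range (V.w + 1), Fintype.card (Fin (D.d k)) ∧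
    ∀ A, D.m R A i x = eval (fun ab => A ab.1 ab.2) P := by
  choose P h1 h2 using fun k => poly (R k) (D.B i k x)
  refine ⟨∏ k ∈ Finset.range (V.w + 1), P k, Finset.prod_ne_zero_iff.2 fun k _ h0 => ?_,
    (totalDegree_finsetProd _ _).trans (Finset.sum_le_sum fun k _ => h1 k), fun A => ?_⟩
  · obtain ⟨A, hA⟩ := (D.fr i k x h).ex (hR k)
    rw [h2, h0, map_zero] at hA
    exact zero_ne_one hA
  · simp only [m, h2, map_prod]

theorem m_ne (hR : ∀ k, R k * R' k = 1) (h : C.π x ∈ D.U i) : ∃ A, D.m R A i x ≠ 0 := by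
  obtain ⟨P, h0, -, h2⟩ := m_poly hR h
  by_contra! H
  exact h0 (MvPolynomial.funext fun a => (h2 (of fun s t => a (s, t))).symm.trans (H _))

theorem g_ne (hR : ∀ k, R k * R' k = 1) (h : C.π x ∈ D.U i) (h' : C.π x ∈ D.U j) :
    D.g R i j (C.π x) ≠ 0 := fun h0 => by
  obtain ⟨A, hA⟩ := m_ne hR h'
  exact hA (by rw [(ch (R := R) h h' x rfl).1, h0, zero_mul])

theorem lb (hG : StGram) (hO : Omm V) (hR : ∀ k, R k * R' k = 1) : LBOn p S.U (D.bd R) D.φ := by
  refine ⟨D.opn, D.sub, fun y hy => ?_, fun i j y h h' e he => ?_, fun i j y h h' => ?_,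
    fun i j k y h h' h'' => ?_, fun i e y he h => ?_, fun i j y h h' => ?_⟩
  · obtain ⟨x, rfl⟩ := C.surj y hy
    exact ⟨x, D.cov x⟩
  all_goals obtain ⟨x, rfl⟩ := C.surj y (D.sub i h)
  · obtain ⟨σ, h1, h2, -⟩ := hO.ex e x he
    obtain ⟨A, hA⟩ := m_ne hR h
    rw [← e.left_inv he.2] at h h'
    have k1 := m_an (R := R) A he.1 h1 h
    have k2 : D.m R A i (σ (e (C.π x))) ≠ 0 := h2.symm ▸ hA
    refine ((m_an (R := R) A he.1 h1 h').div k1 k2).congr ?_
    filter_upwards [ev_mem h1 h, ev_mem h1 h', k1.continuousAt.eventually_ne k2] with z a b c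
    rw [Pi.div_apply, (ch (R := R) (a.2 ▸ a.1) (b.2 ▸ b.1) _ rfl).1, mul_div_cancel_right₀ _ c, a.2]
  · exact g_ne hR h h'
  · obtain ⟨A, hA⟩ := m_ne hR h
    refine mul_right_cancel₀ hA ?_
    rw [← (ch (R := R) h h'' x rfl).1, (ch (R := R) h' h'' x rfl).1, (ch (R := R) h h' x rfl).1]
    ring
  · obtain ⟨σ, h1, -⟩ := hO.ex e x he
    rw [← e.left_inv he.2] at h
    exact ((Finset.analyticAt_fun_sum _ fun k _ => (grif hG hO he.1 h1 h k).2.1.neg).congr
      (φ_ev hG hO h1 h).symm).contDiffAt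
  · rw [φ_eq h, φ_eq h', (ch (R := R) h h' x rfl).2, Real.log_mul
      (pow_ne_zero _ (norm_ne_zero_iff.2 (g_ne hR h h'))) (G_pos hG hO h).ne']
    ring

theorem dual (hG : StGram) (hO : Omm V) (hR : ∀ k, R k * R' k = 1) :
    Dual V (D.bd R) D.φ (D.m R) := by
  refine ⟨fun A i e he σ z a b => m_an A he a b, fun A i j x h h' => (ch h h' x rfl).1 A,
    fun A i g x h => m_eqv A g h, ⟨_, fun i x h => m_poly hR h⟩, fun A => ⟨∏ k ∈ Finset.range
      (V.w + 1), (Fintype.card n * ‖(R k * A)ᴴ * (R k * A)‖) ^ Fintype.card (Fin (D.d k)),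
      ∑ k ∈ Finset.range (V.w + 1), Fintype.card (Fin (D.d k)), fun i x b h h1 H => ?_⟩,
    fun A i e he σ z a b v hv => ?_⟩
  · rw [exp_φ hG hO h, m, G, norm_prod, ← Finset.prod_pow, ← Finset.prod_pow_eq_pow_sum,
      ← Finset.prod_mul_distrib, ← Finset.prod_mul_distrib]
    refine Finset.prod_le_prod (fun k _ => by positivity) fun k _ => ?_
    rw [← mul_pow]
    exact (D.fr i k x h).bd (V.hs x) (zero_le_one.trans h1) H
  · choose t h1 h2 using fun k => flat (lv hO he a) (D.an i k e he σ z a b) (ev_fix a b k)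
      (D.fr i k (σ z) (a.self_of_nhds.2.2 ▸ b)) (grif hG hO he a b k).1 hv
    have d1 := fun k => (an_ofReal (grif hG hO he a b k).2.1).differentiableAt
    rw [dv_eq, wd_congr ((φ_ev hG hO a b).mono fun _ h => congrArg Complex.ofReal h)]
    simp only [Complex.ofReal_sum, Complex.ofReal_neg, m]
    rw [wd_sum _ fun k _ => (d1 k).fun_neg, fderiv_finsetProd (g := fun k x => mm (R k) A (D.B i k (σ x)))
      fun k _ => (an_det (an_mul analyticAt_const (D.an i k e he σ z a b))).differentiableAt,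
      _root_.sum_apply,
      Finset.mul_sum]
    refine Finset.sum_congr rfl fun k hk => ?_
    rw [wd_neg, h2, neg_mul_neg, ← Finset.prod_erase_mul _ _ hk, mul_assoc, ← h1]
    rfl

theorem lam (hG : StGram) (hO : Omm V) (hR : ∀ k, R k * R' k = 1) :
    Lam V (D.bd R) D.φ (D.m R) := by
  refine ⟨lb hG hO hR, dual hG hO hR, fun i e he σ z a b v => ?_, fun A i x h h0 => ?_,
    fun A i g x o h ho hc => ?_⟩
  · rw [levi_congr (φ_ev hG hO a b), levi_sum _ fun k => (grif hG hO he a b k).2.1.fun_neg,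
      ← (stGrif hG _ _ _ _ _ z (lv hO he a)).1, Finset.mul_sum]
    exact Finset.sum_congr rfl fun k _ => (grif hG hO he a b k).2.2 v
  · choose! c h1 h2 using fun k hk => low (Q := V.Q) (D.fr i k x h)
      (Finset.prod_ne_zero_iff.1 h0 k hk)
    obtain ⟨δ, h3, h4⟩ := (((Finset.range (V.w + 1)).eventually_all.2 fun k hk =>
      small _ _ _ (h2 k hk)).and self_mem_nhdsWithin).exists
    refine ⟨δ, _, h4, Finset.prod_pos h1, fun j x' h' H => ?_⟩
    rw [exp_φ hG hO h', m, G, norm_prod, ← Finset.prod_pow, ← Finset.prod_mul_distrib]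
    exact Finset.prod_le_prod (fun k hk => mul_nonneg (h1 k hk).le (norm_nonneg _))
      fun k hk => h3 k hk _ H _ (D.fr j k x' h')
  · rw [m, m, ← Finset.prod_pow, ← Finset.prod_pow]
    exact Finset.prod_congr rfl fun k _ => (D.fr i k x h).fin
      (Commute.sum_right _ _ _ fun q _ => hc q) (by rw [← cz_pow, ho, cz_one])

end Fs

end LamH

open LamH in
/-- **LAM** -/
theorem lam_of (hG : StGram) (hO : OMM) : LAM := fun p W S C n _ _ V hV => by
  have h := hO p W S C n V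
  obtain ⟨D⟩ := exists_fs h hV
  obtain ⟨x⟩ : Nonempty C.X := inferInstance
  choose R hR _ using fun k => D.fr x k x (D.cov x)
  exact ⟨_, _, _, Fs.lam hG h hR⟩

end Vale.Agent.P281Z.Lf
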