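import Vale.Agent.P281Z.Lf.LeafB

/-!
# P281Z, leaves: the assembly
-/

open scoped Topology Manifold ContDiff Matrix.Norms.Operator
open Set Filter Matrix
open Vale.Agent.P272.K Vale.Agent.P285.H281.FD
open Vale.Agent.P277Z (Hol Mer at_chart)
open Vale.Agent.P277Z.Slc (Ind triv)
open Vale.Agent.P281Z.Hm (Cv GV Ln Mx omH)

noncomputable section

namespace Vale.Agent.P281Z.Lf

theorem ker_le {p r : ℕ} {T T' : Cm p →L[ℂ] Cm r} (h : Function.Surjective T)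
    (h' : Function.Surjective T') (k : ∀ v, T v = 0 → T' v = 0) {v : Cm p} (hv : T' v = 0) :
    T v = 0 := by
  have e := (T : Cm p →ₗ[ℂ] Cm r).finrank_range_add_finrank_ker
  have e' := (T' : Cm p →ₗ[ℂ] Cm r).finrank_range_add_finrank_ker
  rw [LinearMap.range_eq_top.2 h] at e
  rw [LinearMap.range_eq_top.2 h'] at e'
  have := Submodule.eq_of_le_of_finrank_eq (S₁ := LinearMap.ker (T : Cm p →ₗ[ℂ] Cm r))
    (S₂ := LinearMap.ker (T' : Cm p →ₗ[ℂ] Cm r)) k (by omega)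
  exact LinearMap.mem_ker.1 (this ▸ LinearMap.mem_ker.2 hv)

theorem dX_ne {p r : ℕ} {X : Cm p → Cm r} {z : Cm p} (h : Function.Surjective (fderiv ℂ X z)) :
    dX X z ≠ 0 := fun k => by
  choose v hv using fun j => h (Pi.single j 1)
  have := congrArg (fun A => A v) k
  have e : (fderiv ℂ X z) ∘ v = (1 : Matrix (Fin r) (Fin r) ℂ) := by
    ext i j; simp [hv, one_apply, Pi.single_apply, eq_comm]
  simp only [dX, ContinuousAlternatingMap.compContinuousLinearMap_apply, e] at this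
  exact one_ne_zero ((det_one (n := Fin r) (R := ℂ)).symm.trans this)

variable {p : ℕ} {W : Mf p} {S : Hm.Snc p W.X} {C : Cv W.X S.U} {n : Type} [Fintype n]
  [DecidableEq n] {V : GV p C n} {l : Bd W.X} {L : Ln V l} {Λ : Bd W.X} {φ : Λ.ι → W.X → ℝ}
  {m : Mx n → Λ.ι → C.X → ℂ} {h : Chart p W.X → Cm p → Matrix (Fin p) (Fin p) ℂ} {r c : ℕ}
  {Ψ : W.X → ℝ}

/-- `q` is the ratio of `b₁` and `b₀` -/
def Rt {U : Set W.X} {c a k : ℕ} (b₀ : Fr p (bun Λ l U c 0) k) (b₁ : Fr p (bun Λ l U c a) k)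
    (q : l.ι → W.X → ℂ) : Prop := ∀ y i t e, At e y → y ∈ (bun Λ l U c 0).U (i, t) →
  (∃ κ' : ℂ, b₁ (i, t) e (e y) = κ' • b₀ (i, t) e (e y)) →
    b₁ (i, t) e (e y) = q t y • b₀ (i, t) e (e y)

theorem quo (ho : Omm V) (llb : LLB) (flx : FLX) (par : PAR) (hΛ : Lam V Λ φ m)
    (hl : ∀ g, L.lam g = 1) (hr : RkLe V r) (hh : CK p S.U h) (hc : 0 < c)
    (hΨ : ∀ (e : Chart p W.X) x, At e x → x ∈ S.U → ContDiffAt ℝ ∞ (fun z => Ψ (e.symm z)) (e x))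
    {b₀ : Fr p (bun Λ l S.U c 0) r} (h₀ : Sol p h (bw φ L c 0) Ψ b₀) {e : Chart p W.X}
    {y : W.X} (he : At e y) {σ : Cm p → C.X} (hσ : Sc C e σ (e y)) (hy : RkAt V r y)
    (hn : Nv b₀ y) : ∃ X : Cm p → Cm r, Function.Surjective (fderiv ℂ X (e y)) ∧
      (∀ v, fderiv ℂ X (e y) v = 0 → thS V σ (e y) v = 0) ∧ ∀ a b₁ q, Sol p h (bw φ L c a) Ψ b₁ →
      Rt b₀ b₁ q → ∀ i t, y ∈ (bun Λ l S.U c 0).U (i, t) →
        AnalyticAt ℂ (fun z => q t (e.symm z)) (e y) ∧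
        (∀ᶠ z in 𝓝 (e y), b₁ (i, t) e z = q t (e.symm z) • b₀ (i, t) e z) ∧
        ∀ v, fderiv ℂ X (e y) v = 0 →
          LD (fun z => q t (e.symm z)) (e y) v (a * dv (fun z => lw L t (e.symm z)) (e y) v) := by
  obtain ⟨X, x1, x2, x3⟩ := loc (L := L) (Ψ := Ψ) ho llb flx par hΛ hl hr hh hc he hσ hy
  refine ⟨X, x1, x2, fun a b₁ q h₁ hq i t hi => ?_⟩
  obtain ⟨f₀, f1, f2, f3⟩ := x3 0 b₀ h₀ (i, t) hi
  obtain ⟨f₁, g1, g2, g3⟩ := x3 a b₁ h₁ (i, t) hi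
  have l0 := (llb p W S C n V l L Λ φ m hΛ hl c 0).1
  have n0 : f₀ (e y) ≠ 0 := fun k => hn _ e he hi (by rw [f2.self_of_nhds, k]; ext; simp)
  have k : ∀ᶠ z in 𝓝 (e y), b₁ (i, t) e z = q t (e.symm z) • b₀ (i, t) e z ∧
      f₁ z / f₀ z = q t (e.symm z) := (ev_e he).2 (by
    filter_upwards [(ev_e he).1 f2, (ev_e he).1 g2, (ev_e he).1 (f1.continuousAt.eventually_ne n0),
      at_near he, (l0.isOpen _).mem_nhds hi, h₀.hol.nv_near l0 hi.2.2 hn] with x a1 a2 a3 a4 a5 a6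
    have e1 : b₁ (i, t) e (e x) = (f₁ (e x) / f₀ (e x)) • b₀ (i, t) e (e x) := by
      rw [a1, a2, smul_smul, div_mul_cancel₀ _ a3]
    have e2 := hq x i t e a4 a5 ⟨_, e1⟩
    rw [e.left_inv a4.2]
    exact ⟨e2, smul_left_injective ℂ (a6 _ e a4 a5) (e1.symm.trans e2)⟩)
  have k' : (fun z => f₁ z / f₀ z) =ᶠ[𝓝 (e y)] fun z => q t (e.symm z) := k.mono fun _ h => h.2
  refine ⟨(g1.fun_div f1 n0).congr k', k.mono fun _ h => h.1, fun v hv => ?_⟩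
  have d := (g3 v hv).div (f3 v hv) n0
  have s1 : DifferentiableAt ℝ (fun z => bw φ L c 0 (i, t) (e.symm z) + Ψ (e.symm z)) (e y) :=
    ((l0.sm _ e y he hi).add (hΨ e y he hi.2.2)).differentiableAt (by simp)
  have s2 : DifferentiableAt ℝ (fun z => lw L t (e.symm z)) (e y) := by
    simpa [bw] using ((llb p W S C n V l L Λ φ m hΛ hl 0 1).1.sm (i, t) e y he hi).differentiableAt
      (by simp)
  rw [show (fun z => bw φ L c a (i, t) (e.symm z) + Ψ (e.symm z)) = fun z =>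
    (bw φ L c 0 (i, t) (e.symm z) + Ψ (e.symm z)) + a * lw L t (e.symm z) from
      funext fun z => by simp only [bw]; push_cast; ring, dv_add s1 (s2.const_mul _), dv_mul s2,
    add_sub_cancel_left] at d
  exact ⟨d.1.congr_of_eventuallyEq k'.symm, by rw [← k'.fderiv_eq, ← k'.self_of_nhds]; exact d.2⟩

theorem ld_psi (llb : LLB) (hΛ : Lam V Λ φ m) (hl : ∀ g, L.lam g = 1) {e : Chart p W.X}
    (he : e ∈ atlas (Cm p) W.X) {σ : Cm p → C.X} {z : Cm p} (hσ : Sc C e σ z) {t : l.ι}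
    (ht : e.symm z ∈ l.U t) (k : n) : AnalyticAt ℂ (fun x => L.ψ t (σ x) k) z ∧ ∀ v,
      thS V σ z v = 0 → LD (fun x => L.ψ t (σ x) k) z v (-dv (fun x => lw L t (e.symm x)) z v) := by
  have hU : e.symm z ∈ S.U := hσ.self_of_nhds.2.2 ▸ C.mem _
  obtain ⟨i, hi⟩ := hΛ.lb.cover _ hU
  have d := (llb p W S C n V l L Λ φ m hΛ hl 0 1).2.1 k
  have a : AnalyticAt ℂ (fun x => L.ψ t (σ x) k) z := by
    simpa [bm, lm] using d.an 1 (i, t) e he σ z hσ ⟨hi, ht, hU⟩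
  exact ⟨a, fun v hv => ⟨a.differentiableAt, by
    simpa [bm, lm, bw] using d.flat 1 (i, t) e he σ z hσ ⟨hi, ht, hU⟩ v hv⟩⟩

theorem leaf_of (poin : Hm.StPoin) (omm : OMM) (sncb : SNCB) (polar : POLAR) (pot : POT) (atb : ATB)
    (lam : LAM) (llb : LLB) (flx : FLX) (tube : TUBE) (par : PAR) (rat : RAT) : LEAF := by
  intro r p W S C n _ _ V l L hc hk hf hl hmin hmod hr hy
  have ho := omm p W S C n V
  have hT : Thin p S.Uᶜ := snc_thin_off (sncb p W S).1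
  have sc : ∀ (e : Chart p W.X) y, At e y → y ∈ S.U → ∃ σ, Sc C e σ (e y) := fun e y he hy => by
    obtain ⟨x, rfl⟩ := C.surj y hy
    exact (ho.ex e x he).imp fun _ h => h.1
  obtain ⟨h, hh, hd⟩ := pot p W S (omM V) hk ho.rho fun y => (poin p W.X S C n V y).imp fun B hB => by
    filter_upwards [(ev_e (at_chart y)).1 hB, at_near (at_chart (n := p) y)] with x a1 a2 a3 v
    obtain ⟨σ, hσ⟩ := sc _ x a2 a3
    rw [(ho.eq _ a2.1 σ _ hσ).2]
    exact a1 σ hσ v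
  obtain ⟨Λ, φ, m, hΛ⟩ := lam p W S C n V hf
  obtain ⟨R, ρ, N, β, x₀, I, hρ, hN, x1, x2, x3, x4, -, x6⟩ :=
    tube p W S C n V l L Λ φ m h (r + 1) hΛ hl hmin hr hy hd
  obtain ⟨c₀, hA⟩ := atb p R ρ hρ
  obtain ⟨c, a, hc', ha, hP⟩ := x6 c₀
  obtain ⟨P₀, P1, P2⟩ := hP 0 (by simp)
  obtain ⟨P₁, P3, P4⟩ := hP a (by simp)
  have xU := hN.sub x1
  obtain ⟨i₀, hi₀⟩ := hΛ.lb.cover x₀ xU
  choose τ hτ using L.lb.cover
  have m0 : x₀ ∈ (bun Λ l S.U c 0).U (i₀, τ x₀) := ⟨hi₀, hτ x₀, xU⟩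
  have he₀ := at_chart (n := p) x₀
  set e₀ := chartAt (Cm p) x₀
  set X : Cm p → Cm (r + 1) := fun z k => β (e₀.symm z) (I k)
  have aX : AnalyticAt ℂ X (e₀ x₀) := analyticAt_pi_iff.2 fun k => x4.1 k e₀ he₀
  have nX : dX X (e₀ x₀) ≠ 0 := dX_ne (by
    rw [fderiv_pi fun k => (x4.1 k e₀ he₀).differentiableAt]
    exact (P277Z.Slc.ind_iff_surj _).1 (x4.2 e₀ he₀))
  have n1 : P₁ (i₀, τ x₀) x₀ • dX X (e₀ x₀) ≠ 0 := smul_ne_zero (P4 _ m0) nX
  obtain ⟨ε, hε, hJ⟩ := jet_ind (a := fun z => P₀ (i₀, τ x₀) (e₀.symm z) • dX X z) (z := e₀ x₀)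
    (g := fun k z => β (e₀.symm z) (I k)) ((P1.hol _ x₀ x1 m0 e₀ he₀).differentiableAt.smul
      ((differentiableAt_const _).continuousAlternatingMapCompContinuousLinearMap
        aX.fderiv.differentiableAt)) (smul_ne_zero (by rw [e₀.left_inv he₀.2]; exact P2 _ m0) nX)
    (fun k => (x4.1 k e₀ he₀).differentiableAt) (x4.2 e₀ he₀)
  obtain ⟨Ψ, hΨ, hb⟩ := hA W S.U h hh r N β hN Unit (fun _ => x₀) (fun _ => e₀)
    (fun _ => ⟨x1, x2, he₀⟩) I (Option (Option (Fin (r + 1))))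
    (fun j => bun Λ l S.U c (j.elim a fun _ => 0)) (fun j => bw φ L c _)
    (fun j => j.elim P₁ fun _ => P₀) (fun j w => j.elim 1 fun j => j.elim 1 fun k => w (I k))
    (fun _ _ => (i₀, τ x₀)) (fun j => ⟨(llb p W S C n V l L Λ φ m hΛ hl c _).1,
      by cases j; exacts [P3, P1], by rcases j with _ | _ | j <;> simp <;> fun_prop, fun _ => m0⟩)
    (min ε (‖P₁ (i₀, τ x₀) x₀ • dX X (e₀ x₀)‖ / 2)) (lt_min hε (half_pos (norm_pos_iff.2 n1)))
  obtain ⟨b₁, s1, j1⟩ := hb none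
  obtain ⟨b₀, s0, j0⟩ := hb (some none)
  choose b s j using fun k => hb (some (some k))
  have mj : ∀ {a' b' : Cm p → P284.H608.K.Af p (r + 1)} {δ}, Jet a' b' (e₀ x₀) (min ε δ) →
      Jet a' b' (e₀ x₀) ε := fun h => ⟨h.1.trans (min_le_left _ _), h.2.trans (min_le_left _ _)⟩
  obtain ⟨n0, hJ⟩ := hJ (b₀ (i₀, τ x₀) e₀) (by simpa [Option.elim] using mj (j0 ()))
  have l0 := (llb p W S C n V l L Λ φ m hΛ hl c 0).1
  have v0 := s0.hol.nv he₀ m0 n0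
  set D := {y | y ∈ S.U ∧ RkAt V (r + 1) y} ∩ {y | y ∈ S.U ∧ Nv b₀ y}
  have oD : IsOpen D := (ho.opn _).inter (isOpen_iff_mem_nhds.2 fun y hy =>
    (hh.opn.eventually_mem hy.1).and (s0.hol.nv_near l0 hy.1 hy.2))
  have dD : Dense D := (ho.dense _ hy).inter_of_isOpen_left (s0.hol.dense l0
    (compl_compl S.U ▸ hT.preconn) (compl_compl S.U ▸ hT.dense) xU v0) (ho.opn _)
  have xD : x₀ ∈ D := ⟨⟨xU, x3⟩, xU, v0⟩
  obtain ⟨κ, hκ⟩ := ratio (a := a) s0.hol s1.hol hτ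
  choose u hu using fun k => ratio (a := 0) s0.hol (s k).hol hτ
  set q : l.ι → W.X → ℂ := fun t y => l.g t (τ y) y ^ a * κ y
  have rq : Rt b₀ b₁ q := hκ
  have ru : ∀ k, Rt (a := 0) b₀ (b k) fun _ => u k := fun k y i t e h1 h2 h3 => by
    simpa using hu k y i t e h1 h2 h3
  have Q := fun (e : Chart p W.X) y he σ hσ (hy : y ∈ D) =>
    quo (e := e) (y := y) (σ := σ) ho llb flx par hΛ hl hr hh hc' hΨ.sm s0 he hσ hy.1.2 hy.2.2
  have key : ∀ a' b' q', Sol p h (bw φ L c a') Ψ b' → Rt b₀ b' q' → (∀ t, ∀ y ∈ l.U t, Mer p (q' t) y) ∧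
      ∀ t, ∀ y ∈ D, y ∈ l.U t → Hol p (q' t) y := fun a' b' q' s' r' =>
    ⟨rat p W S C n V l L Λ φ m hΛ hl hmod c a' _ b₀ b' D q' s0.hol s'.hol s0.l2 s'.l2 oD dD
      fun y hy i t e he hi => ⟨hy.2.2 _ e he hi, by
        obtain ⟨σ, hσ⟩ := sc e y he hy.1.1
        obtain ⟨X, -, -, k⟩ := Q e y he σ hσ hy
        simpa [e.left_inv he.2] using (k a' b' q' s' r' i t hi).2.1.self_of_nhds⟩,
      fun t y hy ht e he => by
        obtain ⟨σ, hσ⟩ := sc e y he hy.1.1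
        obtain ⟨X, -, -, k⟩ := Q e y he σ hσ hy
        obtain ⟨i, hi⟩ := hΛ.lb.cover y hy.1.1
        exact (k a' b' q' s' r' i t ⟨hi, ht, hy.1.1⟩).1⟩
  have hu' : ∀ k, ∀ y ∈ D, Hol p (u k) y := fun k y hy => (key 0 _ _ (s k) (ru k)).2 _ y hy (hτ y)
  obtain ⟨σ₀, hσ₀⟩ := sc e₀ x₀ he₀ xU
  obtain ⟨X₀, -, -, k₀⟩ := Q e₀ x₀ he₀ σ₀ hσ₀ xD
  have iu : Ind p u x₀ := .of_chart (fun k => hu' k x₀ xD) he₀ (hJ (fun k => b k (i₀, τ x₀) e₀) _
    (s0.hol.an _ e₀ x₀ he₀ m0).differentiableAt fun k => ⟨by simpa [mul_smul, Option.elim] using mj (j k ()),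
      (hu' k x₀ xD e₀ he₀).differentiableAt, (k₀ 0 _ _ (s k) (ru k) _ _ m0).2.1⟩)
  have nq : q (τ x₀) x₀ ≠ 0 := fun k => by
    have e1 := (k₀ a _ _ s1 rq _ _ m0).2.1.self_of_nhds
    have e2 := (j1 ()).1.trans (min_le_right _ _)
    rw [e₀.left_inv he₀.2, k] at e1
    simp only [e1.trans (show _ = 0 by ext; simp), Option.elim, e₀.left_inv he₀.2, one_mul,
      zero_sub, norm_neg] at e2
    linarith [norm_pos_iff.2 n1]
  obtain ⟨B₁, q', t1, t2, t3⟩ := polar p W l a q D hc L.lb oD dD (key a _ _ s1 rq).1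
    (fun i j y _ hi hj => by rw [← mul_assoc, ← mul_pow, L.lb.cocycle i j _ y hi hj (hτ y)])
    ⟨_, x₀, hτ x₀, (key a _ _ s1 rq).2 _ _ xD (hτ x₀), P277Z.nz_of_ne nq⟩
  choose B u' u1 u2 u3 using fun k => polar p W (triv W.X) 0 (fun _ => u k) D hc P277Z.Slc.isLB_triv
    oD dD (fun _ y _ => (key 0 _ _ (s k) (ru k)).1 _ y (hτ y)) (fun _ _ _ _ _ _ => by simp)
    ⟨(), x₀, trivial, hu' k x₀ xD, fun e => (iu.2 e₀ he₀).ne_zero k (by
      rw [P277Z.Slc.dd_congr e he₀]; exact fderiv_const_apply _)⟩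
  have tB : Thin p ((S.Uᶜ ∪ B₁) ∪ ⋃ k, B k) := (hT.union t1).union (.iUnion u1)
  have eu : ∀ y ∈ D, ∀ k, ∀ᶠ x in 𝓝 y, u k x = u' k () x := fun y hy k =>
    ((u2 k () y trivial).2.1 (hu' k y hy)).mono fun _ h => h.symm
  refine ⟨fun k => u' k (), a, q', _, ha, tB, fun y hy => not_not.1 fun k => hy (.inl (.inl k)),
    fun k y => (u2 k () y trivial).1, fun k y hy => ((u2 k () y trivial).2.2.1
      fun h => hy (.inr (mem_iUnion.2 ⟨k, h⟩))).1,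
    ((tB.freq x₀).and_eventually (ind_congr iu (eu x₀ xD)).near).exists,
    fun i y hi => (t2 i y hi).1, fun i y hi hy => (t2 i y hi).2.2.1 fun h => hy (.inl (.inr h)),
    fun i j y hi hj hy => t3 i j y (fun h => hy (.inl (.inr h))) hi hj, ?_, hy⟩
  intro t e he σ z hσ hz ht hi v hv
  obtain ⟨y, hy', rfl⟩ : ∃ y, y ∈ e.source ∧ e y = z :=
    ⟨_, e.map_target hσ.self_of_nhds.2.1, e.right_inv hσ.self_of_nhds.2.1⟩
  have he' : At e y := ⟨he, hy'⟩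
  have aψ := fun k => (ld_psi llb hΛ hl he hσ ht k).1
  rw [e.left_inv hy'] at hz ht hi
  have aq := ((t2 t y ht).2.2.1 fun h => hz (.inl (.inr h))).1 e he'
  have aF : AnalyticAt ℂ (fun x => q' t (e.symm x) • tp a (L.ψ t (σ x))) (e y) :=
    aq.smul (analyticAt_pi_iff.2 fun I => Finset.analyticAt_fun_prod _ fun j _ => aψ _)
  have aJ := (V.lv _ σ _ (ho.lift e he σ _ hσ).1).an_J.fderiv.continuousAt
  have fd : ∀ x, At e x → Ind p (fun k => u' k ()) x → fderiv ℂ (fun z k => u' k () (e.symm z)) (e x) =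
      .pi fun k => fderiv ℂ (fun z => u' k () (e.symm z)) (e x) := fun x a1 a2 =>
    fderiv_pi fun k => (a2.1 k e a1).differentiableAt
  refine Prod.mk_eq_zero.1 (dens (T := fderiv ℂ fun z k => u' k () (e.symm z))
    (A := fun s => (thS V σ s.1 s.2, fderiv ℂ (fun x => q' t (e.symm x) • tp a (L.ψ t (σ x))) s.1 s.2))
    (analyticAt_pi_iff.2 fun k => hi.1 k e he').fderiv.continuousAt
    (fd y he' hi ▸ (P277Z.Slc.ind_iff_surj _).1 (hi.2 e he')) (ContinuousAt.prodMk ?_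
      ((aF.fderiv.continuousAt.comp_of_eq continuousAt_fst rfl).clm_apply continuousAt_snd))
    ((ev_e he').not.2 ?_) (by rw [fd y he' hi]; exact funext hv))
  · have := aJ.comp_of_eq (continuousAt_fst (p := (e y, v))) rfl
    exact ((this.clm_apply continuousAt_snd).sub
      ((this.clm_apply (continuousAt_snd.const_smul Complex.I)).const_smul Complex.I)).const_smul
        (2⁻¹ : ℂ)
  refine ((mem_closure_iff_frequently.1 (dD y)).and_eventually ((at_near he').and (hi.near.and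
    (((ev_e he').1 (ho.lift e he σ _ hσ).2).and ((L.lb.isOpen t).eventually_mem ht))))).mono ?_
  rintro x ⟨a0, a1, a2, a3, a4⟩ w hw
  obtain ⟨X, k1, k2, k3⟩ := Q e x a1 σ a3 a0
  obtain ⟨i, hi⟩ := hΛ.lb.cover x a0.1.1
  have mi : x ∈ (bun Λ l S.U c 0).U (i, t) := ⟨hi, a4, a0.1.1⟩
  have w0 : fderiv ℂ X (e x) w = 0 := ker_le k1
    (fd x a1 a2 ▸ (P277Z.Slc.ind_iff_surj _).1 (a2.2 e a1)) (fun w hw => by
      rw [fd x a1 a2]
      funext k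
      have := ((k3 0 _ _ (s k) (ru k) i t mi).2.2 w hw).2
      rw [Nat.cast_zero, zero_mul, mul_zero] at this
      exact (congrArg (fun T : Cm p →L[ℂ] ℂ => T w) (P277Z.Slc.dd_congr (eu x a0 k) a1)).symm.trans
        this) hw
  refine Prod.mk_eq_zero.2 ⟨k2 w w0, ?_⟩
  have eq : (fun z => q' t (e.symm z) • tp a (L.ψ t (σ z))) =ᶠ[𝓝 (e x)]
      fun z I => q t (e.symm z) * ∏ j, L.ψ t (σ z) (I j) :=
    ((P277Z.At.tendsto_symm a1).eventually ((t2 t x a4).2.1 ((key a _ _ s1 rq).2 t x a0 a4))).mono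
      fun z hz => by simp only [hz]; rfl
  have ld := fun I : Fin a → n => ((k3 a _ _ s1 rq i t mi).2.2 w w0).mul (LD.prod Finset.univ fun j =>
    (ld_psi llb hΛ hl he a3 (by rwa [e.left_inv a1.2]) (I j)).2 w (k2 w w0))
  rw [eq.fderiv_eq, fderiv_pi fun I => (ld I).1]
  funext I
  simpa using (ld I).2

end Vale.Agent.P281Z.Lf
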