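import Vale.Agent.P281Z.Lf.Sk
import Vale.Agent.P281Z.Hm.Id

/-!
# P281Z, leaves: calculus
-/

open scoped Topology ComplexConjugate
open Set Filter Matrix
open Vale.Agent.P272.K
open Vale.Agent.P284Z (levi)

noncomputable section

namespace Vale.Agent.P281Z.Lf

theorem qd_hess {n : ℕ} {u : Cm n → ℝ} {z : Cm n} (hu : ContDiffAt ℝ 2 u z) (v : Cm n) :
    qd (cHess u z) v = levi u z v / 4 := by
  have := congrArg Complex.re (P284Z.cHess_quad hu (star v))
  rw [star_star, Complex.ofReal_re] at this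
  rw [← this, qd]
  simp only [dotProduct, mulVec, Finset.mul_sum, Pi.star_apply, RCLike.star_def]
  exact congrArg _ (Finset.sum_congr rfl fun j _ => Finset.sum_congr rfl fun k _ => by ring)

theorem dv_eq {n : ℕ} (φ : Cm n → ℝ) (z v : Cm n) : dv φ z v = Hm.wd v (fun y => (φ y : ℂ)) z := by
  conv_rhs => rw [pi_eq_sum_univ' v, Hm.wd_sumv]
  refine Finset.sum_congr rfl fun a _ => ?_
  rw [mul_comm, smul_eq_mul, dz, Hm.wd, ← Pi.single_smul', smul_eq_mul, smul_eq_mul, smul_eq_mul,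
    mul_one, div_eq_inv_mul]

theorem dv_add {n : ℕ} {φ ψ : Cm n → ℝ} {z : Cm n} (h : DifferentiableAt ℝ φ z)
    (h' : DifferentiableAt ℝ ψ z) (v : Cm n) :
    dv (fun y => φ y + ψ y) z v = dv φ z v + dv ψ z v := by
  simp only [dv_eq, Complex.ofReal_add]
  exact Hm.wd_add (Complex.ofRealCLM.differentiableAt.comp z h)
    (Complex.ofRealCLM.differentiableAt.comp z h') v

theorem dv_mul {n : ℕ} {φ : Cm n → ℝ} {z : Cm n} (h : DifferentiableAt ℝ φ z) (c : ℝ) (v : Cm n) :
    dv (fun y => c * φ y) z v = c * dv φ z v := by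
  simp only [dv_eq, Complex.ofReal_mul]
  exact Hm.wd_const_smul (c : ℂ) (Complex.ofRealCLM.differentiableAt.comp z h) v

section
variable {E F G : Type} [NormedAddCommGroup E] [NormedSpace ℂ E] [NormedAddCommGroup F]
  [NormedSpace ℂ F] [NormedAddCommGroup G] [NormedSpace ℂ G]

/-- an inclusion of kernels passes to the limit -/
theorem dens [FiniteDimensional ℂ E] [FiniteDimensional ℂ F] {T : E → E →L[ℂ] F} {z : E}
    {H : Type} [TopologicalSpace H] [T1Space H] [Zero H] {A : E × E → H} (hT : ContinuousAt T z)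
    (hs : Function.Surjective (T z)) {v : E} (hA : ContinuousAt A (z, v))
    (h : ∃ᶠ y in 𝓝 z, ∀ w, T y w = 0 → A (y, w) = 0) (hv : T z v = 0) : A (z, v) = 0 := by
  have := FiniteDimensional.complete ℂ F
  obtain ⟨R, hR⟩ := (T z : E →ₗ[ℂ] F).exists_rightInverse_of_surjective
    (LinearMap.range_eq_top.2 hs)
  let R' := LinearMap.toContinuousLinearMap R
  have e : (T z).comp R' = 1 := ContinuousLinearMap.ext fun x => LinearMap.congr_fun hR x
  have c1 : ContinuousAt (fun y => (T y).comp R') z := hT.clm_comp continuousAt_const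
  have c2 : ContinuousAt (fun y => Ring.inverse ((T y).comp R')) z :=
    ContinuousAt.comp (g := Ring.inverse) (e ▸ NormedRing.inverse_continuousAt 1) c1
  have c3 : ContinuousAt (fun y => v - R' (Ring.inverse ((T y).comp R') (T y v))) z :=
    continuousAt_const.sub (R'.continuous.continuousAt.comp
      (c2.clm_apply (hT.clm_apply continuousAt_const)))
  have c4 : ContinuousAt (fun y => A (y, v - R' (Ring.inverse ((T y).comp R') (T y v)))) z :=
    ContinuousAt.comp (g := A) (by simpa [hv] using hA) (continuousAt_id.prodMk c3)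
  have u : ∀ᶠ y in 𝓝 z, IsUnit ((T y).comp R') :=
    c1.eventually (Units.isOpen.mem_nhds (show IsUnit ((T z).comp R') from e ▸ isUnit_one))
  have := c4.tendsto.frequently (p := fun t => t = 0) ((h.and_eventually u).mono fun y hy =>
    hy.1 _ (by
      have := ContinuousLinearMap.ext_iff.1 (Ring.mul_inverse_cancel _ hy.2) (T y v)
      rw [map_sub]
      exact sub_eq_zero.2 this.symm))
  simpa [hv] using isClosed_singleton.mem_of_frequently_of_tendsto this tendsto_id

/-- the differential of a ratio -/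
def rat (lm : F →L[ℂ] ℂ) (s : (F × (E →L[ℂ] F)) × F × (E →L[ℂ] F)) : E →L[ℂ] ℂ :=
  (lm s.1.1)⁻¹ • (lm.comp s.2.2 - (lm s.2.1 / lm s.1.1) • lm.comp s.1.2)

theorem rat_eq (lm : F →L[ℂ] ℂ) {a b : E → F} {u : E → ℂ} {z : E} (ha : DifferentiableAt ℂ a z)
    (hu : DifferentiableAt ℂ u z) (h : ∀ᶠ y in 𝓝 z, b y = u y • a y) (h0 : lm (a z) ≠ 0) :
    rat lm ((a z, fderiv ℂ a z), b z, fderiv ℂ b z) = fderiv ℂ u z := by
  ext v
  simp only [rat, h.self_of_nhds, EventuallyEq.fderiv_eq h, fderiv_fun_smul hu ha]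
  simp
  field_simp
  ring

/-- independence of the ratios survives a small perturbation of the jets -/
theorem jet_ind {n : ℕ} {κ : Type} [Finite κ] {a : Cm n → F} {z : Cm n}
    {g : κ → Cm n → ℂ} (ha : DifferentiableAt ℂ a z) (h0 : a z ≠ 0)
    (hg : ∀ j, DifferentiableAt ℂ (g j) z) (hi : LinearIndependent ℂ fun j => fderiv ℂ (g j) z) :
    ∃ ε : ℝ, 0 < ε ∧ ∀ b₀ : Cm n → F, Jet a b₀ z ε → b₀ z ≠ 0 ∧ ∀ (b : κ → Cm n → F)
      (u : κ → Cm n → ℂ), DifferentiableAt ℂ b₀ z → (∀ j, Jet (fun y => g j y • a y) (b j) z ε ∧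
        DifferentiableAt ℂ (u j) z ∧ ∀ᶠ y in 𝓝 z, b j y = u j y • b₀ y) →
      LinearIndependent ℂ fun j => fderiv ℂ (u j) z := by
  cases nonempty_fintype κ
  obtain ⟨lm, hl⟩ := SeparatingDual.exists_ne_zero (R := ℂ) h0
  let s₀ : (F × (Cm n →L[ℂ] F)) × (κ → F × (Cm n →L[ℂ] F)) :=
    ((a z, fderiv ℂ a z), fun j => (g j z • a z, fderiv ℂ (fun y => g j y • a y) z))
  have c0 : ContinuousAt (fun s : (F × (Cm n →L[ℂ] F)) × (κ → F × (Cm n →L[ℂ] F)) => lm s.1.1) s₀ := by
    fun_prop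
  have c1 : ContinuousAt (fun s : (F × (Cm n →L[ℂ] F)) × (κ → F × (Cm n →L[ℂ] F)) =>
      fun j => rat lm (s.1, s.2 j)) s₀ := continuousAt_pi.2 fun j =>
    (c0.inv₀ hl).smul ((continuousAt_const.clm_comp (by fun_prop)).sub
      ((ContinuousAt.div (by fun_prop) c0 hl).smul (continuousAt_const.clm_comp (by fun_prop))))
  have e0 : (fun j => rat lm (s₀.1, s₀.2 j)) = fun j => fderiv ℂ (g j) z :=
    funext fun j => rat_eq lm ha (hg j) (.of_forall fun _ => rfl) hl
  obtain ⟨δ, hδ, h⟩ := Metric.eventually_nhds_iff.1 ((c0.eventually_ne hl).and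
    (c1.eventually (isOpen_setOfPred_linearIndependent.mem_nhds
      (show LinearIndependent ℂ fun j => rat lm (s₀.1, s₀.2 j) from e0 ▸ hi))))
  have key : ∀ {a' b' : Cm n → F}, Jet a' b' z (δ / 2) →
      dist (b' z, fderiv ℂ b' z) (a' z, fderiv ℂ a' z) < δ := fun h => by
    rw [Prod.dist_eq, dist_eq_norm, dist_eq_norm]
    exact max_lt (by linarith [h.1]) (by linarith [h.2])
  refine ⟨δ / 2, half_pos hδ, fun b₀ j0 => ?_⟩
  have k0 := (h (y := ((b₀ z, fderiv ℂ b₀ z), s₀.2)) (by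
    rw [Prod.dist_eq, dist_self]; exact max_lt (key j0) hδ)).1
  refine ⟨fun e => k0 (by simp [e]), fun b u d0 hb => ?_⟩
  have := (h (y := ((b₀ z, fderiv ℂ b₀ z), fun j => (b j z, fderiv ℂ (b j) z))) (by
    rw [Prod.dist_eq]; exact max_lt (key j0) ((dist_pi_lt_iff hδ).2 fun j => key (hb j).1))).2
  exact funext (fun j => rat_eq lm d0 (hb j).2.1 (hb j).2.2 k0) ▸ this

/-- logarithmic derivative `c` along `v` -/
def LD (f : E → ℂ) (z v : E) (c : ℂ) : Prop := DifferentiableAt ℂ f z ∧ fderiv ℂ f z v = f z * c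

theorem LD.mul {f g : E → ℂ} {z v : E} {c d : ℂ} (h : LD f z v c) (k : LD g z v d) :
    LD (fun y => f y * g y) z v (c + d) :=
  ⟨h.1.mul k.1, by rw [fderiv_fun_mul h.1 k.1]; simp [h.2, k.2]; ring⟩

theorem LD.div {f g : E → ℂ} {z v : E} {c d : ℂ} (h : LD f z v c) (k : LD g z v d) (h0 : g z ≠ 0) :
    LD (fun y => f y / g y) z v (c - d) := by
  have e := (hasDerivAt_inv h0).comp_hasFDerivAt z k.1.hasFDerivAt
  simp only [div_eq_mul_inv, sub_eq_add_neg]
  refine h.mul (g := fun y => (g y)⁻¹) ⟨e.differentiableAt, ?_⟩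
  rw [show fderiv ℂ (fun y => (g y)⁻¹) z = _ from e.fderiv, _root_.smul_apply, k.2,
    smul_eq_mul]
  field_simp

theorem LD.prod {κ : Type} (s : Finset κ) {f : κ → E → ℂ} {z v : E} {c : ℂ}
    (h : ∀ j, LD (f j) z v c) : LD (fun y => ∏ j ∈ s, f j y) z v (s.card * c) := by
  classical
  induction s using Finset.induction_on with
  | empty => exact ⟨by simp, by simp⟩
  | insert a s ha ih =>
    simp only [Finset.prod_insert ha, Finset.card_insert_of_notMem ha]
    rw [Nat.cast_succ, add_mul, one_mul, add_comm]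
    exact (h a).mul ih

end

end Vale.Agent.P281Z.Lf
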