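import Vale.Agent.P281Z.Lf.Omm
import Vale.Agent.P281Z.Lf.LeafA
import Vale.Agent.P281Z.Hm.Line

/-!
# P281Z, the bundles `c Λ + a l` (LLB)
-/

set_option linter.unusedSectionVars false

open scoped Manifold ContDiff Topology ComplexConjugate ComplexOrder Matrix.Norms.Operator
open Set Filter Matrix
open Vale.Agent.P272.K Vale.Agent.P285.H281.FD
open Vale.Agent.P284Z (levi)
open Vale.Agent.P281Z.Hm

noncomputable section

namespace Vale.Agent.P281Z.Lf

namespace LlbH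

theorem levi_cmul {p : ℕ} (c : ℝ) (a : Cm p → ℝ) (z v : Cm p) :
    levi (fun x => c * a x) z v = c * levi a z v := by
  have e : fderiv ℝ (fun x => c * a x) = c • fderiv ℝ a := fderiv_const_smul_field c
  have e' : fderiv ℝ (c • fderiv ℝ a) = c • fderiv ℝ (fderiv ℝ a) :=
    fderiv_const_smul_field (𝕜 := ℝ) (f := fderiv ℝ a) c
  rw [levi, levi, e, e']
  simp only [Pi.smul_apply, _root_.smul_apply, smul_eq_mul]
  ring

variable {p : ℕ} {Y : Type} [TopologicalSpace Y] [ChartedSpace (Cm p) Y] {U : Set Y}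
  {L M : Bd Y} {φ : L.ι → Y → ℝ} {ψ : M.ι → Y → ℝ}

theorem lb_opn (h : LBOn p U L φ) : IsOpen U := isOpen_iff_mem_nhds.2 fun x hx =>
  (h.cover x hx).elim fun i hi => mem_of_superset ((h.isOpen i).mem_nhds hi) (h.sub i)

theorem lb_sm (h : LBOn p U L φ) {i : L.ι} {e : Chart p Y} (he : e ∈ atlas (Cm p) Y) {z : Cm p}
    (hz : z ∈ e.target) (hi : e.symm z ∈ L.U i) : ContDiffAt ℝ ∞ (fun x => φ i (e.symm x)) z := by
  have := h.sm i e _ ⟨he, e.map_target hz⟩ hi
  rwa [e.right_inv hz] at this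

theorem lb_pow (h : LBOn p U L φ) (c : ℕ) : LBOn p U (L.pow c) fun i y => c * φ i y where
  isOpen := h.isOpen
  sub := h.sub
  cover := h.cover
  hol i j x hi hj e he := (h.hol i j x hi hj e he).pow c
  ne i j x hi hj := pow_ne_zero c (h.ne i j x hi hj)
  coc i j k x hi hj hk := (mul_pow _ _ c).symm.trans (congrArg (· ^ c) (h.coc i j k x hi hj hk))
  sm i e x he hi := contDiffAt_const.mul (h.sm i e x he hi)
  chg i j x hi hj := by
    change c * φ i x = c * φ j x + Real.log (‖L.g i j x ^ c‖ ^ 2)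
    rw [h.chg i j x hi hj, norm_pow, ← pow_mul, mul_comm c 2, pow_mul, Real.log_pow _ c, mul_add]

theorem lb_mul (h : LBOn p U L φ) (k : LBOn p U M ψ) :
    LBOn p U (L.mul M) fun i y => φ i.1 y + ψ i.2 y where
  isOpen i := (h.isOpen i.1).inter (k.isOpen i.2)
  sub i := inter_subset_left.trans (h.sub i.1)
  cover x hx := (h.cover x hx).elim fun i hi => (k.cover x hx).elim fun j hj => ⟨(i, j), hi, hj⟩
  hol i j x hi hj e he := (h.hol _ _ x hi.1 hj.1 e he).mul (k.hol _ _ x hi.2 hj.2 e he)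
  ne i j x hi hj := mul_ne_zero (h.ne _ _ x hi.1 hj.1) (k.ne _ _ x hi.2 hj.2)
  coc i j l x hi hj hl := (mul_mul_mul_comm _ _ _ _).trans
    (congrArg₂ (· * ·) (h.coc _ _ _ x hi.1 hj.1 hl.1) (k.coc _ _ _ x hi.2 hj.2 hl.2))
  sm i e x he hi := (h.sm _ e x he hi.1).add (k.sm _ e x he hi.2)
  chg i j x hi hj := by
    change φ i.1 x + ψ i.2 x = φ j.1 x + ψ j.2 x + Real.log (‖L.g i.1 j.1 x * M.g i.2 j.2 x‖ ^ 2)
    rw [h.chg _ _ x hi.1 hj.1, k.chg _ _ x hi.2 hj.2, norm_mul, mul_pow, Real.log_mul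
      (pow_ne_zero 2 (norm_ne_zero_iff.2 (h.ne _ _ x hi.1 hj.1)))
      (pow_ne_zero 2 (norm_ne_zero_iff.2 (k.ne _ _ x hi.2 hj.2)))]
    ring

variable {C : Cv Y U} {n : Type} [Fintype n] [DecidableEq n] {V : GV p C n}
  {m : Mx n → L.ι → C.X → ℂ} {m' : Mx n → M.ι → C.X → ℂ}

theorem du_pow (h : Dual V L φ m) (hL : LBOn p U L φ) (c : ℕ) :
    Dual V (L.pow c) (fun i y => c * φ i y) fun A i x => m A i x ^ c where
  an A i e he σ z hσ hi := (h.an A i e he σ z hσ hi).pow c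
  chg A i j x hi hj := (congrArg (· ^ c) (h.chg A i j x hi hj)).trans (mul_pow _ _ c)
  eqv A i g x hi := congrArg (· ^ c) (h.eqv A i g x hi)
  poly := h.poly.elim fun d hd => ⟨c * d, fun i x hi => (hd i x hi).elim fun P hP =>
    ⟨P ^ c, pow_ne_zero c hP.1, (MvPolynomial.totalDegree_pow P c).trans
      (Nat.mul_le_mul_left c hP.2.1), fun A => by rw [map_pow, ← hP.2.2]⟩⟩
  bd A := by
    obtain ⟨B, d, k⟩ := h.bd A
    refine ⟨B ^ c, d * c, fun i x b hi hb hs => ?_⟩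
    have := pow_le_pow_left₀ (sq_nonneg _) (k i x b hi hb hs) c
    rwa [← pow_mul, mul_comm 2 c, pow_mul, ← norm_pow, mul_pow, mul_pow, ← pow_mul,
      ← Real.exp_nat_mul, mul_neg] at this
  flat A i e he σ z hσ hi v hv := by
    have d := (h.an A i e he σ z hσ hi).differentiableAt
    rw [dv_mul ((lb_sm hL he hσ.tgt hi).differentiableAt (by simp)), fderiv_fun_pow c d,
      _root_.smul_apply, h.flat A i e he σ z hσ hi v hv]
    cases c with
    | zero => simp
    | succ c =>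
      simp only [Nat.add_one_sub_one, nsmul_eq_mul, smul_eq_mul, Complex.ofReal_natCast]
      ring

theorem du_mul (h : Dual V L φ m) (k : Dual V M ψ m') (hL : LBOn p U L φ) (hM : LBOn p U M ψ) :
    Dual V (L.mul M) (fun i y => φ i.1 y + ψ i.2 y) fun A i x => m A i.1 x * m' A i.2 x where
  an A i e he σ z hσ hi := (h.an A _ e he σ z hσ hi.1).mul (k.an A _ e he σ z hσ hi.2)
  chg A i j x hi hj := (congrArg₂ (· * ·) (h.chg A _ _ x hi.1 hj.1) (k.chg A _ _ x hi.2 hj.2)).trans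
    (mul_mul_mul_comm _ _ _ _)
  eqv A i g x hi := congrArg₂ (· * ·) (h.eqv A _ g x hi.1) (k.eqv A _ g x hi.2)
  poly := by
    obtain ⟨d, hd⟩ := h.poly
    obtain ⟨d', hd'⟩ := k.poly
    refine ⟨d + d', fun i x hi => ?_⟩
    obtain ⟨P, a1, a2, a3⟩ := hd _ x hi.1
    obtain ⟨P', b1, b2, b3⟩ := hd' _ x hi.2
    exact ⟨P * P', mul_ne_zero a1 b1, (MvPolynomial.totalDegree_mul P P').trans (add_le_add a2 b2),
      fun A => by rw [map_mul, ← a3, ← b3]⟩
  bd A := by
    obtain ⟨B, d, k1⟩ := h.bd A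
    obtain ⟨B', d', k2⟩ := k.bd A
    refine ⟨B * B', d + d', fun i x b hi hb hs => ?_⟩
    have a := k1 _ x b hi.1 hb hs
    rw [norm_mul, mul_pow, neg_add, Real.exp_add, pow_add]
    exact (mul_le_mul a (k2 _ x b hi.2 hb hs) (sq_nonneg _) ((sq_nonneg _).trans a)).trans_eq
      (by ring)
  flat A i e he σ z hσ hi v hv := by
    rw [dv_add ((lb_sm hL he hσ.tgt hi.1).differentiableAt (by simp))
      ((lb_sm hM he hσ.tgt hi.2).differentiableAt (by simp)),
      fderiv_fun_mul (h.an A _ e he σ z hσ hi.1).differentiableAt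
        (k.an A _ e he σ z hσ hi.2).differentiableAt]
    simp only [_root_.add_apply, _root_.smul_apply, smul_eq_mul,
      h.flat A _ e he σ z hσ hi.1 v hv, k.flat A _ e he σ z hσ hi.2 v hv]
    ring

variable [IsManifold 𝓘(ℂ, Cm p) ω Y] {l : Bd Y} (N : Ln V l) {e : Chart p Y} {σ : Cm p → C.X}
  {z : Cm p} {i : l.ι}

theorem sc_ln (h : Sc C e σ z) (he : e ∈ atlas (Cm p) Y) (hi : e.symm z ∈ l.U i) :
    LnAt V.w (fun x => V.gr (σ x)) (fun x => N.ψ i (σ x)) z :=
  N.ln i _ σ z (h.lift he) (h.pi ▸ hi)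

theorem lw_ev (h : Sc C e σ z) (hi : e.symm z ∈ l.U i) : (fun x => lw N i (e.symm x)) =ᶠ[𝓝 z]
    fun x => -Real.log (hn (gH V.Q V.w (V.gr (σ x))) (N.ψ i (σ x))) := by
  filter_upwards [h, (e.continuousAt_symm h.tgt).eventually_mem ((N.lb.isOpen i).mem_nhds hi)]
    with x a b
  change -Real.log _ = _
  rw [← a.2.2, N.hY_eq (a.2.2 ▸ b), Ln.h]

theorem lb_lw (hU : IsOpen U) : LBOn p U (res l U) (lw N) where
  isOpen i := (N.lb.isOpen i).inter hU
  sub _ := inter_subset_right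
  cover x hx := (N.lb.cover x).imp fun _ hi => ⟨hi, hx⟩
  hol i j x hi hj e he := (N.lb.holo i j e x he hi.1 hj.1).analyticAt
  ne i j x hi hj := N.lb.ne_zero i j x hi.1 hj.1
  coc i j k x hi hj hk := N.lb.cocycle i j k x hi.1 hj.1 hk.1
  sm i e x he hi := by
    obtain ⟨σ, h⟩ := exists_sc' (C := C) hi.2 he.2
    have k : e.symm (e x) ∈ l.U i := (e.left_inv he.2).symm ▸ hi.1
    obtain ⟨a, b, -⟩ := stLine _ _ _ _ _ _ _ (h.lv V he.1) (sc_ln N h he.1 k)
    exact (a.contDiffAt.log b.ne').neg.congr_of_eventuallyEq (lw_ev N h k)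
  chg i j x hi hj := by
    obtain ⟨y, rfl⟩ := C.surj x hi.2
    change -Real.log _ = -Real.log _ + Real.log (‖l.g i j _‖ ^ 2)
    rw [N.hY_ch hi.1 hj.1, Real.log_mul (pow_ne_zero 2 (norm_ne_zero_iff.2
      (N.lb.ne_zero i j _ hi.1 hj.1))) (by rw [N.hY_eq hi.1]; exact (N.h_pos hi.1).ne')]
    ring

theorem dual_lm (hl : ∀ g, N.lam g = 1) (k : n) : Dual V (res l U) (lw N) (lm N k) where
  an A i e he σ z hσ hi := an_crd (an_mulVec analyticAt_const (sc_ln N hσ he hi.1).an) k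
  chg A i j x hi hj := by
    rw [lm, lm, N.ch i j x hi.1 hj.1, mulVec_smul]
    rfl
  eqv A i g x hi := by rw [lm, lm, N.eqv i g x hi.1, hl, one_smul, mulVec_mulVec]
  poly := by
    refine ⟨1, fun i x hi => ?_⟩
    have e : ∀ A, lm N k A i x = MvPolynomial.eval (fun ab : n × n => A ab.1 ab.2)
        (∑ j, MvPolynomial.X (k, j) * MvPolynomial.C (N.ψ i x j)) := fun A => by
      simp [lm, mulVec, dotProduct]
    refine ⟨_, fun h0 => (N.ln i ℂ _ 0 (Cv.lift_const x 0) hi.1).ne (funext fun j => ?_),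
      MvPolynomial.totalDegree_finsetSum_le fun j _ => (MvPolynomial.totalDegree_mul _ _).trans ?_,
      e⟩
    · have := e (single k j 1)
      rw [h0, map_zero] at this
      simpa [lm, single_mulVec] using this
    · rw [MvPolynomial.totalDegree_X, MvPolynomial.totalDegree_C]
  bd A := by
    refine ⟨‖A‖ ^ 2, 1, fun i x b hi _ hs => ?_⟩
    rw [lw, neg_neg, N.hY_eq hi.1, Real.exp_log (N.h_pos hi.1), pow_one, mul_assoc]
    refine le_trans ?_ (mul_le_mul_of_nonneg_left (hs (N.ψ i x)) (sq_nonneg _))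
    rw [← mul_pow]
    exact pow_le_pow_left₀ (norm_nonneg _) ((norm_le_pi_norm _ k).trans
      (linfty_opNorm_mulVec A _)) 2
  flat A i e he σ z hσ hi v hv := by
    have h := hσ.lv V he
    have hψ := sc_ln N hσ he hi.1
    obtain ⟨a, b, -⟩ := stLine _ _ _ _ _ _ _ h hψ
    obtain ⟨c, hc⟩ := LineH.der h hψ v
    have d := hψ.an.differentiableAt
    have d' := d.restrictScalars ℝ
    rw [show th _ _ z v = 0 from hv, zero_mulVec, add_zero] at hc
    have e1 : wd v (fun x => (hn (gH V.Q V.w (V.gr (σ x))) (N.ψ i (σ x)) : ℂ)) z =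
        c * hn (gH V.Q V.w (V.gr (σ z))) (N.ψ i (σ z)) := by
      simp only [fun x => hn_ofReal (V.hs (σ x)).pos.1]
      rw [wd_dot (df_star d') (df_mulVec h.an_H.differentiableAt d'), wd_star d', wb_hol d,
        wd_mulVec h.an_H.differentiableAt d', h.dH, show th _ _ z v = 0 from hv, wd_hol d, hc]
      simp [mulVec_smul]
    have e2 : dv (fun x => lw N i (e.symm x)) z v = -c := by
      rw [dv_eq, wd_congr ((lw_ev N hσ hi.1).mono fun x hx =>
        (congrArg Complex.ofReal hx).trans (Complex.ofReal_neg _)), wd_neg,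
        wd_log a.differentiableAt b.ne', e1, mul_comm c,
        inv_mul_cancel_left₀ (Complex.ofReal_ne_zero.2 b.ne')]
    have d2 := (an_mulVec (analyticAt_const (v := A)) hψ.an).differentiableAt
    simp only [lm]
    rw [e2, ← wd_hol (differentiableAt_pi.1 d2 k), ← wd_crd (d2.restrictScalars ℝ),
      wd_mulVec (differentiableAt_const A) d', wd_const, wd_hol d, hc]
    simp [mulVec_smul, mul_comm]

end LlbH

open LlbH in
/-- **LLB** -/
theorem llb : LLB := by
  intro p W S C n _ _ V l L Λ φ m h hl c a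
  have h1 := lb_lw L (lb_opn h.lb)
  have h2 := lb_pow h.lb c
  have h3 := lb_pow h1 a
  refine ⟨lb_mul h2 h3, fun k => du_mul (du_pow h.dual h.lb c) (du_pow (dual_lm L hl k) h1 a) h2 h3,
    fun i e he σ z hσ hi v => ?_⟩
  have k1 := (lb_sm h2 he hσ.tgt hi.1).of_le (m := 2) (by norm_cast)
  have k2 := (lb_sm h3 he hσ.tgt hi.2).of_le (m := 2) (by norm_cast)
  have k3 := hσ.lv V he
  obtain ⟨-, b, k4⟩ := stLine _ _ _ _ _ _ _ k3 (sc_ln L hσ he hi.2.1)
  refine le_trans ?_ (levi_add k1 k2 v).ge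
  rw [levi_cmul, levi_cmul, h.curv i.1 e he σ z hσ hi.1, levi_congr (lw_ev L hσ hi.2.1), (k4 v).1]
  have := div_nonneg (hn_nonneg k3.hs0.pos (thS V σ z v *ᵥ L.ψ i.2 (σ z))) b.le
  nlinarith [mul_nonneg (Nat.cast_nonneg (α := ℝ) a) this]

theorem llb_of : OMM → LLB := fun _ => llb

end Vale.Agent.P281Z.Lf
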