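import Vale.Agent.P281Z.Lf.LowD

/-!
# P281Z, row LOW: the lower bound for the number of sections
-/

open scoped Manifold ContDiff ComplexOrder Topology ENNReal
open MeasureTheory Filter Set

set_option linter.unusedSectionVars false

noncomputable section

namespace Vale.Agent.P281Z.Lf

open Vale.Agent.P272.K Vale.Agent.P301.H599 Vale.Agent.P285Z Vale.Agent.P285Z.G1
open Vale.Agent.P285.H281.FD (IsLB IsSec)
open Vale.Agent.P277Z.Van
open Vale.Agent.P277Z.Slc (lin)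
open Vale.Agent.P301.H98 (nrm)
open Vale.Agent.P301.H862 (powL)
open Vale.Agent.P277Z.Van.Ka (rat)

namespace Lw

variable {d : ℕ} {X : Type} [TopologicalSpace X] [ChartedSpace (Cm d) X] {κ ι η : Type}
  {M : LineBundle d X κ} {ρ : κ → X → ℝ} {L : LineBundle d X ι} {σ : ι → X → ℝ} {r : ι → X → ℂ}
  {s : κ → X → ℂ} {Ω : Set X}

theorem sec_pow (hs : SecOn M Ω s) (k : ℕ) : SecOn (powL M k) Ω fun i x => s i x ^ k :=
  ⟨fun i e x a b c => (hs.holo i e x a b c).fun_pow _, fun i j x a b c => by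
    rw [hs.change i j x a b c, mul_pow]
    rfl⟩

theorem nrm_pw (M : LineBundle d X κ) (ρ : κ → X → ℝ) (s : κ → X → ℂ) (k : ℕ) (x : X) :
    nrm (powL M k) (powM ρ k) (fun i x => s i x ^ k) x = nrm M ρ s x ^ k := by
  show ‖s (M.cover x).choose x ^ k‖ ^ 2 * Real.exp (-(k * ρ (M.cover x).choose x)) = _
  rw [nrm, mul_pow, ← Real.exp_nat_mul, norm_pow, ← pow_mul, ← pow_mul, mul_comm k 2, mul_neg]

variable [IsManifold 𝓘(ℂ, Cm d) ω X] [T2Space X] [CompactSpace X]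

theorem exh {A : LineBundle d X η} {τ : η → X → ℝ} (hτ : IsMetric A τ)
    (hA : PDOn univ (curvature A τ))
    (hb : ∀ y, ∃ s, SecOn A univ s ∧ ∀ i, y ∈ A.U i → s i y ≠ 0) (hσ : IsMetric L σ)
    (hr : SecOn L univ r) (hr0 : ∀ x, ∃ᶠ y in 𝓝 x, nrm L σ r y ≠ 0) :
    ∃ (ι' : Type) (L' : LineBundle d X ι') (σ' : ι' → X → ℝ) (t : ι' → X → ℂ), IsMetric L' σ' ∧
      PDOn univ (curvature L' σ') ∧ SecOn L' univ t ∧
      (∀ x, nrm L' σ' t x ≠ 0 → nrm L σ r x ≠ 0) ∧ ∀ x, ∃ᶠ y in 𝓝 x, nrm L' σ' t y ≠ 0 := by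
  obtain ⟨C, -, h2⟩ := exists_curv_on isOpen_univ (kahOn_curv hτ hA) hσ isCompact_univ subset_rfl
  have m1 := isMetric_pow hτ (⌈C⌉₊ + 1)
  obtain ⟨t, ht, ht0⟩ := gen d X univ univ isOpen_univ isCompact_univ subset_rfl η _ _ m1
    fun y _ => by
      obtain ⟨s, k1, k2⟩ := hb y
      obtain ⟨i, hi⟩ := A.cover y
      exact ⟨_, sec_pow k1 _, (RiemH.nrm_ne m1 (sec_pow k1 _) hi trivial).2
        (pow_ne_zero _ (k2 i hi))⟩
  have e1 := fun x => nrm_mulS_on hσ m1 hr.toSc ht.toSc (mem_univ x)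
  refine ⟨_, _, _, _, isMetric_mulB hσ m1, fun e x hx _ => ?_, hr.mulS ht,
    fun x hx => left_ne_zero_of_mul (e1 x ▸ hx), fun x => frequently_frequently_nhds.1
      ((ht0 x trivial).mono fun z hz => ((hr0 z).and_eventually
        (((ht.toSc.smOn m1 isOpen_univ).contAt trivial).eventually_ne hz)).mono
          fun _ k => (e1 _).trans_ne (mul_ne_zero k.1 k.2))⟩
  rw [curvature_mulB hσ m1 e x hx]
  beta_reduce
  rw [curvature_pow hτ _ e x hx]
  have := (hA e x hx trivial).add_posSemidef (h2 _ (Nat.le_ceil _) e x hx trivial)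
  push_cast at this ⊢
  rwa [add_smul, one_smul, ← add_assoc, add_comm, add_comm (curvature L σ e (e x))]

variable [MeasurableSpace X] [BorelSpace X] {h : Fm d X} {μ : Measure X}

theorem ext (hh : IsHermitian h) (hμ : IsVol h μ) (hσ : IsMetric L σ) (hr : SecOn L univ r)
    (hr0 : ∀ x, ∃ᶠ y in 𝓝 x, nrm L σ r y ≠ 0) (hΩ : IsOpen Ω) {K : Set X} (hK : IsCompact K)
    (hK' : ∀ x ∈ K, nrm L σ r x ≠ 0) (hρ : IsMetric M ρ)
    (hs : SecOn M {x | x ∈ univ ∧ nrm L σ r x ≠ 0} s) {f : X → ℝ}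
    (hf : ∫⁻ x in {x | x ∈ univ ∧ nrm L σ r x ≠ 0} \ K, ENNReal.ofReal (f x) ∂μ ≠ ⊤)
    (hb : ∀ x ∈ Ω, ∃ C : ℝ, 0 ≤ C ∧ ∀ᶠ y in 𝓝 x, nrm L σ r y ≠ 0 → nrm M ρ s y ≤ C * f y) :
    ∃ F, SecOn M Ω F ∧ ∀ i x, x ∈ M.U i → x ∈ Ω → nrm L σ r x ≠ 0 → F i x = s i x := by
  have := ChartedSpace.secondCountable_of_sigmaCompact (Cm d) X
  have := ChartedSpace.locallyCompactSpace (Cm d) X
  have := hΩ.locallyCompactSpace
  have hO : IsOpen {x | x ∈ univ ∧ nrm L σ r x ≠ 0} :=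
    (hr.toSc.smOn hσ isOpen_univ).cont.isOpen_inter_preimage isOpen_univ isOpen_ne
  have hO' : IsOpen {x | x ∈ Ω ∧ nrm L σ r x ≠ 0} :=
    ((hr.toSc.smOn hσ isOpen_univ).cont.mono (subset_univ _)).isOpen_inter_preimage hΩ isOpen_ne
  refine (P277Z.Van.riem d X h μ hh hμ Ω hΩ (isSigmaCompact_iff_sigmaCompactSpace.2 inferInstance)
    ι L σ r hσ (hr.res (subset_univ _)) fun x _ => hr0 x).2 κ M ρ hρ s (hs.res fun x k => ⟨trivial, k.2⟩)
    fun x hx => ?_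
  by_cases k : x ∈ K
  · obtain ⟨K', k1, k2, k3⟩ := local_compact_nhds (hO.mem_nhds ⟨trivial, hK' x k⟩)
    exact ⟨_, interior_mem_nhds.2 k1, lint_cpt hμ hh k3 (isOpen_interior.inter hO').measurableSet
      (fun _ a => interior_subset a.1) ((hs.toSc.smOn hρ hO).cont.mono k2)⟩
  obtain ⟨C, hC, k1⟩ := hb x hx
  obtain ⟨V, k2, k3, k4⟩ := mem_nhds_iff.1 (k1.and (hK.isClosed.isOpen_compl.eventually_mem k))
  refine ⟨V, k3.mem_nhds k4, ne_top_of_le_ne_top (ENNReal.mul_ne_top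
    (ENNReal.ofReal_ne_top (r := C)) hf) (le_trans (setLIntegral_mono' (k3.inter hO').measurableSet
      fun y hy => ?_) ((lintegral_const_mul' _ _ ENNReal.ofReal_ne_top).le.trans (mul_le_mul_right
        (lintegral_mono_set fun y hy => And.intro ⟨trivial, hy.2.2⟩ (k2 hy.1).2) _)))⟩
  rw [← ENNReal.ofReal_mul hC]
  exact ENNReal.ofReal_le_ofReal ((k2 hy.1).1 hy.2.2)

end Lw

open Lw Nf in
/-- **LOW** -/
theorem low_of (h1 : OMM) (h2 : SNCB) (_ : Hm.StGram) (h4 : Hm.StPoin) : LOW := by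
  intro r D h ν hν T hT
  borelize D.Z.X
  have hO := h1 r D.Z D.S D.C D.n D.V
  obtain ⟨w, hw⟩ := exists_isHermitian (d := r) (X := D.Z.X)
  obtain ⟨μ, hμ⟩ := exists_isVol hw
  obtain ⟨τ, hτ, hA⟩ := h.posA
  have hτ' : IsMetric (toL h.lbA) τ := ⟨hτ.smooth, hτ.change⟩
  obtain ⟨σ, hσ⟩ := exists_isMetric (toL (lbO h 1))
  obtain ⟨ρ, hρ⟩ := exists_isMetric (toL (lbO h D.m))
  obtain ⟨ρ', hρ'⟩ := exists_isMetric (toL (lbO h (one T)))
  have s1 := sec_sg h 1 (Ω := univ) fun _ _ _ => .inl zero_le_one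
  have s2 := sec_sg h D.m (Ω := D.S.U) fun _ k l => .inr (k l)
  have e0 : ∀ k, ∀ x ∈ D.S.U, ∀ i, x ∈ (lin D.O k).U i → sg D k i x ≠ 0 := fun k x hx i hi =>
    Finset.prod_ne_zero_iff.2 fun l _ => zpow_ne_zero _ ((σ_ne h (hi l)).2 (hx l))
  have e1 : ∀ x, nrm (toL (lbO h 1)) σ (sg D 1) x ≠ 0 ↔ x ∈ D.S.U := fun x => by
    obtain ⟨i, hi⟩ := (lbO h 1).cover x
    refine (RiemH.nrm_ne hσ s1 hi trivial).trans (Finset.prod_ne_zero_iff.trans ?_)
    simp only [Finset.mem_univ, true_imp_iff, Pi.one_apply, zpow_one, fun l => σ_ne h (hi l)]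
    rfl
  have e2 : ∀ x ∈ D.S.U, nrm (toL (lbO h D.m)) ρ (sg D D.m) x ≠ 0 := fun x hx => by
    obtain ⟨i, hi⟩ := (lbO h D.m).cover x
    exact (RiemH.nrm_ne hρ s2 hi hx).2 (e0 _ x hx i hi)
  have s3 : SmOn (d := r) D.S.U fun x => -Real.log (D.L.hY () x) := fun e x he hx =>
    (line hO he hx).2.1
  obtain ⟨η, L, σ', t, t0, t1, t2, t3, t4⟩ := exh hτ' (fun e x he _ => by
      obtain ⟨i, hi⟩ := h.lbA.cover x
      rw [curvature_eq hτ' he hi]
      exact hA i e x he hi)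
    (fun y => (h.bpf y).imp fun s k => ⟨⟨fun i e x he hi _ => sec_hol k.1 hi e he,
      fun i j x hi hj _ => k.1.change i j x hi hj⟩, k.2⟩) hσ s1
    fun x => ((Hyp.of_snc (h2 r D.Z D.S).1).freq x).mono fun y k => (e1 y).2 k
  have t5 : ∀ x, nrm L σ' t x ≠ 0 → x ∈ D.S.U := fun x k => (e1 x).1 (t3 x k)
  obtain ⟨y₀, l0, l1, l2, g, ε, hε, l3, l4⟩ := loc h hν hw
  obtain ⟨y₁, m1, m2, m3, m4⟩ := ((t4 y₀).and_eventually ((((rat_sm hw hO.rho D.S.isOpen_U).contAt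
    l0).eventually_ne l1).and (l3.near.and l4.eventually_nhds))).exists
  obtain ⟨c₀, N₁, K, e₀, hc₀, hK, hK', H⟩ := many hw hμ hO.rho D.S.isOpen_U
    (inv_pos.2 (Hm.kap_pos _ _)) (ric hw) ((smOn_const _ _).mul s3) (fun e x he hx => by
      rw [ddc_mul_on _ s3 he hx]
      exact P285Z.psd_smul (line hO he hx).2.2 D.a.cast_nonneg)
    t0 t1 t2.isSection t5 m1 m2 (Nat.add_sub_cancel' l2) m3 hε m4
  refine ⟨c₀, N₁, hc₀, fun N c hN hc => ?_⟩
  obtain ⟨ι, _, _, y, p1, p2, p3⟩ := H N c hN hc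
  choose G g1 g2 g3 using p3
  have hE : IsLB r (lin D.E (D.ex T N c)) := lb_lin (fun a => by
    rcases a with a | a
    · fin_cases a
      exacts [P277Z.Slc.isLB_can, lbO h _, h.lbA]
    · exact (h.div a).lb) _
  have q1 := isMetric_pow (isMetric_canB hw) N
  have q2 := isMetric_pow hρ c
  have q3 := isMetric_pow hρ' N
  have sub : {x | x ∈ univ ∧ nrm L σ' t x ≠ 0} ⊆ D.S.U := fun x k => t5 x k.2
  have q4 := (sec_pow s2 c).res sub
  have q5 := (sec_pow (sec_one h T) N).res (subset_univ {x | x ∈ univ ∧ nrm L σ' t x ≠ 0})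
  have key : ∀ i, ∃ s, IsSec r (lin D.E (D.ex T N c)) s ∧ ∀ j, ∀ x ∈ (lin D.E (D.ex T N c)).U j,
      nrm L σ' t x ≠ 0 → s j x = G i (j (.inl 0)) x * sg D D.m (j (.inl 1)) x ^ c *
        sg D (one T) (fun l => j (.inr l)) x ^ N := fun i => by
    obtain ⟨F, f1, f2⟩ := ext (Ω := {x | ∀ l l', x ∈ D.S.G l → x ∈ D.S.G l' → l = l'}) hw hμ t0 t2
      t4 (isOpen_iff_mem_nhds.2 fun x hx => (D.S.ev_cut x).mono fun y k l l' a b =>
        hx l l' ((k l).1 a).1 ((k l').1 b).1) hK (fun x k => (hK' x k).2)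
      (isMetric_mulB (isMetric_mulB q1 q2) q3) (((g1 i).mulS q4).mulS q5) (g3 i) fun x hx => by
        obtain ⟨B, n, k1⟩ := wt_bd h h2 hρ x
        obtain ⟨C, k2⟩ := bd1 h h2 (h4 _ _ _ _ _ _) hT hw hρ' hx
        refine ⟨Real.exp (c * B) * |C| ^ N, by positivity, ?_⟩
        filter_upwards [k1, k2] with z a1 a2 hz
        have a3 := t5 z hz
        have a4 : 0 < rat w (omM D.V) z + 1 :=
          add_pos_of_nonneg_of_pos (rat_nn hw hO.rho a3) one_pos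
        rw [nrm_mulS_on (isMetric_mulB q1 q2) q3 ((g1 i).mulS q4).toSc q5.toSc ⟨trivial, hz⟩,
          nrm_mulS_on q1 q2 (g1 i).toSc q4.toSc ⟨trivial, hz⟩, nrm_pw, nrm_pw, mul_assoc,
          mul_left_comm (_ * |C| ^ N), neg_add, Real.exp_add, mul_comm (Real.exp (-_)),
          mul_mul_mul_comm, ← Real.exp_add, Real.exp_neg, Real.exp_nat_mul, Real.exp_log a4,
          ← div_eq_mul_inv, ← div_pow]
        refine mul_le_mul_of_nonneg_left (mul_le_mul ?_ (pow_le_pow_left₀ (nrm_nonneg' _ _ _ _)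
          ((le_div_iff₀' a4).2 ((a2 a3).trans (le_abs_self C))) N)
          (pow_nonneg (nrm_nonneg' _ _ _ _) N) (Real.exp_pos _).le) (nrm_nonneg' _ _ _ _)
        rw [← Real.exp_log ((nrm_nonneg' _ _ _ _).lt_of_ne' (e2 z a3)), ← Real.exp_nat_mul]
        have a5 := mul_le_mul_of_nonneg_left (a1 a3).1 (Nat.cast_nonneg (α := ℝ) c)
        unfold Nf.wt at a5
        exact Real.exp_le_exp.2 (by linarith)
    have b0 : ∀ x ∈ off D.S.G, ∀ l l', x ∈ D.S.G l → x ∈ D.S.G l' → l = l' :=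
      fun x k l _ a _ => (k l a).elim
    have b1 := fun (j : (lin D.E (D.ex T N c)).ι) e x he (hx : x ∈ (lin D.E (D.ex T N c)).U j) =>
      f1.holo ((j (.inl 0), j (.inl 1)), fun l => j (.inr l)) e x he
        ⟨⟨hx (.inl 0), hx (.inl 1)⟩, fun l => hx (.inr l)⟩
    obtain ⟨s, k1, k2⟩ := (secP_codim1 (c := fun _ => 0) (L := lin D.E (D.ex T N c))
      (h2 r D.Z D.S).1 hE isOpen_univ
      (s := fun j => F ((j (.inl 0), j (.inl 1)), fun l => j (.inr l)))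
      (S := {x | ∀ l l', x ∈ D.S.G l → x ∈ D.S.G l' → l = l'}ᶜ)
      (fun l x _ a b => subset_closure ⟨a, not_not.2 fun l₁ l₂ a₁ a₂ =>
        (not_not.1 fun k => b l₁ k a₁).trans (not_not.1 fun k => b l₂ k a₂).symm⟩)
      (fun j x _ hx k e he => b1 j e x he hx (b0 x k)) (fun j j' x _ hx hx' k => by
        refine (f1.change ((j (.inl 0), j (.inl 1)), fun l => j (.inr l))
          ((j' (.inl 0), j' (.inl 1)), fun l => j' (.inr l)) x
          ⟨⟨hx (.inl 0), hx (.inl 1)⟩, fun l => hx (.inr l)⟩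
          ⟨⟨hx' (.inl 0), hx' (.inl 1)⟩, fun l => hx' (.inr l)⟩ (b0 x k)).trans
          (congrArg (· * _) (Eq.symm ?_))
        refine (Fintype.prod_sum_type fun a => (D.E a).g (j a) (j' a) x ^ D.ex T N c a).trans
          (congrArg₂ (fun a b : ℂ => a * b) ?_ ?_)
        · rw [Fin.prod_univ_three]
          exact (congrArg₂ (fun a b : ℂ => a * b) (congrArg₂ (fun a b : ℂ => a * b)
            (zpow_natCast _ N) (zpow_natCast _ c)) (zpow_zero _)).trans (mul_one _)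
        · refine (Finset.prod_congr rfl fun l _ => ?_).trans (Finset.prod_pow _ _ _)
          rw [← zpow_natCast, ← zpow_mul]
          simp only [Zd.ex, one, Sum.elim_inr, ite_mul, one_mul, zero_mul]
          rfl)
      fun j x _ hx k => bdP_of_cont continuousAt_id (fun _ _ => le_rfl)
        (P277Z.Hol.continuousAt' fun e he => b1 j e x he hx (not_not.1 k))).isSec
      (h2 r D.Z D.S).1 hE fun _ => one_pos
    exact ⟨s, k1, fun j x hx k => (k2 j x hx (t5 x k)).trans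
      (f2 ((j (.inl 0), j (.inl 1)), fun l => j (.inr l)) x
        ⟨⟨hx (.inl 0), hx (.inl 1)⟩, fun l => hx (.inr l)⟩ (b0 x (t5 x k)) k)⟩
  choose s k1 k2 using key
  refine ⟨_, p1, fun a => s ((Fintype.equivFin ι).symm a), fun a => k1 _,
    fun b hb => funext fun a => ?_⟩
  obtain ⟨a1, a2⟩ := hK' _ (p2 ((Fintype.equivFin ι).symm a))
  obtain ⟨j, hj⟩ := hE.cover (y ((Fintype.equivFin ι).symm a))
  have a3 := hb j _ hj
  simp only [k2 _ j _ hj a2, fun i => (g1 i).change (j (.inl 0)) e₀ _ (hj (.inl 0)) a1 ⟨trivial, a2⟩,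
    g2, EmbeddingLike.apply_eq_iff_eq, mul_ite, ite_mul, mul_zero, zero_mul, mul_one,
    Finset.sum_ite_eq', Finset.mem_univ, if_true] at a3
  exact (mul_eq_zero.1 a3).resolve_right (mul_ne_zero (mul_ne_zero
    ((powL (canB r D.Z.X) N).ne_zero _ _ _ (hj (.inl 0)) a1)
    (pow_ne_zero _ (e0 _ _ (t5 _ a2) _ (hj (.inl 1)))))
    (pow_ne_zero _ (e0 _ _ (t5 _ a2) _ fun l => hj (.inr l))))

end Vale.Agent.P281Z.Lf
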