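import Vale.Agent.P281Z.Lf.Sk
import Vale.Agent.P281Z.Hm.Fr
import Vale.Agent.P281Z.Hm.L1

/-!
# P281Z, ratios of polynomial families of exponential growth are meromorphic (MERQ)
-/

open scoped Topology Matrix.Norms.Operator
open Set Filter Matrix Metric
open Vale.Agent.P272.K (Cm)
open Vale.Agent.P281Z.Hm (Mx cz Dm St Un ex)
open Vale.Agent.P281Z.Hm.L1 (st_dm)
open Vale.Agent.P281Z.Hm.FrH (tw tw_eq tw_add tw_zero tw_single norm_mon)

noncomputable section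

namespace Vale.Agent.P281Z.Lf

namespace MerqH

variable {p : ℕ} {K : Finset (Fin p)} {u v : Cm p → ℂ} {ζ : Cm p}

/-- holomorphic functions of exponential growth on the model -/
structure Eg (K : Finset (Fin p)) (u : Cm p → ℂ) : Prop where
  an : AnalyticOnNhd ℂ u (Dm K)
  gr : ∃ M : ℝ, ∀ R η : ℝ, 0 < η → ∃ B : ℝ, ∀ ζ ∈ St K R η,
    ‖u ζ‖ ≤ B * Real.exp (M * ∑ i ∈ K, (ζ i).im)

theorem im_nonneg (h : ζ ∈ Dm K) : 0 ≤ ∑ i ∈ K, (ζ i).im :=
  Finset.sum_nonneg fun i hi => (h.1 i hi).le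

theorem up (h : ζ ∈ Dm K) {x B M M' : ℝ} (e : x ≤ B * Real.exp (M * ∑ i ∈ K, (ζ i).im))
    (hM : M ≤ M') : x ≤ |B| * Real.exp (M' * ∑ i ∈ K, (ζ i).im) :=
  e.trans (mul_le_mul (le_abs_self B) (Real.exp_le_exp.2
    (mul_le_mul_of_nonneg_right hM (im_nonneg h))) (Real.exp_pos _).le (abs_nonneg B))

theorem Eg.congr (h : Eg K u) (e : ∀ ζ ∈ Dm K, u ζ = v ζ) : Eg K v :=
  ⟨h.an.congr (Hm.TorH.dm_open K) e, h.gr.imp fun _ k R η hη => (k R η hη).imp fun _ k ζ hζ =>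
    e ζ (st_dm hη hζ) ▸ k ζ hζ⟩

theorem Eg.const (c : ℂ) : Eg K fun _ => c :=
  ⟨analyticOnNhd_const, 0, fun _ _ _ => ⟨‖c‖, fun _ _ => by simp⟩⟩

theorem Eg.mul (h : Eg K u) (h' : Eg K v) : Eg K fun ζ => u ζ * v ζ := by
  obtain ⟨M, a⟩ := h.gr
  obtain ⟨M', b⟩ := h'.gr
  refine ⟨h.an.mul h'.an, M + M', fun R η hη => ?_⟩
  obtain ⟨B, a⟩ := a R η hη
  obtain ⟨B', b⟩ := b R η hη
  refine ⟨B * B', fun ζ hζ => ?_⟩
  rw [norm_mul, add_mul, Real.exp_add, mul_mul_mul_comm]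
  exact mul_le_mul (a ζ hζ) (b ζ hζ) (norm_nonneg _) ((norm_nonneg _).trans (a ζ hζ))

theorem Eg.add (h : Eg K u) (h' : Eg K v) : Eg K fun ζ => u ζ + v ζ := by
  obtain ⟨M, a⟩ := h.gr
  obtain ⟨M', b⟩ := h'.gr
  refine ⟨h.an.add h'.an, max M M', fun R η hη => ?_⟩
  obtain ⟨B, a⟩ := a R η hη
  obtain ⟨B', b⟩ := b R η hη
  refine ⟨|B| + |B'|, fun ζ hζ => ?_⟩
  rw [add_mul]
  exact norm_add_le_of_le (up (st_dm hη hζ) (a ζ hζ) (le_max_left _ _))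
    (up (st_dm hη hζ) (b ζ hζ) (le_max_right _ _))

theorem Eg.sum {ι : Type} (s : Finset ι) {f : ι → Cm p → ℂ} (h : ∀ i ∈ s, Eg K (f i)) :
    Eg K fun ζ => ∑ i ∈ s, f i ζ := by
  classical
  induction s using Finset.induction_on with
  | empty => simpa using Eg.const 0
  | insert i s hi ih =>
    simp only [Finset.sum_insert hi]
    exact (h i (Finset.mem_insert_self _ _)).add (ih fun j hj => h j (Finset.mem_insert_of_mem hj))

theorem Eg.prod {ι : Type} (s : Finset ι) {f : ι → Cm p → ℂ} (h : ∀ i ∈ s, Eg K (f i)) :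
    Eg K fun ζ => ∏ i ∈ s, f i ζ := by
  classical
  induction s using Finset.induction_on with
  | empty => simpa using Eg.const 1
  | insert i s hi ih =>
    simp only [Finset.prod_insert hi]
    exact (h i (Finset.mem_insert_self _ _)).mul (ih fun j hj => h j (Finset.mem_insert_of_mem hj))

theorem Eg.pow (h : Eg K u) (k : ℕ) : Eg K fun ζ => u ζ ^ k := by
  simpa using Eg.prod (Finset.range k) (f := fun _ => u) fun _ _ => h

theorem Eg.eval {σ : Type} {x : σ → Cm p → ℂ} (h : ∀ s, Eg K (x s)) (P : MvPolynomial σ ℂ) :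
    Eg K fun ζ => MvPolynomial.eval (fun s => x s ζ) P := by
  induction P using MvPolynomial.induction_on with
  | C a => simpa using Eg.const a
  | add P Q a b => simpa using a.add b
  | mul_X P s a => simpa using a.mul (h s)

theorem Eg.crd (i : Fin p) : Eg K fun ζ => ζ i := by
  refine ⟨fun ζ _ => (ContinuousLinearMap.proj (R := ℂ) (φ := fun _ : Fin p => ℂ) i).analyticAt ζ,
    1, fun R η hη => ⟨|R| + 1, fun ζ hζ => ?_⟩⟩
  have hd := st_dm hη hζ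
  have h1 := Real.add_one_le_exp (∑ i ∈ K, (ζ i).im)
  have h2 := im_nonneg hd
  rw [one_mul]
  by_cases hi : i ∈ K
  · have h3 := Complex.norm_le_abs_re_add_abs_im (ζ i)
    have h4 := Finset.single_le_sum (f := fun i => (ζ i).im) (fun j hj => (hd.1 j hj).le) hi
    rw [abs_of_pos (hd.1 i hi)] at h3
    nlinarith [hζ.2 i hi, le_abs_self R, abs_nonneg R]
  · nlinarith [hd.2 i hi, abs_nonneg R]

theorem im_add (j i : Fin p) (t : ℝ) : ((ζ + Pi.single j (t : ℂ) : Cm p) i).im = (ζ i).im := by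
  rcases eq_or_ne i j with rfl | h <;> simp [*]

theorem add_ne {j i : Fin p} (hj : j ∈ K) (hi : i ∉ K) (t : ℂ) :
    (ζ + Pi.single j t : Cm p) i = ζ i := by
  rw [Pi.add_apply, Pi.single_eq_of_ne (fun e : i = j => hi (e ▸ hj)), add_zero]

theorem add_dm (h : ζ ∈ Dm K) {j : Fin p} (hj : j ∈ K) (t : ℝ) : ζ + Pi.single j (t : ℂ) ∈ Dm K :=
  ⟨fun i hi => (im_add j i t).symm ▸ h.1 i hi, fun i hi => (add_ne hj hi _).symm ▸ h.2 i hi⟩

theorem Eg.shift (h : Eg K u) {j : Fin p} (hj : j ∈ K) (t : ℝ) :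
    Eg K fun ζ => u (ζ + Pi.single j (t : ℂ)) := by
  obtain ⟨M, a⟩ := h.gr
  refine ⟨fun ζ hζ => (h.an _ (add_dm hζ hj t)).comp_of_eq (x := ζ)
    (analyticAt_id.add analyticAt_const) rfl, M, fun R η hη =>
    (a (R + |t|) η hη).imp fun B a ζ hζ => ?_⟩
  rw [← Finset.sum_congr rfl fun i _ => im_add (ζ := ζ) j i t]
  refine a _ ⟨⟨fun i hi => (im_add j i t).symm ▸ hζ.1.1 i hi, fun i hi =>
    (add_ne hj hi _).symm ▸ hζ.1.2 i hi⟩, fun i hi => ?_⟩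
  refine (abs_add_le _ _).trans (add_le_add (hζ.2 i hi) ?_)
  rcases eq_or_ne i j with rfl | h <;> simp [*]

theorem ne_mul (h : Eg K u) (h' : Eg K v) (a : ∃ ζ ∈ Dm K, u ζ ≠ 0) (b : ∃ ζ ∈ Dm K, v ζ ≠ 0) :
    ∃ ζ ∈ Dm K, u ζ * v ζ ≠ 0 := by
  by_contra! k
  obtain ⟨ζ, hζ, a⟩ := a
  obtain ⟨ξ, hξ, b⟩ := b
  refine b (h'.an.eqOn_zero_of_preconnected_of_eventuallyEq_zero
    (Hm.LiftH.dm_convex K).isPreconnected hζ ?_ hξ)
  filter_upwards [(h.an ζ hζ).continuousAt.eventually_ne a, (Hm.TorH.dm_open K).mem_nhds hζ] with x c d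
  exact (mul_eq_zero.1 (k x d)).resolve_left c

theorem ne_prod {f : ℕ → Cm p → ℂ} (h : ∀ i, Eg K (f i)) (a : ∀ i, ∃ ζ ∈ Dm K, f i ζ ≠ 0) (k : ℕ) :
    ∃ ζ ∈ Dm K, ∏ i ∈ Finset.range k, f i ζ ≠ 0 := by
  induction k with
  | zero => exact ⟨_, Hm.LiftH.bp_mem K, by simp⟩
  | succ k ih =>
    simp only [Finset.prod_range_succ]
    exact ne_mul (Eg.prod _ fun i _ => h i) (h k) ih (a k)

/-- `u` has the period `t` in the direction `i` -/
def Per (K : Finset (Fin p)) (u : Cm p → ℂ) (i : Fin p) (t : ℂ) : Prop :=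
  ∀ ζ ∈ Dm K, u (ζ + Pi.single i t) = u ζ

/-- the norm from the period `a` to the period `1` -/
theorem nrm {a : ℕ} (ha : 0 < a) (h : Eg K u) (h0 : ∃ ζ ∈ Dm K, u ζ ≠ 0)
    (hp : ∀ i ∈ K, Per K u i a) (S : Finset (Fin p)) : S ⊆ K → ∃ v, Eg K v ∧
      (∃ ζ ∈ Dm K, u ζ * v ζ ≠ 0) ∧ (∀ i ∈ K, Per K (fun ζ => u ζ * v ζ) i a) ∧
      ∀ i ∈ S, Per K (fun ζ => u ζ * v ζ) i 1 := by
  obtain ⟨b, rfl⟩ := Nat.exists_eq_succ_of_ne_zero ha.ne'
  induction S using Finset.induction_on with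
  | empty => exact fun _ => ⟨fun _ => 1, Eg.const 1, by simpa using h0, by simpa using hp, by simp⟩
  | insert j S _ ih =>
    intro hS
    have hj := hS (Finset.mem_insert_self j S)
    obtain ⟨v, h1, ⟨ξ, hξ, h2⟩, h3, h4⟩ := ih ((Finset.subset_insert j S).trans hS)
    obtain ⟨w, hw⟩ : ∃ w : Cm p → ℂ, w = fun ζ => u ζ * v ζ := ⟨_, rfl⟩
    have h5 : Eg K w := hw ▸ h.mul h1
    have h6 : ∀ ζ, u ζ * (v ζ * ∏ t ∈ Finset.range b,
        w (ζ + Pi.single j (((t + 1 : ℕ) : ℝ) : ℂ))) =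
        ∏ t ∈ Finset.range (b + 1), w (ζ + Pi.single j ((t : ℝ) : ℂ)) := fun ζ => by
      rw [Finset.prod_range_succ', ← mul_assoc, mul_comm]
      simp [hw]
    have h7 : ∀ i t, Per K w i t → Per K (fun ζ => ∏ t ∈ Finset.range (b + 1),
        w (ζ + Pi.single j ((t : ℝ) : ℂ))) i t := fun i t k ζ hζ =>
      Finset.prod_congr rfl fun s _ => by rw [add_right_comm, k _ (add_dm hζ hj _)]
    rw [← hw] at h3 h4
    refine ⟨fun ζ => v ζ * ∏ t ∈ Finset.range b, w (ζ + Pi.single j (((t + 1 : ℕ) : ℝ) : ℂ)),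
      h1.mul (Eg.prod _ fun t _ => h5.shift hj _), ?_, ?_, ?_⟩ <;> simp only [h6]
    · refine ne_prod (fun t => h5.shift hj t) (fun t => ⟨_, add_dm hξ hj (-t), ?_⟩) _
      rw [add_assoc, ← Pi.single_add]
      simpa [hw] using h2
    · exact fun i hi => h7 i _ (h3 i hi)
    · refine Finset.forall_mem_insert _ _ _ |>.2 ⟨fun ζ hζ => ?_, fun i hi => h7 i _ (h4 i hi)⟩
      have h8 := h3 j hj ζ hζ
      simp only [add_assoc, ← Pi.single_add]
      rw [Finset.prod_range_succ, Finset.prod_range_succ']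
      simp only [Complex.ofReal_natCast]
      simp only [Nat.cast_succ, add_comm (1 : ℂ), Nat.cast_zero, Pi.single_zero, add_zero] at h8 ⊢
      rw [h8]

/-- interpolation -/
theorem interp (σ : Type) [Fintype σ] (d : ℕ) : ∃ (k : ℕ) (L : Fin k → MvPolynomial σ ℂ)
    (w : Fin k → (σ → ℂ) →₀ ℂ), ∀ P : MvPolynomial σ ℂ, P.totalDegree ≤ d → ∀ x,
      MvPolynomial.eval x P =
        ∑ j, ((w j).sum fun y a => a * MvPolynomial.eval y P) * MvPolynomial.eval x (L j) := by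
  let V := MvPolynomial.restrictTotalDegree σ ℂ d
  let ev : (σ → ℂ) → V →ₗ[ℂ] ℂ := fun y => (MvPolynomial.aeval y).toLinearMap ∘ₗ V.subtype
  have h1 : Submodule.span ℂ (range ev) = ⊤ := Submodule.span_eq_top_of_ne_zero fun z hz => by
    by_contra! k
    exact hz (Subtype.ext (MvPolynomial.funext fun x => k _ ⟨x, rfl⟩))
  let b := Module.finBasis ℂ V
  choose w hw using fun j => Finsupp.mem_span_range_iff_exists_finsupp.1
    (h1 ▸ Submodule.mem_top : b.coord j ∈ Submodule.span ℂ (range ev))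
  refine ⟨_, fun j => b j, w, fun P hP x => ?_⟩
  have h2 := congrArg (ev x) (b.sum_repr ⟨P, (MvPolynomial.mem_restrictTotalDegree _ _ _).2 hP⟩)
  rw [map_sum] at h2
  refine h2.symm.trans (Finset.sum_congr rfl fun j _ => ?_)
  rw [map_smul, ← b.coord_apply, ← hw j, Finsupp.sum, Finsupp.sum, LinearMap.sum_apply]
  rfl

variable {n : Type} [Fintype n] [DecidableEq n] {T : Fin p → Matrix n n ℤ} {F : Mx n → Cm p → ℂ}

theorem gw_eg (h : Gw K T F) {X : Cm p → Mx n} (hX : ∀ a b, Eg K fun ζ => X ζ a b) :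
    Eg K fun ζ => F (X ζ) ζ := by
  obtain ⟨d, hd⟩ := h.poly
  obtain ⟨k, L, w, hw⟩ := interp (n × n) d
  refine (Eg.sum Finset.univ fun j _ => (Eg.sum (w j).support fun y _ => (Eg.const (w j y)).mul
    (u := fun _ => w j y) ⟨h.an (of fun a b => y (a, b)), h.gr _⟩).mul
    (Eg.eval (fun ab : n × n => hX ab.1 ab.2) (L j))).congr fun ζ hζ => ?_
  obtain ⟨P, h1, h2⟩ := hd ζ hζ
  simp only [h2]
  exact (hw P h1 _).symm

omit [DecidableEq n] in
theorem ent_mul {X Y : Cm p → Mx n} (hX : ∀ a b, Eg K fun ζ => X ζ a b)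
    (hY : ∀ a b, Eg K fun ζ => Y ζ a b) (a b : n) : Eg K fun ζ => (X ζ * Y ζ) a b :=
  Eg.sum Finset.univ fun c _ => (hX a c).mul (hY c b)

theorem ent_tw {Q : Mx n} {a : ℕ} {N : Fin p → Mx n} (h : Un K Q T a N) (i j : n) :
    Eg K fun ζ => tw K N (-ζ) i j := by
  simp only [tw_eq h, Matrix.sum_apply, Matrix.smul_apply, smul_eq_mul]
  refine Eg.sum _ fun k hk => (Eg.const _).mul ?_
  clear hk
  induction k generalizing i j with
  | zero => exact Eg.const _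
  | succ k ih =>
    simp only [pow_succ]
    refine ent_mul (X := fun ζ => (∑ i ∈ K, (-ζ) i • N i) ^ k) ih (fun i j => ?_) i j
    simp only [Matrix.sum_apply, Matrix.smul_apply, smul_eq_mul, Pi.neg_apply, neg_mul_comm]
    exact Eg.sum _ fun l _ => (Eg.crd l).mul (Eg.const _)

theorem iter (h : Gw K T F) {i : Fin p} (hi : i ∈ K) (hζ : ζ ∈ Dm K) (k : ℕ) (A : Mx n) :
    F A (ζ + Pi.single i (k : ℂ)) = F (A * cz (T i) ^ k) ζ := by
  induction k generalizing A with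
  | zero => simp
  | succ k ih =>
    rw [Nat.cast_succ, Pi.single_add, ← add_assoc, h.sh A i hi _ (by simpa using add_dm hζ hi k),
      ih, pow_succ', Matrix.mul_assoc]

end MerqH

open MerqH in
/-- **MERQ** -/
theorem merq : MERQ := by
  intro n _ _ p K Q T a N F₀ F₁ hU h₀ h₁ ⟨A₀, ζ₀, hζ₀, hA⟩ hD
  have e : ∀ F, Gw K T F → Eg K fun ζ => F (A₀ * tw K N ζ₀ * tw K N (-ζ)) ζ := fun F h =>
    gw_eg h (ent_mul (X := fun _ => A₀ * tw K N ζ₀) (fun _ _ => Eg.const _) (ent_tw hU))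
  obtain ⟨v, h1, ⟨ξ, hξ, h2⟩, -, h3⟩ := nrm hU.pos (e F₀ h₀) ⟨ζ₀, hζ₀, by
    rwa [Matrix.mul_assoc, ← tw_add hU, add_neg_cancel, tw_zero, Matrix.mul_one]⟩
    (fun i hi ζ hζ => by
      simp only [iter h₀ hi hζ, ← tw_single hU hi, Matrix.mul_assoc, ← tw_add hU, neg_add,
        add_assoc, neg_add_cancel, add_zero]) K subset_rfl
  obtain ⟨u₀, e₀⟩ : ∃ u : Cm p → ℂ, u = fun ζ => F₀ (A₀ * tw K N ζ₀ * tw K N (-ζ)) ζ * v ζ :=
    ⟨_, rfl⟩
  obtain ⟨u₁, e₁⟩ : ∃ u : Cm p → ℂ, u = fun ζ => F₁ (A₀ * tw K N ζ₀ * tw K N (-ζ)) ζ * v ζ :=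
    ⟨_, rfl⟩
  have g₀ : Eg K u₀ := e₀ ▸ (e F₀ h₀).mul h1
  have g₁ : Eg K u₁ := e₁ ▸ (e F₁ h₁).mul h1
  rw [← e₀] at h3
  have h4 : ∀ ζ c, (∀ A, F₁ A ζ = c * F₀ A ζ) → u₁ ζ = c * u₀ ζ := fun ζ c k => by
    simp only [e₀, e₁, k, mul_assoc]
  have h5 : ∀ i ∈ K, Per K u₁ i 1 := fun i hi ζ hζ => by
    have c1 := ((g₁.shift hi 1).an ζ hζ).continuousAt
    rw [Complex.ofReal_one] at c1
    refine tendsto_nhds_unique_of_frequently_eq c1 (g₁.an ζ hζ).continuousAt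
      ((mem_closure_iff_frequently.1 (hD hζ)).mono fun x ⟨hx, c, k⟩ => ?_)
    rw [h4 x c k, h4 _ c fun A => by rw [h₁.sh A i hi x hx, h₀.sh A i hi x hx, k], h3 i hi x hx]
  obtain ⟨M₀, b₀⟩ := g₀.gr
  obtain ⟨M₁, b₁⟩ := g₁.gr
  obtain ⟨M, hM⟩ := exists_nat_ge (max M₀ M₁)
  obtain ⟨φ, k1, k2⟩ := Hm.stDesc (Fin 2) p K 1 (fun ζ => ![u₀ ζ, u₁ ζ]) M one_pos
    (fun ζ hζ => analyticAt_pi_iff.2 (Fin.forall_fin_two.2 ⟨g₀.an ζ hζ, g₁.an ζ hζ⟩))
    (fun i hi ζ hζ => by rw [Nat.cast_one, h3 i hi ζ hζ, h5 i hi ζ hζ]) fun η hη => by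
      obtain ⟨B₀, b₀⟩ := b₀ (1 : ℕ) η hη
      obtain ⟨B₁, b₁⟩ := b₁ (1 : ℕ) η hη
      refine ⟨|B₀| + |B₁|, fun ζ hζ => ?_⟩
      have hd := st_dm hη hζ
      have c1 := norm_mon (K := K) (a := 1) (fun _ => (M : ℤ)) ζ
      simp only [zpow_natCast, Int.cast_natCast, ← Finset.mul_sum, Nat.cast_one, div_one] at c1
      have c2 : ‖∏ i ∈ K, ex K 1 ζ i ^ M‖ * Real.exp (M * ∑ i ∈ K, (ζ i).im) ≤ 1 := by
        refine (pow_le_one_iff_of_nonneg (by positivity) two_ne_zero).1 ?_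
        rw [mul_pow, c1, ← Real.exp_nat_mul, ← Real.exp_add, Real.exp_le_one_iff]
        have := mul_nonneg (Nat.cast_nonneg (α := ℝ) M) (im_nonneg hd)
        push_cast
        nlinarith [Real.pi_gt_three]
      have c3 : ‖![u₀ ζ, u₁ ζ]‖ ≤ (|B₀| + |B₁|) * Real.exp (M * ∑ i ∈ K, (ζ i).im) := by
        refine (pi_norm_le_iff_of_nonneg (by positivity)).2 (Fin.forall_fin_two.2 ⟨?_, ?_⟩)
        · exact (up hd (b₀ ζ hζ) ((le_max_left _ _).trans hM)).trans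
            (by gcongr; exact le_add_of_nonneg_right (abs_nonneg _))
        · exact (up hd (b₁ ζ hζ) ((le_max_right _ _).trans hM)).trans
            (by gcongr; exact le_add_of_nonneg_left (abs_nonneg _))
      rw [norm_smul]
      refine (mul_le_mul_of_nonneg_left c3 (norm_nonneg _)).trans ?_
      rw [mul_left_comm]
      exact mul_le_of_le_one_right (by positivity) c2
  refine ⟨fun σ => φ σ 0, fun σ => φ σ 1, fun σ hσ => Hm.an_crd (k1 σ hσ) 0,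
    fun σ hσ => Hm.an_crd (k1 σ hσ) 1, ⟨_, (Hm.DescH.mem_dm one_pos).1 hξ, ?_⟩, fun ζ hζ c k => ?_⟩
  · simp only [k2 ξ hξ]
    exact mul_ne_zero (Finset.prod_ne_zero_iff.2 fun i hi => pow_ne_zero _ (Hm.LiftH.ex_ne ξ hi))
      (e₀ ▸ h2)
  · simp only [k2 ζ hζ, Pi.smul_apply, smul_eq_mul, cons_val_zero, cons_val_one, h4 ζ c k]
    ring

end Vale.Agent.P281Z.Lf
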