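import Vale.Agent.P281Z.Lf.Ms
import Vale.Agent.P281Z.Hm.Id
import Vale.Agent.P281Z.Hm.Sk2

/-!
# P281Z, the base of the variation: moderate growth on the base (row MODZ)
-/

open scoped Manifold ContDiff Topology
open Set Filter
open Vale.Agent.P272.K
open Vale.Agent.P277Z (Hol Mer gen Nz)
open Vale.Agent.P277Z.Slc (LEq)

noncomputable section

namespace Vale.Agent.P281Z

section
variable {n : ℕ} {X X₁ : Type} [TopologicalSpace X] [ChartedSpace (Cm n) X]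
  [IsManifold 𝓘(ℂ, Cm n) ω X] [TopologicalSpace X₁] [ChartedSpace (Cm n) X₁]
  [IsManifold 𝓘(ℂ, Cm n) ω X₁] {u : X₁ → X} {B : Set X}

theorem Modif.dom (h : Modif n u B) (x : X₁) : Tendsto u (gen {x}) (gen {u x}) := by
  intro T hT
  refine P277Z.gen_of_open ?_
  filter_upwards [(h.hol.cont.continuousAt.eventually
    (P277Z.gen_near (p := fun y => y ∈ T) hT)).eventually_nhds] with y hy
  refine frequently_frequently_nhds.1 (((h.thin_pre.freq y).and_eventually hy).mono fun z hz => ?_)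
  exact ((h.sbm hz.1).freq (h.hol.at z) (P277Z.gen_frequently hz.2)).mono fun w hw =>
    h.hol.cont.continuousAt.eventually hw

theorem Modif.mer (h : Modif n u B) {a : X → ℂ} {x : X₁} (ha : Mer n a (u x)) :
    Mer n (fun y => a (u y)) x := by
  obtain ⟨v, w, h1, h2, h3, h4⟩ := ha
  exact ⟨fun y => v (u y), fun y => w (u y), h.hol.hol h1, h.hol.hol h2,
    P277Z.nz_of_gen ((h.dom x).eventually (Nz.gen h3 h2)), (h.dom x).eventually h4⟩

end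

namespace Lf

namespace Mz

variable {X : Type} {F : Filter X} {τ f g : X → ℝ}

/-- poles of finite order -/
def Up (F : Filter X) (τ f : X → ℝ) : Prop := ∃ (C : ℝ) (N : ℕ), ∀ᶠ x in F, f x * τ x ^ N ≤ C

/-- zeros of finite order -/
def Lo (F : Filter X) (τ f : X → ℝ) : Prop :=
  ∃ (c : ℝ) (N : ℕ), 0 < c ∧ ∀ᶠ x in F, c * τ x ^ N ≤ f x

theorem Up.mul (h : Up F τ f) (h' : Up F τ g) (hτ : ∀ x, 0 ≤ τ x) (hf : ∀ x, 0 ≤ f x)
    (hg : ∀ x, 0 ≤ g x) : Up F τ fun x => f x * g x := by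
  obtain ⟨C, N, h⟩ := h
  obtain ⟨C', N', h'⟩ := h'
  refine ⟨C * C', N + N', ?_⟩
  filter_upwards [h, h'] with x a b
  rw [pow_add, mul_mul_mul_comm]
  exact mul_le_mul a b (mul_nonneg (hg x) (pow_nonneg (hτ x) _))
    ((mul_nonneg (hf x) (pow_nonneg (hτ x) _)).trans a)

theorem Up.pow (h : Up F τ f) (hτ : ∀ x, 0 ≤ τ x) (hf : ∀ x, 0 ≤ f x) (a : ℕ) :
    Up F τ fun x => f x ^ a := by
  obtain ⟨C, N, h⟩ := h
  refine ⟨C ^ a, N * a, h.mono fun x b => ?_⟩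
  rw [pow_mul, ← mul_pow]
  exact pow_le_pow_left₀ (mul_nonneg (hf x) (pow_nonneg (hτ x) _)) b a

theorem Lo.prod {ι : Type} [Fintype ι] {f : ι → X → ℝ} (h : ∀ i, Lo F τ (f i))
    (hτ : ∀ x, 0 ≤ τ x) : Lo F τ fun x => ∏ i, f i x := by
  choose c N h0 h using h
  refine ⟨∏ i, c i, ∑ i, N i, Finset.prod_pos fun i _ => h0 i,
    (eventually_all.2 h).mono fun x a => ?_⟩
  rw [← Finset.prod_pow_eq_pow_sum, ← Finset.prod_mul_distrib]
  exact Finset.prod_le_prod (fun i _ => mul_nonneg (h0 i).le (pow_nonneg (hτ x) _)) fun i _ => a i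

theorem Lo.rpow (h : Lo F τ f) (hτ : ∀ᶠ x in F, 0 < τ x) {M : ℝ} (hM : 0 < M)
    (hf : ∀ᶠ x in F, f x ≤ M) (A : ℝ) : Lo F τ fun x => f x ^ A := by
  obtain ⟨c, N, h0, h⟩ := h
  refine ⟨c ^ ⌈A⌉₊ * M ^ (A - ⌈A⌉₊), N * ⌈A⌉₊, by positivity, ?_⟩
  filter_upwards [h, hτ, hf] with x a b d
  have e : 0 < f x := lt_of_lt_of_le (by positivity) a
  have k : f x ^ A = f x ^ ⌈A⌉₊ * f x ^ (A - ⌈A⌉₊) := by
    rw [← Real.rpow_natCast, ← Real.rpow_add e, add_sub_cancel]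
  rw [k, mul_right_comm, pow_mul, ← mul_pow]
  exact mul_le_mul (pow_le_pow_left₀ (by positivity) a _)
    (Real.rpow_le_rpow_of_nonpos e d (sub_nonpos.2 (Nat.le_ceil A))) (by positivity)
    (by positivity)

theorem Lo.up (h : Lo F τ g) (hf : ∀ x, 0 ≤ f x) {B : ℝ} (hB : ∀ᶠ x in F, f x * g x ≤ B) :
    Up F τ f := by
  obtain ⟨c, N, h0, h⟩ := h
  refine ⟨B / c, N, ?_⟩
  filter_upwards [h, hB] with x a b
  rw [le_div_iff₀ h0, mul_assoc, mul_comm _ c]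
  exact (mul_le_mul_of_nonneg_left a (hf x)).trans b

theorem ab_nn {p : ℕ} {Y : Type} [TopologicalSpace Y] [ChartedSpace (Fin p → ℂ) Y]
    (S : Hm.Snc p Y) (y : Y) (l : Fin S.r) (z : Fin p → ℂ) : 0 ≤ S.ab y l z := by
  by_cases h : y ∈ S.G l
  · rw [S.ab_of_lab h (S.exists_lab h).choose_spec.2]
    exact norm_nonneg _
  · rw [S.ab_of_not h]
    exact zero_le_one

end Mz

open Mz

/-- row MODZ -/
theorem modz_of (ms : MS) (mon : MON) (sncb : SNCB) (hG : Hm.StModG) : MODZ := by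
  intro p W S C n _ _ V l L r u a q B V₁ Ψ F D hL hT hM
  refine hG r F.Z.X F.S D.C' _ D.V' _ D.L' F.sconn fun j hj => ?_
  obtain ⟨x, hx, h1⟩ := ms p W r u B F j hj
  obtain ⟨ζ, hζ, -⟩ := F.snc x
  obtain ⟨i, hi⟩ := L.lb.cover (F.μ x)
  obtain ⟨B₁, A₁, h2⟩ := hM (F.μ x) i hi
  obtain ⟨η, hη, -⟩ := (sncb p W S).1 (F.μ x)
  have hμ : Tendsto F.μ (𝓝 x) (𝓝 (F.μ x)) := F.modif.hol.cont.tendsto x
  have hμ' : Tendsto F.μ (𝓝[off F.G] x) (𝓝 (F.μ x)) := hμ.mono_left nhdsWithin_le_nhds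
  have o1 : ∀ y ∈ off F.G, F.μ y ∉ F.B := fun y hy h => ((F.bad y).1 h).elim fun k hk => hy k hk
  have o2 : ∀ y ∈ off F.G, F.μ y ∉ B := fun y hy h => o1 y hy (F.sub h)
  have o3 : ∀ y ∈ off F.G, F.μ y ∈ S.U := fun y hy => hL.sub (o2 y hy)
  have o4 : ∀ᶠ y in 𝓝 x, F.μ y ∈ l.U i := hμ.eventually ((L.lb.isOpen i).mem_nhds hi)
  have τ0 : ∀ y, 0 ≤ ∏ k, ‖ζ k y‖ := fun y => Finset.prod_nonneg fun _ _ => norm_nonneg _
  have τ1 : ∀ᶠ y in 𝓝[off F.G] x, 0 < ∏ k, ‖ζ k y‖ := eventually_nhdsWithin_iff.2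
    ((eventually_all.2 fun k => (hζ k).1).mono fun y b c =>
      Finset.prod_pos fun k _ => norm_pos_iff.2 fun e => c k ((b k).1 e))
  have u1 : Up (𝓝[off F.G] x) (fun y => ∏ k, ‖ζ k y‖) fun y => ‖q i (F.μ y)‖ := by
    obtain ⟨C, A, h⟩ := (mon p F.W' _ F.G x ζ (fun y => q i (F.μ y)) F.snc hζ
      (F.modif.mer (hL.qmer i _ hi))
      (o4.mono fun y b c => F.modif.hol.hol (hL.qhol i _ b (o2 y c)).1)).1
    exact ⟨C, A, eventually_nhdsWithin_iff.2 (h.mono fun y b c => by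
      rw [← Finset.prod_pow]; exact b c)⟩
  have u2 : ∀ k, Lo (𝓝[off F.G] x) (fun y => ∏ k, ‖ζ k y‖)
      fun y => S.ab (F.μ x) k (chartAt (Cm p) (F.μ x) (F.μ y)) ^ A₁ := by
    intro k
    have e : Hol p (fun y => η k (F.μ y)) x := F.modif.hol.hol (hη k).hol
    obtain ⟨c, A, hc, h⟩ := (mon p F.W' _ F.G x ζ (fun y => η k (F.μ y)) F.snc hζ
      ⟨_, fun _ => 1, e, P277Z.hol_const 1 x, P277Z.nz_of_ne one_ne_zero,
        Eventually.of_forall fun _ => mul_one _⟩ (e.near.mono fun y b _ => b)).2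
      ((hμ.eventually (hη k).1).mono fun y b c d => o3 y c k (b.1 d))
    obtain ⟨c', C', hc', h'⟩ := (sncb p W S).2 _ k _ (hη k)
    refine Lo.rpow (M := (‖η k (F.μ x)‖ + 1) / c') ⟨c / max C' 1, A, by positivity, ?_⟩ τ1
      (by positivity) ?_ A₁
    · filter_upwards [eventually_nhdsWithin_iff.2 h, hμ'.eventually h'] with y b d
      rw [div_mul_eq_mul_div, div_le_iff₀' (by positivity), ← Finset.prod_pow]
      exact (b.trans d.2).trans (mul_le_mul_of_nonneg_right (le_max_left _ _) (ab_nn S _ _ _))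
    · filter_upwards [hμ'.eventually h', (e.cont.norm.tendsto.mono_left
        nhdsWithin_le_nhds).eventually (gt_mem_nhds (lt_add_one _))] with y b d
      rw [le_div_iff₀' hc']
      exact b.1.trans d.le
  have u3 : Up (𝓝[off F.G] x) (fun y => ∏ k, ‖ζ k y‖) fun y => L.hY i (F.μ y) :=
    (Lo.prod u2 τ0).up (fun y => L.hY_nonneg i _)
      (eventually_nhdsWithin_iff.2 ((hμ.eventually h2).mono fun y b c => b (o3 y c)))
  obtain ⟨K, N, u4⟩ := (u1.pow τ0 (fun _ => norm_nonneg _) 2).mul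
    (u3.pow τ0 (fun y => L.hY_nonneg i _) a) τ0 (fun _ => by positivity)
    fun y => pow_nonneg (L.hY_nonneg i _) _
  obtain ⟨i₀, hi₀⟩ : ∃ i₀, ∀ z, z ∈ (P277Z.Slc.triv F.Z.X).U i₀ := ⟨(), fun _ => mem_univ _⟩
  have u5 : ∀ᶠ y in 𝓝 x, y ∈ off F.G → D.L'.hY i₀ (F.γ y) * (∏ k, ‖ζ k y‖) ^ N ≤ K := by
    filter_upwards [eventually_nhdsWithin_iff.1 u4, o4] with y b c d
    obtain ⟨x', hx'⟩ := C.surj _ (o3 y d)
    have e : C.π x' ∉ F.B := hx' ▸ o1 y d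
    rw [← D.π x' y hx'.symm e, D.L'.hY_eq (hi₀ _), Hm.Ln.h, D.Q, D.w, D.gr x' e, D.ψ _ x' e,
      hT.nrm i x' (hx' ▸ c) (hx' ▸ o2 y d), hx']
    exact b d
  obtain ⟨c, A, hc, h3⟩ := h1 ζ hζ _ u5
  refine ⟨_, hx, i₀, hi₀ _, K / c ^ N, (A * N : ℕ), h3.mono fun z b hz => ?_⟩
  obtain ⟨y, k1, k2, rfl, k4⟩ := b hz
  rw [Finset.prod_eq_single j (fun k _ e => by rw [F.S.ab_of_not (hx.2 k e), Real.one_rpow])
    (fun e => (e (Finset.mem_univ _)).elim), Real.rpow_natCast, le_div_iff₀ (by positivity),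
    mul_assoc, pow_mul, ← mul_pow, mul_comm _ c]
  exact (mul_le_mul_of_nonneg_left (pow_le_pow_left₀ (mul_nonneg hc.le
    (pow_nonneg (ab_nn _ _ _ _) _)) k4 N) (D.L'.hY_nonneg _ _)).trans (k1 k2)

end Lf

end Vale.Agent.P281Z
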