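import Vale.Agent.P281Z.Lf.Sk
import Vale.Agent.P281Z.Mf.Mod
import Vale.Agent.P277Z.Slc.Sard
import Vale.Agent.P277Z.Slc.Unit
import Vale.Agent.P281Z.Hm.Snc
import Mathlib.Analysis.Complex.AbsMax

/-!
# P281Z, the base of the variation: local multisections (row MS)
-/

open scoped Manifold ContDiff Topology
open Set Filter MeasureTheory Metric
open Vale.Agent.P272.K
open Vale.Agent.P277Z (Hol)
open Vale.Agent.P277Z.Slc (Ind LEq Reg)

noncomputable section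

namespace Vale.Agent.P281Z.Lf

namespace Ms

/-- the equation `h (t, s) = w` for a function which vanishes only on `t = 0` -/
theorem solve {E : Type} [NormedAddCommGroup E] [NormedSpace ℂ E] {h : ℂ × E → ℂ} {s : E}
    (ha : AnalyticAt ℂ h (0, s)) (h0 : h (0, s) = 0)
    (hne : ∀ᶠ k in 𝓝 ((0 : ℂ), s), k.1 ≠ 0 → h k ≠ 0) {P : ℂ × E → Prop}
    (hP : ∀ᶠ k in 𝓝 ((0 : ℂ), s), P k) : ∃ C : ℝ, 0 < C ∧ ∀ᶠ k in 𝓝 ((0 : ℂ), s),
      ∃ t, P (t, k.2) ∧ h (t, k.2) = k.1 ∧ ‖k.1‖ ≤ C * ‖t‖ := by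
  obtain ⟨K, T, hT, hK⟩ := (ha.contDiffAt (n := 1)).exists_lipschitzOnWith
  obtain ⟨ρ, hρ, hb⟩ := nhds_basis_closedBall.eventually_iff.1
    (ha.eventually_analyticAt.and (hne.and (hP.and hT)))
  have mem : ∀ (t : ℂ) s', ‖t‖ ≤ ρ → dist s' s ≤ ρ → (t, s') ∈ closedBall ((0 : ℂ), s) ρ := by
    intro t s' h1 h2
    rw [mem_closedBall, Prod.dist_eq, max_le_iff, dist_zero_right]
    exact ⟨h1, h2⟩
  have lip : ∀ (t t' : ℂ) s' s'', ‖t‖ ≤ ρ → ‖t'‖ ≤ ρ → dist s' s ≤ ρ → dist s'' s ≤ ρ →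
      ‖h (t, s') - h (t', s'')‖ ≤ K * max (dist t t') (dist s' s'') := fun t t' s' s'' a b c d => by
    rw [← dist_eq_norm]
    exact hK.dist_le_mul _ (hb (mem t s' a c)).2.2.2 _ (hb (mem t' s'' b d)).2.2.2
  have dif : ∀ s', dist s' s ≤ ρ → ∀ t : ℂ, ‖t‖ ≤ ρ → DifferentiableAt ℂ (fun t => h (t, s')) t :=
    fun s' a t b => DifferentiableAt.comp (g := h) t (hb (mem t s' b a)).1.differentiableAt
      (by fun_prop)
  have hs : dist s s ≤ ρ := by rw [dist_self]; exact hρ.le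
  obtain ⟨t0, ht0, hmin⟩ := (isCompact_sphere (0 : ℂ) ρ).exists_isMinOn
    (NormedSpace.sphere_nonempty.2 hρ.le) (f := fun t => ‖h (t, s)‖) fun t ht =>
      (dif s hs t (mem_sphere_zero_iff_norm.1 ht).le).continuousAt.norm.continuousWithinAt
  have ht0' := mem_sphere_zero_iff_norm.1 ht0
  have hε : 0 < ‖h (t0, s)‖ := norm_pos_iff.2 ((hb (mem t0 s ht0'.le hs)).2.1 (by
    intro e
    rw [show t0 = 0 from e, norm_zero] at ht0'
    exact hρ.ne ht0'))
  set ε := ‖h (t0, s)‖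
  have hK0 : (0 : ℝ) ≤ K := K.2
  obtain ⟨η, hη, hηρ, hηε⟩ : ∃ η : ℝ, 0 < η ∧ η ≤ ρ ∧ (K + 1) * η ≤ ε / 4 :=
    ⟨min ρ (ε / 4 / (K + 1)), by positivity, min_le_left _ _, by
      rw [← le_div_iff₀' (by positivity)]
      exact min_le_right _ _⟩
  have key : ∀ (w : ℂ) s', ‖w‖ ≤ η → dist s' s ≤ η → ∃ t : ℂ, ‖t‖ ≤ ρ ∧ h (t, s') = w := by
    intro w s' hw hs'
    by_contra hc
    push Not at hc
    have near : ∀ t : ℂ, ‖t‖ ≤ ρ → ‖h (t, s') - w - h (t, s)‖ ≤ ε / 4 := by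
      intro t ht
      have a := lip t t s' s ht ht (hs'.trans hηρ) hs
      rw [dist_self, max_eq_right dist_nonneg] at a
      have b : (K : ℝ) * dist s' s ≤ K * η := by gcongr
      rw [sub_right_comm]
      linarith [norm_sub_le (h (t, s') - h (t, s)) w]
    have d : DiffContOnCl ℂ (fun t => (h (t, s') - w)⁻¹) (ball 0 ρ) := by
      refine DifferentiableOn.diffContOnCl fun t ht => ?_
      rw [closure_ball _ hρ.ne', mem_closedBall_zero_iff] at ht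
      exact (((dif s' (hs'.trans hηρ) t ht).sub_const w).inv
        (sub_ne_zero.2 (hc t ht))).differentiableWithinAt
    have e := Complex.norm_le_of_forall_mem_frontier_norm_le isBounded_ball d
      (C := (ε / 2)⁻¹) (fun t ht => by
        rw [frontier_ball _ hρ.ne'] at ht
        have a : ε ≤ ‖h (t, s)‖ := hmin ht
        have b := near t (mem_sphere_zero_iff_norm.1 ht).le
        have c := norm_sub_norm_le (h (t, s)) (h (t, s') - w)
        rw [norm_sub_rev] at b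
        rw [norm_inv]
        exact inv_anti₀ (by positivity) (by linarith)) (subset_closure (mem_ball_self hρ))
    have a := near 0 (by rw [norm_zero]; exact hρ.le)
    rw [h0, sub_zero] at a
    have b : 0 < ‖h (0, s') - w‖ :=
      norm_pos_iff.2 (sub_ne_zero.2 (hc 0 (by rw [norm_zero]; exact hρ.le)))
    rw [norm_inv, inv_le_inv₀ b (by positivity)] at e
    linarith
  refine ⟨K + 1, by positivity, ?_⟩
  filter_upwards [closedBall_mem_nhds ((0 : ℂ), s) hη] with k hk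
  rw [mem_closedBall, Prod.dist_eq, max_le_iff, dist_zero_right] at hk
  obtain ⟨t, ht, e⟩ := key k.1 k.2 hk.1 hk.2
  obtain ⟨t', ht', e'⟩ := key 0 k.2 (by rw [norm_zero]; exact hη.le) hk.2
  have z : t' = 0 := by
    by_contra c
    exact (hb (mem t' k.2 ht' (hk.2.trans hηρ))).2.1 c e'
  have a := lip t t' k.2 k.2 ht ht' (hk.2.trans hηρ) (hk.2.trans hηρ)
  rw [e, e', sub_zero, dist_self, max_eq_left dist_nonneg, z, dist_zero_right] at a
  exact ⟨t, (hb (mem t k.2 ht (hk.2.trans hηρ))).2.2.1, e, by nlinarith [norm_nonneg t]⟩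

variable {p m : ℕ} {X : Type} [TopologicalSpace X] [ChartedSpace (Cm p) X]
  [IsManifold 𝓘(ℂ, Cm p) ω X] {κ : Type} [Fintype κ] {G : κ → Set X}

/-- the multisection in local coordinates -/
theorem loc {x : X} {ζ : κ → X → ℂ} (hζ : ∀ k, LEq p (G k) x (ζ k)) {F : X → Cm m} {s : Cm m}
    (hF : F x = s)
    (hi : Ind p (Sum.elim (fun l : {l // x ∈ G l} => ζ l) fun (i : Fin m) y => F y i - s i) x)
    {g : X → ℂ} (hg : Hol p g x) (g0 : g x = 0) (gne : ∀ᶠ y in 𝓝 x, y ∈ off G → g y ≠ 0)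
    {O : Set X} (hO : O ∈ 𝓝 x) : ∃ c : ℝ, 0 < c ∧ ∀ᶠ k in 𝓝 ((0 : ℂ), s), k.1 ≠ 0 →
      ∃ x' ∈ O, x' ∈ off G ∧ g x' = k.1 ∧ F x' = k.2 ∧
        c * ‖k.1‖ ^ Fintype.card κ ≤ ∏ l, ‖ζ l x'‖ := by
  classical
  obtain ⟨d, hd⟩ := Nat.exists_eq_add_of_le (ind_le hi)
  obtain ⟨Θ, hΘ, hx, -, hv⟩ := exists_co hi hd.symm hO
  let v : ℂ × Cm m → (({l // x ∈ G l} ⊕ Fin m) → ℂ) × Cm d := fun k =>
    (Sum.elim (fun _ => k.1) fun i => k.2 i - s i, (Θ x).2)
  have hva : AnalyticAt ℂ v (0, s) := by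
    refine AnalyticAt.prod (analyticAt_pi_iff.2 fun a => ?_) analyticAt_const
    cases a with
    | inl a => exact analyticAt_fst
    | inr i => exact ((analyticAt_pi_iff.1 analyticAt_snd) i).sub analyticAt_const
  have v0 : v (0, s) = Θ x := by
    refine Prod.ext ?_ rfl
    rw [hv x hx]
    funext a
    cases a with
    | inl a => exact ((hζ a).mem.2 a.2).symm
    | inr i => show s i - s i = F x i - s i; rw [hF]
  have hxx : Θ.symm (v (0, s)) = x := by rw [v0, Θ.left_inv hx]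
  have t1 : Tendsto v (𝓝 (0, s)) (𝓝 (Θ x)) := v0 ▸ hva.continuousAt.tendsto
  have t2 : Tendsto (fun k => Θ.symm (v k)) (𝓝 (0, s)) (𝓝 x) := (Θ.tendsto_symm hx).comp t1
  have hm : ∀ l, ∃ c : ℝ, 0 < c ∧ c ≤ 1 ∧ ∀ᶠ y in 𝓝 x, x ∉ G l → c ≤ ‖ζ l y‖ := by
    intro l
    by_cases h : x ∈ G l
    · exact ⟨1, one_pos, le_rfl, Eventually.of_forall fun _ a => (a h).elim⟩
    · have a : 0 < ‖ζ l x‖ := norm_pos_iff.2 fun e => h ((hζ l).mem.1 e)
      refine ⟨min 1 (‖ζ l x‖ / 2), by positivity, min_le_left _ _, ?_⟩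
      filter_upwards [(hζ l).hol.cont.norm.eventually (lt_mem_nhds (half_lt_self a))] with y b _
      exact (min_le_right _ _).trans b.le
  choose c c0 c1 c2 using hm
  have good : ∀ᶠ k in 𝓝 ((0 : ℂ), s), Θ.symm (v k) ∈ O ∧ F (Θ.symm (v k)) = k.2 ∧
      (k.1 ≠ 0 → Θ.symm (v k) ∈ off G) ∧ ∀ l, c l * ‖k.1‖ ≤ ‖ζ l (Θ.symm (v k))‖ := by
    have a1 : ∀ᶠ k : ℂ × Cm m in 𝓝 (0, s), ‖k.1‖ < 1 :=
      (continuous_fst.norm.tendsto _).eventually (gt_mem_nhds (by simp))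
    filter_upwards [t1.eventually (Θ.open_target.mem_nhds (Θ.map_source hx)), t2.eventually hO,
      t2.eventually (eventually_all.2 c2), t2.eventually (eventually_all.2 fun l => (hζ l).1), a1]
      with k k1 k2 k3 k4 k5
    have e := hv _ (Θ.map_target k1)
    rw [Θ.right_inv k1] at e
    have e1 : ∀ l, x ∈ G l → ζ l (Θ.symm (v k)) = k.1 := fun l h =>
      (congrFun e (Sum.inl ⟨l, h⟩)).symm
    have e2 : ∀ l, c l * ‖k.1‖ ≤ ‖ζ l (Θ.symm (v k))‖ := fun l => by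
      by_cases h : x ∈ G l
      · rw [e1 l h]
        exact mul_le_of_le_one_left (norm_nonneg _) (c1 l)
      · exact (mul_le_of_le_one_right (c0 l).le k5.le).trans (k3 l h)
    refine ⟨k2, funext fun i => sub_left_injective (congrFun e (Sum.inr i)).symm, fun h l b => ?_, e2⟩
    have := e2 l
    rw [(k4 l).2 b, norm_zero] at this
    exact this.not_gt (mul_pos (c0 l) (norm_pos_iff.2 h))
  obtain ⟨C, hC, hs⟩ := solve (h := fun k => g (Θ.symm (v k))) (s := s)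
    (AnalyticAt.comp (g := fun v => g (Θ.symm v)) (hΘ.an_hol (v0 ▸ Θ.map_source hx)
      (hxx.symm ▸ hg)) hva) (by rw [hxx, g0])
    (by filter_upwards [good, t2.eventually gne] with k a b h using b (a.2.2.1 h)) good
  refine ⟨∏ l, c l / C, Finset.prod_pos fun l _ => div_pos (c0 l) hC, hs.mono fun k a h => ?_⟩
  obtain ⟨t, ⟨a1, a2, a3, a4⟩, a5, a6⟩ := a
  have ht : t ≠ 0 := fun e => by
    rw [e, norm_zero, mul_zero] at a6
    exact h (norm_le_zero_iff.1 a6)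
  refine ⟨_, a1, a3 ht, a5, a2, ?_⟩
  rw [← Finset.card_univ, ← Finset.prod_const, ← Finset.prod_mul_distrib]
  refine Finset.prod_le_prod (fun l _ => mul_nonneg (div_pos (c0 l) hC).le (norm_nonneg _))
    fun l _ => le_trans ?_ (a4 l)
  rw [div_mul_eq_mul_div, mul_div_assoc]
  exact mul_le_mul_of_nonneg_left ((div_le_iff₀' hC).2 a6) (c0 l).le

end Ms

/-- row MS -/
theorem ms_of (sncb : SNCB) : MS := by
  intro p W r u B₀ F l ⟨y₀, hy₀⟩
  obtain ⟨b, hb, hb0⟩ := F.S.mem_G.1 hy₀.1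
  obtain ⟨m, rfl⟩ : ∃ m, r = m + 1 := ⟨r - 1, by have := b.2; omega⟩
  have he₀ := P277Z.at_chart (n := m + 1) y₀
  set e := chartAt (Cm (m + 1)) y₀ with he
  have h1 : ∀ᶠ y in 𝓝 y₀, At e y ∧ (e y b = 0 ↔ y ∈ F.S.G l) ∧ ∀ l', l' ≠ l → y ∉ F.S.G l' := by
    filter_upwards [at_near he₀, F.S.ev_cut y₀] with y a c
    refine ⟨a, ⟨fun h => (c l).2 ⟨hy₀.1, b, hb, h⟩, fun h => ?_⟩,
      fun l' h k => hy₀.2 l' h ((c l').1 k).1⟩
    obtain ⟨-, i, d, f⟩ := (c l).1 h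
    rwa [Option.some.inj (hb.symm.trans d)]
  obtain ⟨V, hV, hVo, hV0⟩ := eventually_nhds_iff.1 h1
  have hs := P277Z.Slc.stSard_of P277Z.Slc.stUnit p F.W'.X (Fin F.k) F.G (F.γ ⁻¹' V) m
    (fun x i => e (F.γ x) (b.succAbove i)) F.snc (hVo.preimage F.hol.cont)
    fun x hx i => F.hol.hol (hol_chart (hV _ hx).1 _)
  have t0 : Tendsto (fun s : Cm m => (b.insertNth 0 s : Cm (m + 1)))
      (𝓝 fun i => e y₀ (b.succAbove i)) (𝓝 (e y₀)) := by
    have a : (b.insertNth 0 fun i => e y₀ (b.succAbove i) : Cm (m + 1)) = e y₀ := by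
      rw [Fin.insertNth_eq_iff]
      exact ⟨hb0.symm, rfl⟩
    have c : Continuous fun s : Cm m => (b.insertNth 0 s : Cm (m + 1)) :=
      Continuous.finInsertNth b continuous_const continuous_id
    have d := c.tendsto fun i => e y₀ (b.succAbove i)
    rwa [a] at d
  obtain ⟨s, hreg, s1, s2⟩ := ((Measure.dense_of_ae hs).inter_nhds_nonempty ((t0.eventually
    (e.open_target.mem_nhds (e.map_source he₀.2))).and
    (((e.tendsto_symm he₀.2).comp t0).eventually (hVo.mem_nhds hV0))))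
  obtain ⟨x, hx⟩ := F.surj (e.symm (b.insertNth 0 s))
  have xV : F.γ x ∈ V := hx ▸ s2
  have ex : e (F.γ x) = b.insertNth 0 s := by rw [hx, e.right_inv s1]
  have x0 : e (F.γ x) b = 0 := by rw [ex, Fin.insertNth_apply_same]
  have xs : (fun i => e (F.γ x) (b.succAbove i)) = s := by
    funext i
    rw [ex, Fin.insertNth_apply_succAbove]
  have nV : ∀ᶠ y in 𝓝 x, F.γ y ∈ V := F.hol.cont.continuousAt (hVo.mem_nhds xV)
  refine ⟨x, ⟨(hV _ xV).2.1.1 x0, (hV _ xV).2.2⟩, fun ζ hζ O hO => ?_⟩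
  obtain ⟨c, hc, h2⟩ := Ms.loc hζ xs (hreg x xV xs ζ hζ) (g := fun y => e (F.γ y) b)
    (F.hol.hol (hol_chart (hV _ xV).1 b)) x0
    (nV.mono fun y a h k => F.pre y h l ((hV _ a).2.1.1 k)) (inter_mem hO nV)
  have hl : LEq (m + 1) (F.S.G l) (F.γ x) fun y => e y b := by
    refine ⟨(hVo.eventually_mem xV).mono fun y a => (hV y a).2.1, fun e' he' =>
      ⟨hol_chart (hV _ xV).1 b e' he', fun _ => ?_⟩⟩
    exact ((ind_chart (hV _ xV).1).2 e' he').ne_zero b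
  obtain ⟨c', C', hc', h3⟩ := (sncb _ F.Z F.S).2 _ l _ hl
  have t3 : Tendsto (fun z => (e z b, fun i => e z (b.succAbove i))) (𝓝 (F.γ x))
      (𝓝 ((0 : ℂ), s)) := by
    have a := e.continuousAt (hV _ xV).1.2
    rw [← x0, ← xs]
    exact (continuousAt_pi.1 a b).tendsto.prodMk_nhds
      (continuousAt_pi.2 fun i => continuousAt_pi.1 a _).tendsto
  refine ⟨c * c' ^ Fintype.card (Fin F.k), Fintype.card (Fin F.k), by positivity, ?_⟩
  filter_upwards [t3.eventually h2, h3, hVo.mem_nhds xV] with z a1 a2 a3 hz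
  obtain ⟨x', ⟨k1, k1'⟩, k2, k3, k4, k5⟩ := a1 fun k => hz l ((hV z a3).2.1.1 k)
  refine ⟨x', k1, k2, e.injOn (hV _ k1').1.2 (hV z a3).1.2 (funext fun i => ?_), le_trans ?_ k5⟩
  · exact b.succAboveCases k3 (fun j => congrFun k4 j) i
  · rw [mul_assoc, ← mul_pow]
    refine mul_le_mul_of_nonneg_left (pow_le_pow_left₀ (mul_nonneg hc'.le ?_) a2.1 _) hc.le
    rw [F.S.ab_of_lab ((hV _ xV).2.1.1 x0) (F.S.exists_lab ((hV _ xV).2.1.1 x0)).choose_spec.2]
    exact norm_nonneg _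

end Vale.Agent.P281Z.Lf
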