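import Vale.Agent.P277Z.Van.Sing

/-!
# P281Z: sections which do not vanish at a given point, for a weight with mild poles
-/

open scoped Manifold ContDiff ComplexOrder Topology ENNReal Matrix
open MeasureTheory Filter Set Metric

noncomputable section

namespace Vale.Agent.P281Z.Lf.Nf

open Vale.Agent.P272.K Vale.Agent.P301.H599 Vale.Agent.P285Z Vale.Agent.P285Z.G1
open Vale.Agent.P301.H98 (nrm)
open Vale.Agent.P301.H862 (IsSc powL)
open Vale.Agent.P277Z.Van Vale.Agent.P277Z.Van.GG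

variable {d : ℕ} {X : Type} [TopologicalSpace X] [ChartedSpace (Cm d) X] {κ ι η : Type}
  {M : LineBundle d X κ} {ρ : κ → X → ℝ} {L : LineBundle d X ι} {σ : ι → X → ℝ} {r : ι → X → ℂ}
  {h om : Fm d X} {Ψ u : X → ℝ} {y : X} {C B : ℝ} {O U : Set X}
  [IsManifold 𝓘(ℂ, Cm d) ω X] [T2Space X] [MeasurableSpace X] [BorelSpace X] {μ : Measure X}

theorem core (hh : IsHermitian h) (hμ : IsVol h μ) (hD : Dm univ om) (hρ : IsMetric M ρ)
    (hσ : IsMetric L σ) (hr : SecOn L univ r) (hr0 : ∀ x, ∃ᶠ y in 𝓝 x, nrm L σ r y ≠ 0)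
    (hO : O = {x | x ∈ univ ∧ nrm L σ r x ≠ 0}) (hW : WK d O) (hu : Pole univ om C y u)
    (hΨ : SmOn (d := d) O Ψ) (hΘ : ∀ e x, At e x → x ∈ O → ∀ v, (1 + (d + 1 : ℕ) * C) *
      Qf (om e (e x)) v ≤ Qf (curvature M ρ e (e x) - kc h e (e x) + ddc Ψ e (e x)) v)
    (hB : ∀ x ∈ O, Ψ x ≤ B) (hI : ∫⁻ x in O, ENNReal.ofReal (Real.exp (-Ψ x)) ∂μ ≠ ⊤) :
    ∃ F, SecOn M univ F ∧ nrm M ρ F y ≠ 0 := by
  obtain ⟨p, hp⟩ := M.cover y
  have he := atChart (d := d) y
  set e := chartAt (Cm d) y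
  set N := d + 1 with hN
  obtain ⟨W, hWy, hf, h1⟩ := frame_sec hp he (g := fun _ => 1) analyticAt_const
  obtain ⟨w, t₀, ht₀, hw, -, hwy, hwr⟩ := exists_u he hWy
  obtain ⟨C₂, -, hb⟩ := hD.bd hw
  have h0 : ∀ t, t₀ / 2 ≤ t → hc t₀ t = 0 := fun t ht => zeta_of_le (arg_le ht₀ ht)
  have h0' : ∀ t, t₀ / 2 ≤ t → hc' t₀ t = 0 := fun t ht => by
    rw [hc', deriv_zeta_of_le (arg_le ht₀ ht), zero_mul]
  have hU : ∀ x, w x < t₀ → x ∈ W := fun x hx => (hwr x hx).1
  have hs := isSc_cut (hc_smooth t₀) hw ht₀ h0 hf hU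
  have hs' := isSc_cut (hc'_smooth t₀) hw ht₀ h0' hf hU
  have hd := dbar_cut hρ (hc_deriv t₀) (hc'_smooth t₀) ht₀ h0 h0' hf hU hD hb (subset_univ O)
  set f : κ → X → ℂ := fun q x => M.g q p x * 1
  set s := cut (hc t₀) w f
  set a : X → ℝ := fun x => C₂ ^ 2 * nrm M ρ (cut (hc' t₀) w f) x
  have ha : Continuous a := continuous_const.mul (continuous_nrm hρ hs')
  have ha0 : ∀ x, 0 ≤ a x := fun x => mul_nonneg (sq_nonneg _) (nrm_nonneg' _ _ _ _)
  have hev : ∀ᶠ x in 𝓝 y, a x = 0 ∧ ∀ q, s q x = f q x := by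
    filter_upwards [(smooth_continuous hw).continuousAt.eventually
      (gt_mem_nhds (show w y < t₀ / 4 by rw [hwy]; positivity))] with x hx
    simp [a, s, nrm, cut, hc, hc', zeta_of_ge (arg_ge ht₀ hx.le), deriv_zeta_of_ge (arg_ge ht₀ hx.le)]
  have huc := smooth_continuous hu.sm
  obtain ⟨Ba, hBa⟩ := hD.cpt.exists_bound_of_continuousOn ha.continuousOn
  obtain ⟨ε, hε, hε'⟩ := (hD.cpt.diff (isOpen_interior (s := {x | a x = 0}))).exists_forall_le'
    huc.continuousOn fun x hx => hu.pos x fun k =>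
      hx.2 (k ▸ mem_interior_iff_mem_nhds.2 (hev.mono fun _ k => k.1))
  obtain ⟨ψ, hψ⟩ := hW.1
  have hm := hψ.isOpen.measurableSet
  obtain ⟨ae, ext⟩ := riem d X h μ hh hμ univ isOpen_univ hD.cpt.isSigmaCompact ι L σ r hσ hr
    fun x _ => hr0 x
  rw [← hO] at ext
  have e1 : μ.restrict O = μ := Measure.restrict_eq_self_of_ae_mem (by
    rw [Measure.restrict_univ] at ae
    exact ae.mono fun x k => hO ▸ And.intro trivial k)
  set R := ENNReal.ofReal (Real.exp B) * (ENNReal.ofReal (|Ba| * (ε ^ N)⁻¹) *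
    ∫⁻ x in O, ENNReal.ofReal (Real.exp (-Ψ x)) ∂μ)
  have hR : R ≠ ⊤ := ENNReal.mul_ne_top ENNReal.ofReal_ne_top
    (ENNReal.mul_ne_top ENNReal.ofReal_ne_top hI)
  have key : ∀ δ : ℝ, 0 < δ → ∃ F, SecOn M univ F ∧ ∫⁻ x, ENNReal.ofReal
      (nrm M ρ (fun i y => F i y - s i y) x * ((u x + δ) ^ N)⁻¹) ∂μ ≤ R := by
    intro δ hδ
    have hl := smooth_lg hu.sm hu.nn hδ
    have hl' := smOn_of (hl.const_mul (N : ℝ)) O
    have hpos : ∀ x, 0 < u x + δ := fun x => add_pos_of_nonneg_of_pos (hu.nn x) hδ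
    have hQ : ∀ e x, At e x → x ∈ O → ∀ v, Qf (om e (e x)) v ≤
        Qf (curvature M ρ e (e x) - kc h e (e x) +
          ddc (fun x => Ψ x + N * Real.log (u x + δ)) e (e x)) v := by
      intro e x hx hxO v
      have q2 := mul_le_mul_of_nonneg_left (hu.ge δ hδ e x hx trivial v) (Nat.cast_nonneg (α := ℝ) N)
      have q3 := hΘ e x hx hxO v
      rw [ddc_add_on hΨ hl' hx hxO, ← add_assoc, Qf_add, ddc_const_mul _ hl e x hx, Qf_smul]
      linarith
    obtain ⟨G, hG, hG'⟩ := horm d X h μ hh hμ O hW κ M ρ hρ _ (hΨ.add hl')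
      (fun e x hx hxO => psd_of_Qf ((((cform_curv hρ).herm e x hx).sub ((cform_kc hh).herm e x hx)).add
        (C2.cHess_isHermitian ((hΨ.add hl').two hx hxO)))
        fun v => (hD.nn e x hx trivial v).trans (hQ e x hx hxO v)) s (scOn_of hs O) a
      ha.continuousOn (fun x _ => ha0 x) fun i e x hx hi hxO v =>
        (hd i e x hx hi hxO v).trans (mul_le_mul_of_nonneg_left (hQ e x hx hxO v) (ha0 x))
    have e2 : ∀ x, Real.exp (-(Ψ x + N * Real.log (u x + δ))) =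
        Real.exp (-Ψ x) * ((u x + δ) ^ N)⁻¹ := fun x => by
      rw [neg_add, Real.exp_add, Real.exp_neg (_ * _), Real.exp_nat_mul, Real.exp_log (hpos x)]
    simp only [e2] at hG'
    have h2 : ∫⁻ x in O, ENNReal.ofReal
        (nrm M ρ (fun i y => G i y - s i y) x * ((u x + δ) ^ N)⁻¹) ∂μ ≤ R := by
      refine le_trans (setLIntegral_mono' hm fun x hx => ?_) ((lintegral_const_mul' _ _
        ENNReal.ofReal_ne_top).le.trans (mul_le_mul_right (hG'.trans (le_trans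
          (setLIntegral_mono' hm fun x hx => ?_)
          (lintegral_const_mul' _ _ ENNReal.ofReal_ne_top).le)) _))
      · rw [← ENNReal.ofReal_mul (Real.exp_pos _).le, mul_left_comm, ← mul_assoc (Real.exp B),
          ← Real.exp_add]
        exact ENNReal.ofReal_le_ofReal (mul_le_mul_of_nonneg_left (le_mul_of_one_le_left
          (inv_nonneg.2 (pow_nonneg (hpos x).le N)) (Real.one_le_exp (by linarith [hB x hx])))
          (nrm_nonneg' _ _ _ _))
      · rw [← ENNReal.ofReal_mul (by positivity), mul_comm (Real.exp _), ← mul_assoc]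
        refine ENNReal.ofReal_le_ofReal (mul_le_mul_of_nonneg_right ?_ (Real.exp_pos _).le)
        by_cases k : a x = 0
        · rw [k, zero_mul]
          positivity
        · refine mul_le_mul ((le_abs_self _).trans ((hBa x trivial).trans (le_abs_self _)))
            (inv_anti₀ (pow_pos hε N) (pow_le_pow_left₀ hε.le ?_ N))
            (inv_nonneg.2 (pow_nonneg (hpos x).le N)) (abs_nonneg _)
          linarith [hε' x ⟨trivial, fun h2 => k (interior_subset (s := {x | a x = 0}) h2)⟩]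
    obtain ⟨F, hF, h3⟩ := ext κ M ρ hρ G hG fun x _ => Sing.loc_fin hh hμ isOpen_univ hψ.isOpen hρ
      (scOn_of hs univ) trivial (W := fun x => ENNReal.ofReal ((u x + δ) ^ N)⁻¹)
      ((low_cont (f := fun x => ((u x + δ) ^ N)⁻¹) (((huc.continuousAt.add continuousAt_const).pow
        N).inv₀ (pow_pos (hpos x) N).ne') (inv_pos.2 (pow_pos (hpos x) N))).imp fun V k =>
          ⟨k.1, k.2.imp fun t k => ⟨k.1, fun z hz => ENNReal.ofReal_le_ofReal (k.2 z hz)⟩⟩)
      (ne_top_of_le_ne_top hR (by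
        simpa only [ENNReal.ofReal_mul (nrm_nonneg' M ρ _ _)] using h2))
    refine ⟨F, hF, le_trans (le_of_eq ?_) h2⟩
    conv_lhs => rw [← e1]
    refine setLIntegral_congr_fun hm fun x hx => ?_
    unfold nrm
    beta_reduce
    rw [h3 _ x (M.cover x).choose_spec trivial (hO ▸ hx).2]
  obtain ⟨A, hA, hA'⟩ := hu.le he
  obtain ⟨V, k1, k2, k3⟩ := mem_nhds_iff.1 (inter_mem hWy (hev.and hA'))
  obtain ⟨T, c, hT, k4⟩ := loc_bd hh hμ hρ he hp (k2.mem_nhds k3) 1 hR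
    (E := ((4 * A + 1) ^ N)⁻¹) (by positivity)
  obtain ⟨t, ht, k5⟩ := (((continuous_const.mul continuous_id).tendsto' (0 : ℝ) 0
    (mul_zero c)).eventually (gt_mem_nhds one_pos)).filter_mono (nhdsWithin_le_nhds (s := Ioi 0))
      |>.and (Ioo_mem_nhdsGT hT) |>.exists
  obtain ⟨F, hF, k6⟩ := key (t ^ 2) (pow_pos k5.1 2)
  have k7 := k4 (fun i y => F i y - f i y) (fun x => ((u x + t ^ 2) ^ N)⁻¹) t
    ((hF.res (subset_univ V)).sub' (hf.res fun x hx => (k1 hx).1)) k5.1 k5.2 (fun z hz _ k => by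
      rw [div_eq_mul_inv, ← mul_inv, pow_mul, ← mul_pow]
      have k8 := add_pos_of_nonneg_of_pos (hu.nn z) (pow_pos k5.1 2)
      refine inv_anti₀ (pow_pos k8 N) (pow_le_pow_left₀ k8.le ?_ N)
      nlinarith [(k1 hz).2.2, mul_le_mul_of_nonneg_left (pow_le_pow_left₀ (norm_nonneg _) k 2) hA.le])
    (le_trans (le_of_eq (setLIntegral_congr_fun k2.measurableSet fun x hx => by
      simp only [nrm, (k1 hx).2.1.2])) ((setLIntegral_le_lintegral _ _).trans k6)) y he.2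
    (by simpa using k5.1.le)
  refine ⟨F, hF, (RiemH.nrm_ne hρ hF hp trivial).2 fun k => ?_⟩
  simp only [k, f, h1 y (mem_of_mem_nhds hWy), mul_one, zero_sub, norm_neg, norm_one, pow_one] at k7
  exact absurd ht (not_lt.2 k7)

/-- sections of `j M + k A` -/
theorem main [CompactSpace X] (hh : IsHermitian h) (hμ : IsVol h μ) {A : LineBundle d X η}
    {τ : η → X → ℝ} (hτ : IsMetric A τ) (hA : PDOn univ (curvature A τ))
    (hb : ∀ y, ∃ s, SecOn A univ s ∧ ∀ i, y ∈ A.U i → s i y ≠ 0) (hσ : IsMetric L σ)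
    (hr : SecOn L univ r) (hr0 : ∀ x, ∃ᶠ y in 𝓝 x, nrm L σ r y ≠ 0)
    (hU : ∀ x, nrm L σ r x ≠ 0 → x ∈ U) (hρ : IsMetric M ρ) (hΨ : SmOn (d := d) U Ψ)
    (hP : PSDOn U fun e z => curvature M ρ e z + ddc Ψ e z)
    (hB : ∀ x, ∃ B, ∀ᶠ y in 𝓝 x, y ∈ U → Ψ y ≤ B) (hI : ∀ (j : ℕ) x, ∃ V ∈ 𝓝 x,
      ∫⁻ y in V ∩ U, ENNReal.ofReal (Real.exp (-(j * Ψ y))) ∂μ ≠ ⊤) :
    ∃ k, 0 < k ∧ ∀ j y, ∃ F, SecOn (mulB (powL M j) (powL A k)) univ F ∧
      ∀ i, y ∈ (mulB (powL M j) (powL A k)).U i → F i y ≠ 0 := by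
  have hD := dm_of (cform_curv hτ) isCompact_univ hA
  obtain ⟨C, hC, hu⟩ := exists_pole hD
  obtain ⟨C', hC', h1⟩ := abs_le_on (cform_curv hτ) (cform_kc hh) isCompact_univ hA
  obtain ⟨C₁, -, h2⟩ := exists_curv_on isOpen_univ (kahOn_curv hτ hA) hσ isCompact_univ subset_rfl
  have m1 := isMetric_pow hτ ⌈C₁⌉₊
  have m2 := isMetric_mulB hσ m1
  obtain ⟨t, ht, ht0⟩ := gen d X univ univ isOpen_univ isCompact_univ subset_rfl η _ _ m1
    fun y _ => by
      obtain ⟨s, k1, k2⟩ := hb y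
      obtain ⟨i, hi⟩ := A.cover y
      have k3 : SecOn (powL A ⌈C₁⌉₊) univ fun i x => s i x ^ ⌈C₁⌉₊ :=
        ⟨fun i e x a b c => (k1.holo i e x a b c).fun_pow _, fun i j x a b c => by
          rw [k1.change i j x a b c, mul_pow]
          rfl⟩
      exact ⟨_, k3, (RiemH.nrm_ne m1 k3 hi trivial).2 (pow_ne_zero _ (k2 i hi))⟩
  have hr' := hr.mulS ht
  have e1 := fun x => nrm_mulS_on hσ m1 hr.toSc ht.toSc (mem_univ x)
  obtain ⟨b, hb'⟩ := isCompact_univ.bddAbove_image (hr'.toSc.smOn m2 isOpen_univ).cont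
  have H := Sing.exh_ne (φ := fun _ => 0) ⟨isOpen_univ, smOn_const _ _, fun e x _ _ => by
      rw [show ddc (fun _ : X => (0 : ℝ)) e (e x) = 0 from C2.cHess_const _]
      exact Matrix.PosSemidef.zero, fun c => by
      by_cases k : 0 ≤ c <;> simp [k, isCompact_univ]⟩ m2 hr' (fun e x hx _ => by
      rw [curvature_mulB hσ m1 e x hx]
      beta_reduce
      rw [curvature_pow hτ _ e x hx, add_comm]
      exact h2 _ (Nat.le_ceil _) e x hx trivial) fun x _ => hb' ⟨x, trivial, rfl⟩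
  have sb : {x | x ∈ univ ∧ nrm _ (mulM σ (powM τ ⌈C₁⌉₊)) (mulS r t) x ≠ 0} ⊆ U := fun x hx =>
    hU x (left_ne_zero_of_mul (e1 x ▸ hx.2))
  obtain ⟨B, hB'⟩ := isCompact_univ.induction_on (p := fun s => ∃ B, ∀ y ∈ s, y ∈ U → Ψ y ≤ B)
    ⟨0, fun _ k => k.elim⟩ (fun _ _ k ⟨B, k'⟩ => ⟨B, fun y hy => k' y (k hy)⟩)
    (fun _ _ ⟨B, k⟩ ⟨B', k'⟩ => ⟨max B B', fun y hy a => hy.elim
      (fun b => le_max_of_le_left (k y b a)) fun b => le_max_of_le_right (k' y b a)⟩)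
    fun x _ => (hB x).elim fun B k => ⟨_, mem_nhdsWithin_of_mem_nhds k, B, fun _ k => k⟩
  have hk : 1 + (d + 1 : ℕ) * C + C' ≤ ⌈1 + (d + 1 : ℕ) * C + C'⌉₊ := Nat.le_ceil _
  refine ⟨_, Nat.ceil_pos.2 (show 0 < 1 + (d + 1 : ℕ) * C + C' by positivity), fun j y => ?_⟩
  obtain ⟨u, hu⟩ := hu y trivial
  have m3 := isMetric_pow hρ j
  have m4 := isMetric_pow hτ ⌈1 + (d + 1 : ℕ) * C + C'⌉₊
  obtain ⟨F, hF, h3⟩ := core (Ψ := fun x => j * Ψ x) (B := j * B) hh hμ hD (isMetric_mulB m3 m4) m2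
    hr' (fun x => frequently_frequently_nhds.1 ((ht0 x trivial).mono fun z hz =>
      ((hr0 z).and_eventually (((ht.toSc.smOn m1 isOpen_univ).contAt trivial).eventually_ne
        hz)).mono fun _ k => (e1 _).trans_ne (mul_ne_zero k.1 k.2))) rfl
    (wk_of H hτ (hA.mono (subset_univ _))) hu ((smOn_const _ _).mul (hΨ.mono sb))
    (fun e x hx hm v => by
      have q1 := (abs_le.1 (h1 e x hx trivial v)).2
      have q2 := mul_le_mul_of_nonneg_right hk (hD.nn e x hx trivial v)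
      have q3 := mul_nonneg (Nat.cast_nonneg (α := ℝ) j) (Qf_nonneg (hP e x hx (sb hm)) v)
      rw [curvature_mulB m3 m4 e x hx, ddc_mul_on _ hΨ hx (sb hm), Qf_add, Qf_sub, Qf_add,
        curvature_pow hρ j e x hx, curvature_pow hτ _ e x hx, Qf_smul, Qf_smul, Qf_smul]
      rw [Qf_add] at q3
      linarith)
    (fun x hx => mul_le_mul_of_nonneg_left (hB' x trivial (sb hx)) j.cast_nonneg)
    (ne_top_of_le_ne_top (isCompact_univ.induction_on
      (p := fun s => ∫⁻ y in s ∩ U, ENNReal.ofReal (Real.exp (-(j * Ψ y))) ∂μ ≠ ⊤) (by simp)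
      (fun _ _ k k' => ne_top_of_le_ne_top k' (lintegral_mono_set (inter_subset_inter_left _ k)))
      (fun _ _ k k' => ne_top_of_le_ne_top (ENNReal.add_ne_top.2 ⟨k, k'⟩) (by
        rw [union_inter_distrib_right]
        exact lintegral_union_le _ _ _))
      fun x _ => (hI j x).imp fun _ k => ⟨mem_nhdsWithin_of_mem_nhds k.1, k.2⟩)
      (lintegral_mono_set fun x hx => ⟨trivial, sb hx⟩))
  exact ⟨F, hF, fun i hi => (RiemH.nrm_ne (isMetric_mulB m3 m4) hF hi trivial).1 h3⟩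

omit [T2Space X] [IsManifold 𝓘(ℂ, Cm d) ω X] in
/-- poles along the coordinate hyperplanes -/
theorem loc_int (hh : IsHermitian h) (hμ : IsVol h μ) {e : Chart d X} (hy : At e y) :
    ∃ V ∈ 𝓝 y, IsOpen V ∧ ∫⁻ x in V, ENNReal.ofReal (1 + ∑ i, ‖e x i‖⁻¹) ∂μ ≠ ⊤ := by
  set g : Fin d → Cm d → ℝ≥0∞ := fun i z => ENNReal.ofReal (‖z i‖ ^ 2) ^ (-(1 / 2 : ℝ))
  have hg : ∀ i, Continuous (g i) := fun i => ENNReal.continuous_rpow_const.comp
    (ENNReal.continuous_ofReal.comp ((continuous_apply i).norm.pow 2))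
  choose V hV hV' using fun i => skl d (fun z => z i) (e y)
    ((ContinuousLinearMap.proj (R := ℂ) (φ := fun _ : Fin d => ℂ) i).analyticAt _) (fun k => by
      simpa using congrArg (fun L : Cm d →L[ℂ] ℂ => L (Pi.single i 1))
        ((hasFDerivAt_apply (𝕜 := ℂ) i (e y)).fderiv.symm.trans k)) (1 / 2) (by norm_num)
  obtain ⟨t, ht, hb⟩ := Metric.eventually_nhds_iff_ball.1 (hy.nhds_target.and
    (((Lm.contAt_det hh hy).eventually (gt_mem_nhds (lt_add_one _))).and (iInter_mem.2 hV)))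
  have hO : IsOpen (e.source ∩ e ⁻¹' ball (e y) t) := e.isOpen_inter_preimage isOpen_ball
  have c : Continuous fun z => 1 + ∑ i, g i z :=
    continuous_const.add (continuous_finsetSum _ fun i _ => hg i)
  refine ⟨_, hO.mem_nhds ⟨hy.2, mem_ball_self ht⟩, hO, ne_top_of_le_ne_top ?_ (lintegral_mono
    (g := fun x => 1 + ∑ i, g i (e x)) fun x => ?_)⟩
  · rw [RiemH.lint hμ hy.1 measurableSet_ball (fun z hz => (hb z hz).1) hO.measurableSet
      (f := fun x => 1 + ∑ i, g i (e x))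
      (c.comp_continuousOn (e.continuousOn.mono inter_subset_left))]
    refine ne_top_of_le_ne_top ?_ (setLIntegral_mono' measurableSet_ball (g := fun z =>
      (1 + ∑ i, g i z) * ENNReal.ofReal ((h e (e y)).det.re + 1)) fun z hz => ?_)
    · rw [lintegral_mul_const' _ _ ENNReal.ofReal_ne_top, lintegral_add_left measurable_const,
        lintegral_finsetSum _ fun i _ => (hg i).measurable, setLIntegral_one]
      exact ENNReal.mul_ne_top (ENNReal.add_ne_top.2 ⟨measure_ball_lt_top.ne, ENNReal.sum_ne_top.2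
        fun i _ => ne_top_of_le_ne_top (hV' i) (lintegral_mono_set fun z hz =>
          mem_iInter.1 (hb z hz).2.2 i)⟩) ENNReal.ofReal_ne_top
    · rw [e.right_inv (hb z hz).1]
      exact mul_le_mul_right (ENNReal.ofReal_le_ofReal (hb z hz).2.1.le) _
  · refine ENNReal.ofReal_add_le.trans (add_le_add ENNReal.ofReal_one.le ?_)
    rw [ENNReal.ofReal_sum_of_nonneg fun i _ => by positivity]
    refine Finset.sum_le_sum fun i _ => ?_
    rcases (norm_nonneg (e x i)).eq_or_lt with k | k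
    · simp [← k]
    · simp only [g]
      rw [ENNReal.ofReal_rpow_of_pos (pow_pos k 2), Real.rpow_neg (by positivity),
        ← Real.sqrt_eq_rpow, Real.sqrt_sq k.le]

end Vale.Agent.P281Z.Lf.Nf
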