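import Vale.Agent.P281Z.Lf.Sk
import Vale.Agent.P281Z.Lf.NefA
import Vale.Agent.P281Z.Hm.Snc
import Vale.Agent.P281Z.Hm.Line
import Vale.Agent.P281Z.Sc.Riem

/-!
# P281Z: the moduli part is nef
-/

open scoped Manifold ContDiff Topology ComplexOrder ENNReal
open Set Filter MeasureTheory
open Vale.Agent.P272.K Vale.Agent.P285.H281.FD
open Vale.Agent.P301.H599 (LineBundle IsMetric curvature ddc curvature_eq)
open Vale.Agent.P301.H98 (nrm)
open Vale.Agent.P277Z.Slc (lin)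
open Vale.Agent.P277Z.Van

noncomputable section

namespace Vale.Agent.P281Z.Lf

namespace Nf

/-- the other language for line bundles -/
def toL {n : ℕ} {X : Type} [TopologicalSpace X] [ChartedSpace (Cm n) X] {L : Bd X}
    (h : IsLB n L) : LineBundle n X L.ι :=
  ⟨L.U, h.isOpen, h.cover, L.g, fun _ _ e _ he hi hj => lb_hol h hi hj e he, h.ne_zero, h.cocycle⟩

theorem lg_cmp {c C a s : ℝ} (hc : 0 < c) (ha : 0 < a) (h1 : c * a ≤ s) (h2 : s ≤ C * a) :
    Real.log c ≤ Real.log s - Real.log a ∧ Real.log s - Real.log a ≤ Real.log C := by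
  have h3 := (mul_pos hc ha).trans_le h1
  have h4 := Real.log_le_log (mul_pos hc ha) h1
  have h5 := Real.log_le_log h3 h2
  rw [Real.log_mul hc.ne' ha.ne'] at h4
  rw [Real.log_mul (pos_of_mul_pos_left (h3.trans_le h2) ha.le).ne' ha.ne'] at h5
  constructor <;> linarith

theorem plog_le {p : ℕ} {Y : Type} [TopologicalSpace Y] [ChartedSpace (Cm p) Y] (S : Hm.Snc p Y)
    (y : Y) : ∀ᶠ x in 𝓝 y, x ∈ S.U → (∀ l, 0 < S.ab y l (chartAt (Cm p) y x)) ∧ ∀ n : ℕ,
      S.plog y (chartAt (Cm p) y x) ^ n ≤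
        (S.r * n).factorial * Real.exp 1 * (1 + ∑ i, ‖chartAt (Cm p) y x i‖⁻¹) := by
  have h1 : ∀ i, ∀ᶠ x in 𝓝 y, i ∈ S.K y → ‖chartAt (Cm p) y x i‖ ≤ 1 := fun i => by
    by_cases hi : i ∈ S.K y
    · exact (((continuous_apply i).continuousAt.comp ((chartAt (Cm p) y).continuousAt
        (mem_chart_source _ y))).norm.eventually (ge_mem_nhds (by
          simp [S.zero_K hi]))).mono fun _ k _ => k
    · exact .of_forall fun _ k => absurd k hi
  filter_upwards [eventually_all.2 h1, S.ev_U y] with x k1 k2 hx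
  set z := chartAt (Cm p) y x
  set J := 1 + ∑ i, ‖z i‖⁻¹
  have k3 : ∀ i, ‖z i‖⁻¹ ≤ ∑ i, ‖z i‖⁻¹ := fun i =>
    Finset.single_le_sum (f := fun i => ‖z i‖⁻¹) (fun _ _ => by positivity) (Finset.mem_univ i)
  have k4 : 1 ≤ J := le_add_of_nonneg_right (by positivity)
  have k5 : ∀ l, 0 < S.ab y l z ∧ S.ab y l z ≤ 1 ∧ (S.ab y l z)⁻¹ ≤ J := fun l => by
    by_cases hl : y ∈ S.G l
    · obtain ⟨i, a, b⟩ := S.exists_lab hl
      rw [S.ab_of_lab hl b]
      exact ⟨norm_pos_iff.2 (k2.1 hx i a), k1 i a, by linarith [k3 i]⟩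
    · rw [S.ab_of_not hl, inv_one]
      exact ⟨one_pos, le_rfl, k4⟩
  refine ⟨fun l => (k5 l).1, fun n => ?_⟩
  have k6 : S.plog y z ≤ (1 + Real.log J) ^ S.r := by
    refine (Finset.prod_le_prod (fun _ _ => by positivity) fun l _ => ?_).trans (le_of_eq
      ((Finset.prod_const (1 + Real.log J)).trans (by simp)))
    rw [abs_of_nonpos (Real.log_nonpos (k5 l).1.le (k5 l).2.1), ← Real.log_inv]
    exact add_le_add_right (Real.log_le_log (inv_pos.2 (k5 l).1) (k5 l).2.2) _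
  have k7 := Real.pow_div_factorial_le_exp (1 + Real.log J)
    (add_nonneg zero_le_one (Real.log_nonneg k4)) (S.r * n)
  rw [div_le_iff₀ (by positivity), Real.exp_add, Real.exp_log (by linarith), pow_mul] at k7
  exact (pow_le_pow_left₀ (Finset.prod_nonneg fun _ _ => by positivity) k6 n).trans
    (k7.trans (le_of_eq (by ring)))

variable {r : ℕ} {D : Zd r}

/-- the canonical section -/
def sg (D : Zd r) (k : Fin D.S.r → ℤ) (i : (lin D.O k).ι) (x : D.Z.X) : ℂ :=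
  ∏ l, D.σ l (i l) x ^ k l

theorem lbO (h : D.Ok) (k : Fin D.S.r → ℤ) : IsLB r (lin D.O k) := lb_lin (fun l => (h.div l).lb) k

theorem σ_ne (h : D.Ok) {l : Fin D.S.r} {i : (D.O l).ι} {x : D.Z.X} (hi : x ∈ (D.O l).U i) :
    D.σ l i x ≠ 0 ↔ x ∉ D.S.G l := not_congr ((h.div l).leq i x hi).1.self_of_nhds

theorem sec_sg (h : D.Ok) (k : Fin D.S.r → ℤ) {Ω : Set D.Z.X}
    (H : ∀ x ∈ Ω, ∀ l, 0 ≤ k l ∨ x ∉ D.S.G l) : SecOn (toL (lbO h k)) Ω (sg D k) where
  holo i e x he hi hx := Finset.analyticAt_fun_prod _ fun l _ => (H x hx l).elim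
    (sec_hol (h.div l).sec (hi l) e he).fun_zpow_nonneg fun a =>
      (sec_hol (h.div l).sec (hi l)).zpow ((σ_ne h (hi l)).2 a) _ e he
  change i j x hi hj _ := (Finset.prod_congr rfl fun l _ => by
    rw [(h.div l).sec.change _ _ x (hi l) (hj l), mul_zpow]).trans Finset.prod_mul_distrib

theorem line (h : Omm D.V) {e : Chart r D.Z.X} {x : D.Z.X} (he : At e x) (hx : x ∈ D.S.U) :
    0 < D.L.hY () x ∧ ContDiffAt ℝ ∞ (fun z => -Real.log (D.L.hY () (e.symm z))) (e x) ∧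
      (ddc (fun y => -Real.log (D.L.hY () y)) e (e x)).PosSemidef := by
  obtain ⟨x, rfl⟩ := D.C.surj x hx
  obtain ⟨σ, h1, h2, -⟩ := h.ex e x he
  have h3 := (h.lift e he.1 σ _ h1).1
  obtain ⟨a1, a2, a3⟩ := Hm.stLine _ _ _ _ _ _ _ (D.V.lv _ σ _ h3) (D.L.ln () _ σ _ h3 trivial)
  have e1 : (fun z => -Real.log (D.L.hY () (e.symm z))) =ᶠ[𝓝 (e (D.C.π x))]
      fun z => -Real.log (Hm.hn (Hm.gH D.V.Q D.V.w (D.V.gr (σ z))) (D.L.ψ () (σ z))) :=
    h1.mono fun z hz => by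
      beta_reduce
      rw [← hz.2.2, h.hY _ D.L () _ trivial]
      rfl
  have s1 := (a1.contDiffAt (n := ∞).log a2.ne').neg
  refine ⟨by rw [h.hY _ D.L () _ trivial, ← h2]; exact a2, s1.congr_of_eventuallyEq e1, ?_⟩
  rw [ddc, C2.cHess_congr e1, P284Z.cHess_psd_iff (s1.of_le (by norm_cast))]
  intro v
  rw [(a3 v).1]
  exact mul_nonneg (by norm_num) (div_nonneg
    (Complex.nonneg_iff.1 ((h.hs _).pos.posSemidef.dotProduct_mulVec_nonneg _)).1 a2.le)

/-- the weight -/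
def wt (h : D.Ok) (ρ : D.M.ι → D.Z.X → ℝ) (x : D.Z.X) : ℝ :=
  D.a * -Real.log (D.L.hY () x) + Real.log (nrm (toL (lbO h D.m)) ρ (sg D D.m) x)

theorem wt_bd (h : D.Ok) (hS : SNCB) {ρ : D.M.ι → D.Z.X → ℝ} (hρ : IsMetric (toL (lbO h D.m)) ρ)
    (y : D.Z.X) : ∃ (K : ℝ) (N : ℕ), ∀ᶠ x in 𝓝 y, x ∈ D.S.U → wt h ρ x ≤ K ∧
      -wt h ρ x ≤ K + N * Real.log (D.S.plog y (chartAt (Cm r) y x)) := by
  obtain ⟨i, hi⟩ := (lbO h D.m).cover y
  choose c C hc H using fun l => (hS r D.Z D.S).2 y l _ ((h.div l).leq _ y (hi l))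
  obtain ⟨c₀, B, N, hc₀, hα⟩ := h.alpha y () trivial
  have he : At (chartAt (Cm r) y) y := ⟨chart_mem_atlas _ y, mem_chart_source _ y⟩
  have cρ : ContinuousAt (ρ i) y := Lm.contAt he.2 (hρ.smooth i _ y he hi).continuousAt
  set K := ∑ l, |2 * (D.m l : ℝ)| * (|Real.log (c l)| + |Real.log (C l)|)
  refine ⟨K + (|ρ i y| + 1) + D.a * (|Real.log c₀| + |Real.log B|), D.a * N, ?_⟩
  filter_upwards [eventually_all.2 H, hα, plog_le D.S y, lb_near (lbO h D.m) hi,
    cρ.abs.eventually (ge_mem_nhds (lt_add_one _))] with x k1 k2 k3 k4 k5 hx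
  set z := chartAt (Cm r) y x
  have b1 := (k3 hx).1
  have b2 : ∀ l, D.σ l (i l) x ≠ 0 := fun l => (σ_ne h (k4 l)).2 (hx l)
  have b3 : 0 < D.S.mon y D.α z := Finset.prod_pos fun l _ => Real.rpow_pos_of_pos (b1 l) _
  have b4 : 0 < D.S.plog y z := Finset.prod_pos fun l _ => by positivity
  have b5 : 0 ≤ Real.log (D.S.plog y z) := Real.log_nonneg
    (Finset.one_le_prod fun l _ => le_add_of_nonneg_right (abs_nonneg _))
  obtain ⟨b6, b7⟩ := lg_cmp (C := B * D.S.plog y z ^ N) hc₀ b3 (k2 hx).1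
    ((k2 hx).2.trans (le_of_eq (by ring)))
  have b8 : 0 < B := pos_of_mul_pos_left (pos_of_mul_pos_left
    (((mul_pos hc₀ b3).trans_le (k2 hx).1).trans_le (k2 hx).2) (pow_pos b4 N).le) b3.le
  rw [Real.log_mul b8.ne' (pow_pos b4 N).ne', Real.log_pow] at b7
  have e1 : wt h ρ x = ∑ l, 2 * (D.m l : ℝ) * (Real.log ‖D.σ l (i l) x‖ - Real.log (D.S.ab y l z)) -
      ρ i x - D.a * (Real.log (D.L.hY () x) - Real.log (D.S.mon y D.α z)) := by
    have e2 : ∀ l, (D.m l : ℝ) = D.a * D.α l := fun l => by exact_mod_cast h.int l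
    rw [wt, RiemH.nrm_on hρ (sec_sg h D.m (Ω := D.S.U) fun _ k l => .inr (k l)) k4 hx, sg,
      Real.log_mul (pow_ne_zero _ (norm_ne_zero_iff.2 (Finset.prod_ne_zero_iff.2 fun l _ =>
        zpow_ne_zero _ (b2 l)))) (Real.exp_pos _).ne', Real.log_exp, Real.log_pow, norm_prod,
      Real.log_prod fun l _ => norm_ne_zero_iff.2 (zpow_ne_zero _ (b2 l)), Hm.Snc.mon,
      Real.log_prod fun l _ => (Real.rpow_pos_of_pos (b1 l) _).ne']
    simp only [norm_zpow, Real.log_zpow, Real.log_rpow (b1 _), mul_sub, Finset.sum_sub_distrib,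
      Finset.mul_sum, e2, mul_assoc, mul_left_comm (D.a : ℝ) 2, Nat.cast_ofNat]
    ring
  have b9 : |∑ l, 2 * (D.m l : ℝ) * (Real.log ‖D.σ l (i l) x‖ - Real.log (D.S.ab y l z))| ≤ K :=
    (Finset.abs_sum_le_sum_abs _ _).trans (Finset.sum_le_sum fun l _ => by
      obtain ⟨d1, d2⟩ := lg_cmp (hc l) (b1 l) (k1 l).1 (k1 l).2
      rw [abs_mul]
      refine mul_le_mul_of_nonneg_left (abs_le.2 ⟨?_, ?_⟩) (abs_nonneg _)
      · linarith [neg_abs_le (Real.log (c l)), abs_nonneg (Real.log (C l))]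
      · linarith [le_abs_self (Real.log (C l)), abs_nonneg (Real.log (c l))])
  have d1 := mul_le_mul_of_nonneg_left (show -(|Real.log c₀| + |Real.log B|) ≤ _ from le_trans
    (by linarith [neg_abs_le (Real.log c₀), abs_nonneg (Real.log B)]) b6) D.a.cast_nonneg
  have d2 := mul_le_mul_of_nonneg_left (b7.trans (show _ ≤ |Real.log c₀| + |Real.log B| +
    N * Real.log (D.S.plog y z) by
      linarith [le_abs_self (Real.log B), abs_nonneg (Real.log c₀)])) D.a.cast_nonneg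
  have d3 := abs_le.1 b9
  have d4 := abs_le.1 (show |ρ i x| ≤ _ from k5)
  rw [e1]
  push_cast
  constructor <;> linarith

end Nf

open Nf in
/-- **NEF** -/
theorem nef_of (h1 : OMM) (h2 : SNCB) : NEF := by
  intro r D h q _
  borelize D.Z.X
  have hO := h1 r D.Z D.S D.C D.n D.V
  obtain ⟨w, hw⟩ := exists_isHermitian (d := r) (X := D.Z.X)
  obtain ⟨μ, hμ⟩ := exists_isVol hw
  obtain ⟨τ, hτ, hA⟩ := h.posA
  have hτ' : IsMetric (toL h.lbA) τ := ⟨hτ.smooth, hτ.change⟩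
  obtain ⟨σ, hσ⟩ := exists_isMetric (toL (lbO h 1))
  obtain ⟨ρ, hρ⟩ := exists_isMetric (toL (lbO h D.m))
  have s1 := sec_sg h 1 (Ω := univ) fun _ _ _ => .inl zero_le_one
  have s2 := sec_sg h D.m (Ω := D.S.U) fun _ k l => .inr (k l)
  have e1 : ∀ x, nrm (toL (lbO h 1)) σ (sg D 1) x ≠ 0 ↔ x ∈ D.S.U := fun x => by
    obtain ⟨i, hi⟩ := (lbO h 1).cover x
    refine (RiemH.nrm_ne hσ s1 hi trivial).trans (Finset.prod_ne_zero_iff.trans ?_)
    simp only [Finset.mem_univ, true_imp_iff, Pi.one_apply, zpow_one, fun l => σ_ne h (hi l)]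
    rfl
  have e2 : ∀ x ∈ D.S.U, nrm (toL (lbO h D.m)) ρ (sg D D.m) x ≠ 0 := fun x hx => by
    obtain ⟨i, hi⟩ := (lbO h D.m).cover x
    exact (RiemH.nrm_ne hρ s2 hi hx).2 (Finset.prod_ne_zero_iff.2 fun l _ =>
      zpow_ne_zero _ ((σ_ne h (hi l)).2 (hx l)))
  have s3 : SmOn (d := r) D.S.U fun x => -Real.log (D.L.hY () x) := fun e x he hx =>
    (line hO he hx).2.1
  have s4 : SmOn (d := r) D.S.U fun x => Real.log (nrm (toL (lbO h D.m)) ρ (sg D D.m) x) :=
    (s2.toSc.smOn hρ D.S.isOpen_U).comp fun x hx => Real.contDiffAt_log.2 (e2 x hx)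
  obtain ⟨k, hk, H⟩ := main (U := D.S.U) (Ψ := wt h ρ) hw hμ hτ' (fun e x he _ => by
      obtain ⟨i, hi⟩ := h.lbA.cover x
      rw [curvature_eq hτ' he hi]
      exact hA i e x he hi)
    (fun y => (h.bpf y).imp fun s k => ⟨⟨fun i e x he hi _ => sec_hol k.1 hi e he,
      fun i j x hi hj _ => k.1.change i j x hi hj⟩, k.2⟩) hσ s1
    (fun x => ((Hyp.of_snc (h2 r D.Z D.S).1).freq x).mono fun y k => (e1 y).2 k)
    (fun x => (e1 x).1) hρ (((smOn_const _ _).mul s3).add s4) (fun e x he hx => by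
      have e3 : ddc (wt h ρ) e (e x) = _ := ddc_add_on ((smOn_const _ _).mul s3) s4 he hx
      beta_reduce
      rw [e3, ddc_mul_on _ s3 he hx, ddc_log_nrm hρ D.S.isOpen_U s2 he hx (e2 x hx), add_comm,
        neg_add_cancel_right]
      exact P285Z.psd_smul (line hO he hx).2.2 D.a.cast_nonneg)
    (fun y => (wt_bd h h2 hρ y).imp fun K k => k.elim fun _ k => k.mono fun _ k a => (k a).1)
    fun j y => by
      obtain ⟨K, N, k1⟩ := wt_bd h h2 hρ y
      obtain ⟨V, k2, k3, k4⟩ := loc_int hw hμ (RiemH.at_self (d := r) y)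
      obtain ⟨V', k5, k6, k7⟩ := mem_nhds_iff.1 (k1.and (plog_le D.S y))
      refine ⟨V ∩ V', inter_mem k2 (k6.mem_nhds k7), ne_top_of_le_ne_top (ENNReal.mul_ne_top
        (ENNReal.ofReal_ne_top (r := Real.exp (j * K) * ((D.S.r * (j * N)).factorial * Real.exp 1)))
        k4) (le_trans (setLIntegral_mono' ((k3.inter k6).inter D.S.isOpen_U).measurableSet
          fun x hx => ?_) ((lintegral_const_mul' _ _ ENNReal.ofReal_ne_top).le.trans
            (mul_le_mul_right (lintegral_mono_set fun x hx => hx.1.1) _)))⟩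
      have b4 : 0 < D.S.plog y (chartAt (Cm r) y x) := Finset.prod_pos fun l _ => by positivity
      rw [← ENNReal.ofReal_mul (by positivity), mul_assoc]
      refine ENNReal.ofReal_le_ofReal (le_trans ?_ (mul_le_mul_of_nonneg_left
        (((k5 hx.1.2).2 hx.2).2 _) (Real.exp_pos _).le))
      rw [← Real.exp_log (pow_pos b4 _), ← Real.exp_add, Real.log_pow]
      have := mul_le_mul_of_nonneg_left ((k5 hx.1.2).1 hx.2).2 (Nat.cast_nonneg (α := ℝ) j)
      push_cast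
      exact Real.exp_le_exp.2 (by linarith)
  exact ⟨k, hk, fun y => (H (q * k) y).imp fun F k => ⟨isSec_of
    (fun i x hi e he => k.1.holo i e x he hi trivial) fun i j x hi hj => k.1.change i j x hi hj trivial,
    k.2⟩⟩

end Vale.Agent.P281Z.Lf
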