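import Vale.Agent.P281Z.Lf.Sk
import Vale.Agent.P281Z.Mf.Mod
import Vale.Agent.P281Z.Sc.Bd

/-!
# P281Z, the base of the variation: the output
-/

open scoped Manifold ContDiff Topology ComplexOrder
open Set Filter Asymptotics
open Vale.Agent.P272.K Vale.Agent.P285.H281.FD
open Vale.Agent.P277Z (Hol Mer Nz gen hol_const gen_of_nhds gen_of_open nz_of_gen)
open Vale.Agent.P277Z.Slc (lin LEq IsDiv)
open Vale.Agent.P281Z.Hm (Cv GV Ln hn gH)

noncomputable section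

namespace Vale.Agent.P281Z.Lf

namespace Outp

theorem log_bd (k : ℕ) {ε : ℝ} (hε : 0 < ε) (T : ℝ) :
    ∃ C : ℝ, ∀ t, 0 < t → t ≤ T → (1 + |Real.log t|) ^ k * t ^ ε ≤ C := by
  obtain ⟨δ, hδ, rfl⟩ : ∃ δ : ℝ, 0 < δ ∧ ε = δ * (k + 1 : ℕ) :=
    ⟨ε / (k + 1 : ℕ), by positivity, (div_mul_cancel₀ _ (by positivity)).symm⟩
  refine ⟨(T ^ δ + (1 / δ + T * T ^ δ)) ^ (k + 1), fun t h0 h1 => ?_⟩
  have h2 : t ^ δ ≤ T ^ δ := Real.rpow_le_rpow h0.le h1 hδ.le
  have h3 : 0 ≤ t ^ δ := by positivity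
  have h4 : |Real.log t| * t ^ δ ≤ 1 / δ + T * T ^ δ := by
    rcases le_total t 1 with h | h
    · have := Real.abs_log_mul_self_rpow_lt t δ h0 h hδ
      rw [abs_mul, abs_of_nonneg h3] at this
      exact this.le.trans (le_add_of_nonneg_right (mul_nonneg (h0.le.trans h1) (h3.trans h2)))
    · rw [abs_of_nonneg (Real.log_nonneg h)]
      exact (mul_le_mul ((Real.log_le_self h0.le).trans h1) h2 h3 (h0.le.trans h1)).trans
        (le_add_of_nonneg_left (by positivity))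
  rw [Real.rpow_mul_natCast h0.le]
  calc _ ≤ (1 + |Real.log t|) ^ (k + 1) * (t ^ δ) ^ (k + 1) :=
        mul_le_mul_of_nonneg_right (pow_le_pow_right₀ (le_add_of_nonneg_right (abs_nonneg _))
          k.le_succ) (by positivity)
    _ ≤ _ := by
        rw [← mul_pow, add_mul, one_mul]
        exact pow_le_pow_left₀ (by positivity) (add_le_add h2 h4) _

theorem core {X κ : Type} [Fintype κ] {F : Filter X} {ab : κ → X → ℝ} {s : κ → X → ℂ} {h : X → ℝ}
    {α : κ → ℚ} {m : κ → ℤ} {a : ℕ} (hm : ∀ l, (m l : ℚ) = a * α l) (h0 : ∀ l x, 0 ≤ ab l x)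
    (h1 : ∀ l, ∃ c C : ℝ, 0 < c ∧ ∀ᶠ x in F, c * ab l x ≤ ‖s l x‖ ∧ ‖s l x‖ ≤ C * ab l x)
    (h2 : ∀ l, ∀ᶠ x in F, s l x ≠ 0) (h3 : ∀ l, ∃ T, ∀ᶠ x in F, ‖s l x‖ ≤ T) {c B : ℝ} {N : ℕ}
    (hc : 0 < c) (h4 : ∀ᶠ x in F, c * ∏ l, ab l x ^ (2 * (α l : ℝ)) ≤ h x ∧
      h x ≤ B * (∏ l, ab l x ^ (2 * (α l : ℝ))) * (∏ l, (1 + |Real.log (ab l x)|)) ^ N) :
    (∃ c : ℝ, 0 < c ∧ ∀ᶠ x in F, c ≤ h x ^ a / ‖∏ l, s l x ^ m l‖ ^ 2) ∧ ∀ ε : ℝ, 0 < ε →
      ∃ C : ℝ, ∀ᶠ x in F, h x ^ a / ‖∏ l, s l x ^ m l‖ ^ 2 * ‖∏ l, s l x‖ ^ ε ≤ C := by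
  have t1 : ∀ l, ab l =Θ[F] s l := fun l => by
    obtain ⟨c, C, k1, k2⟩ := h1 l
    refine ⟨.of_bound c⁻¹ (k2.mono fun x k => ?_), .of_bound C (k2.mono fun x k => ?_)⟩ <;>
      rw [Real.norm_of_nonneg (h0 l x)]
    exacts [(le_inv_mul_iff₀ k1).2 k.1, k.2]
  have t2 := ((IsTheta.finsetProd (s := Finset.univ) fun l _ => (t1 l).zpow (m l)).pow 2).norm_right
  have e : ∀ x, (∏ l, ab l x ^ (2 * (α l : ℝ))) ^ a = (∏ l, ab l x ^ m l) ^ 2 := fun x => by
    rw [← Finset.prod_pow, ← Finset.prod_pow]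
    refine Finset.prod_congr rfl fun l _ => ?_
    have : (m l : ℝ) = a * α l := by exact_mod_cast hm l
    rw [← Real.rpow_mul_natCast (h0 l x), ← Real.rpow_intCast, ← Real.rpow_mul_natCast (h0 l x),
      this]
    exact congrArg _ (by push_cast; ring)
  have p0 : ∀ x, 0 ≤ ∏ l, ab l x ^ (2 * (α l : ℝ)) := fun x =>
    Finset.prod_nonneg fun l _ => Real.rpow_nonneg (h0 l x) _
  have n0 : ∀ᶠ x in F, 0 < ‖∏ l, s l x ^ m l‖ ^ 2 := (eventually_all.2 h2).mono fun x k =>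
    pow_pos (norm_pos_iff.2 (Finset.prod_ne_zero_iff.2 fun l _ => zpow_ne_zero _ (k l))) 2
  simp only [norm_pow] at t2
  refine ⟨?_, fun ε hε => ?_⟩
  · obtain ⟨K, hK, k⟩ := t2.symm.isBigO.exists_pos
    refine ⟨c ^ a / K, by positivity, ?_⟩
    filter_upwards [k.bound, n0, h4] with x k1 k2 k3
    rw [Real.norm_of_nonneg k2.le, Real.norm_of_nonneg (sq_nonneg _), ← e] at k1
    rw [div_le_div_iff₀ hK k2]
    refine (mul_le_mul_of_nonneg_left k1 (by positivity)).trans ?_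
    rw [mul_left_comm, ← mul_pow, mul_comm]
    exact mul_le_mul_of_nonneg_right (pow_le_pow_left₀ (mul_nonneg hc.le (p0 x)) k3.1 a) hK.le
  have u1 : h =O[F] fun x => (∏ l, ab l x ^ (2 * (α l : ℝ))) *
      (∏ l, (1 + |Real.log (ab l x)|)) ^ N := .of_bound B (h4.mono fun x k => by
    rw [Real.norm_of_nonneg ((mul_nonneg hc.le (p0 x)).trans k.1), Real.norm_of_nonneg
      (mul_nonneg (p0 x) (by positivity)), ← mul_assoc]
    exact k.2)
  have u2 := u1.pow a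
  simp only [mul_pow, e] at u2
  have u3 : ∀ l, (fun x => (1 + |Real.log (ab l x)|) ^ (N * a) * ‖s l x‖ ^ ε) =O[F]
      fun _ => (1 : ℝ) := fun l => by
    obtain ⟨T, hT⟩ := h3 l
    obtain ⟨c, C, k1, k2⟩ := h1 l
    obtain ⟨D, hD⟩ := log_bd (N * a) hε (c⁻¹ * T)
    refine ((isBigO_refl _ _).mul ((t1 l).symm.isBigO.norm_left.rpow hε.le
      (.of_forall (h0 l)))).trans (.of_bound D ?_)
    filter_upwards [hT, k2, h2 l] with x q1 q2 q3
    rw [norm_one, mul_one, Real.norm_of_nonneg (mul_nonneg (by positivity)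
      (Real.rpow_nonneg (h0 l x) _))]
    refine hD _ ((h0 l x).lt_of_ne fun q => q3 (norm_le_zero_iff.1 ?_))
      ((le_inv_mul_iff₀ k1).2 (q2.1.trans q1))
    simpa only [← q, mul_zero] using q2.2
  have u4 := IsBigO.finsetProd (s := Finset.univ) fun l _ => u3 l
  have u5 := (u2.trans (t2.isBigO.mul (isBigO_refl _ _))).mul
    (isBigO_refl (fun x => (‖∏ l, s l x ^ m l‖ ^ 2)⁻¹ * ‖∏ l, s l x‖ ^ ε) F)
  obtain ⟨C, hC⟩ := ((u5.congr' .rfl (n0.mono fun x k => by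
    dsimp only
    rw [mul_mul_mul_comm, mul_inv_cancel₀ k.ne', one_mul, Finset.prod_mul_distrib, ← pow_mul,
      Finset.prod_pow, norm_prod, Real.finsetProd_rpow _ _ fun _ _ => norm_nonneg _])).trans
    u4).bound
  refine ⟨C, hC.mono fun x k => ?_⟩
  rw [Finset.prod_const_one, norm_one, mul_one] at k
  rw [div_eq_mul_inv, mul_assoc]
  exact (le_abs_self _).trans k

section mer

variable {n : ℕ} {X : Type} [TopologicalSpace X] [ChartedSpace (Cm n) X]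
  [IsManifold 𝓘(ℂ, Cm n) ω X] {a b : X → ℂ} {x : X}

omit [IsManifold 𝓘(ℂ, Cm n) ω X] in
theorem mer_hol (ha : Hol n a x) : Mer n a x :=
  ⟨a, fun _ => 1, ha, hol_const 1 x, fun h => one_ne_zero h.self_of_nhds,
    .of_forall fun _ => mul_one _⟩

theorem mer_mul (ha : Mer n a x) (hb : Mer n b x) : Mer n (fun y => a y * b y) x :=
  let ⟨u, v, h1, h2, h3, h4⟩ := ha
  let ⟨u', v', k1, k2, k3, k4⟩ := hb
  ⟨fun y => u y * u' y, fun y => v y * v' y, h1.mul k1, h2.mul k2, Nz.mul h2 k2 h3 k3,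
    (h4.and k4).mono fun _ k => by dsimp only; rw [← k.1, ← k.2]; ring⟩

theorem mer_prod {κ : Type} (s : Finset κ) {f : κ → X → ℂ} (h : ∀ l, Mer n (f l) x) :
    Mer n (fun y => ∏ l ∈ s, f l y) x := by
  classical
  induction s using Finset.induction_on with
  | empty => simpa only [Finset.prod_empty] using mer_hol (hol_const 1 x)
  | insert l s hl ih => simpa only [Finset.prod_insert hl] using mer_mul (h l) ih

theorem mer_pow (ha : Mer n a x) (k : ℕ) : Mer n (fun y => a y ^ k) x := by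
  simpa using mer_prod (Finset.range k) fun _ => ha

theorem mer_zpow (ha : Hol n a x) (h : Nz a x) (k : ℤ) : Mer n (fun y => a y ^ k) x := by
  cases k with
  | ofNat k => simpa using mer_hol (ha.pow k)
  | negSucc k =>
    have h1 := (h.gen ha).mono fun y hy => pow_ne_zero (k + 1) hy
    exact ⟨fun _ => 1, _, hol_const 1 x, ha.pow (k + 1), nz_of_gen h1,
      h1.mono fun y hy => (congrArg (· * _) (zpow_negSucc _ k)).trans (inv_mul_cancel₀ hy)⟩

variable {Y : Type} [TopologicalSpace Y] [ChartedSpace (Cm n) Y] [IsManifold 𝓘(ℂ, Cm n) ω Y]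
  {u : Y → X} {B : Set X} {y : Y}

theorem gen_pull (h : Modif n u B) {P : X → Prop} (k : ∀ᶠ z in gen {u y}, P z) :
    ∀ᶠ x in gen {y}, P (u x) := by
  obtain ⟨O, h1, h2, h3⟩ := k
  have c := h.hol.cont
  refine gen_of_open ((c.continuousAt.eventually (h1.eventually_mem (h2 rfl))).eventually_nhds.mono
    fun z hz => ?_)
  refine frequently_frequently_nhds.1 (((h.thin_pre.freq z).and_eventually hz).mono fun w hw => ?_)
  exact ((h.sbm hw.1).freq (h.hol.at w) (mem_closure_iff_frequently.1 (h3 hw.2))).mono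
    fun _ k => c.continuousAt.eventually (mem_interior_iff_mem_nhds.1 k)

theorem mer_pull (h : Modif n u B) (ha : Mer n a (u y)) : Mer n (fun x => a (u x)) y :=
  let ⟨_, _, h1, h2, h3, h4⟩ := ha
  ⟨_, _, h.hol.hol h1, h.hol.hol h2, nz_of_gen (gen_pull h (Nz.gen h3 h2)), gen_pull h h4⟩

end mer

end Outp

open Outp

theorem out_of (omm : OMM) (_ : MON) (sncb : SNCB) : OUT := by
  intro p W S C n _ _ V l L r u a q B V₁ Ψ F D α a' m O σ A hL hT ok nef theta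
  have hd : ∀ k, IsDiv r (F.S.G k) (O k) (σ k) := ok.div
  have hB : ∀ y ∈ off F.G, F.μ y ∉ F.B := fun y hy k => ((F.bad y).1 k).elim hy
  have hB' : ∀ y ∈ off F.G, F.μ y ∉ B := fun y hy k => hB y hy (F.sub k)
  have hQ := snc_thin_off F.snc
  have hl : ∀ {j : (lin O m).ι} {z}, z ∈ (lin O m).U j → ∀ k, LEq r (F.S.G k) z (σ k (j k)) :=
    fun hz k => (hd k).leq _ _ (hz k)
  have hσ : ∀ {j : (lin O m).ι} {y}, F.γ y ∈ (lin O m).U j → y ∈ off F.G → ∀ k,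
      σ k (j k) (F.γ y) ≠ 0 := fun hz hy k h0 => F.pre _ hy k ((hl hz k).1.self_of_nhds.1 h0)
  have hM := lb_lin (fun k => (hd k).lb) m
  have hh : ∀ {j : (lin O m).ι} {y}, F.γ y ∈ (lin O m).U j → ∀ k,
      Hol p (fun x => σ k (j k) (F.γ x)) y := fun hz k => F.hol.hol (hl hz k).hol
  have hg : ∀ {j : (lin O m).ι} {y}, F.γ y ∈ (lin O m).U j → ∀ᶠ x in gen {y}, ∀ k,
      σ k (j k) (F.γ x) ≠ 0 := fun {j y} hz => by
    filter_upwards [hQ.gen y, gen_of_nhds (F.hol.cont.continuousAt.eventually (lb_near hM hz))]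
      with x k1 k2 using hσ k2 (not_not.1 k1)
  refine ⟨⟨F.W', F.μ, F.B, r, F.Z, F.γ, lin O m, A, a * a', (off F.G)ᶜ,
    fun i j y => q i (F.μ y) ^ a' * ∏ k, σ k (j k) (F.γ y) ^ (-m k), F.modif, F.kah, F.hol, F.surj,
    hM, ok.lbA, ok.posA, nef, theta, mul_pos hL.pos ok.pos, hQ,
    fun y hy => hL.sub (hB' y (not_not.1 hy)), fun i j y h1 h2 h3 => ?_, fun i j y h1 h2 => ?_,
    fun i i' j j' y h1 h1' h2 h2' h3 => ?_, fun i j y h1 h2 => ?_⟩⟩
  · have k := hL.qhol i _ h1 (hB' y (not_not.1 h3))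
    have k' := hσ h2 (not_not.1 h3)
    exact ⟨((F.modif.hol.hol k.1).pow _).mul (.prod _ fun t _ => (hh h2 t).zpow (k' t) _),
      mul_ne_zero (pow_ne_zero _ k.2) (Finset.prod_ne_zero_iff.2 fun t _ => zpow_ne_zero _ (k' t))⟩
  · exact mer_mul (mer_pow (mer_pull F.modif (hL.qmer i _ h1)) _) (mer_prod _ fun t =>
      mer_zpow (hh h2 t) (nz_of_gen ((hg h2).mono fun _ k => k t)) _)
  · show _ * ∏ k, (O k).g (j k) (j' k) (F.γ y) ^ m k = _
    rw [hL.qchg i i' _ h1 h1' (hB' y (not_not.1 h3)), mul_pow, ← pow_mul, mul_assoc, mul_assoc,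
      ← Finset.prod_mul_distrib]
    refine congrArg (fun t => _ * (_ * t)) (Finset.prod_congr rfl fun k _ => ?_)
    rw [(hd k).sec.change _ _ _ (h2 k) (h2' k), mul_zpow, mul_right_comm, ← zpow_add₀
      ((hd k).lb.ne_zero _ _ _ (h2 k) (h2' k)), neg_add_cancel, zpow_zero, one_mul]
  obtain ⟨c, B', N, hc, hα⟩ := ok.alpha (F.γ y) () trivial
  obtain ⟨⟨c', k1, k2⟩, k3⟩ := core (F := 𝓝 (F.γ y) ⊓ 𝓟 F.S.U) (h := D.L'.hY ())
    (ab := fun k z => F.S.ab (F.γ y) k (chartAt (Cm r) (F.γ y) z)) (s := fun k => σ k (j k)) ok.int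
    (fun k z => by
      unfold Hm.Snc.ab
      split_ifs
      · cases F.S.lab (F.γ y) k
        exacts [zero_le_one, norm_nonneg _]
      · exact zero_le_one)
    (fun k => ((sncb r F.Z F.S).2 _ k _ (hl h2 k)).imp fun _ => Exists.imp fun _ =>
      And.imp_right fun h => h.filter_mono inf_le_left)
    (fun k => eventually_inf_principal.2 ((hl h2 k).1.mono fun z h hz h0 => hz k (h.1 h0)))
    (fun k => ⟨_, ((hl h2 k).hol.cont.norm.eventually_le_const (lt_add_one _)).filter_mono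
      inf_le_left⟩) hc (eventually_inf_principal.2 hα)
  have e : ∀ᶠ x in 𝓝 y, x ∉ (off F.G)ᶜ → F.γ x ∈ F.S.U ∧
      ‖q i (F.μ x) ^ a' * ∏ k, σ k (j k) (F.γ x) ^ (-m k)‖ ^ 2 * L.hY i (F.μ x) ^ (a * a') =
      D.L'.hY () (F.γ x) ^ a' / ‖∏ k, σ k (j k) (F.γ x) ^ m k‖ ^ 2 := by
    filter_upwards [F.modif.hol.cont.continuousAt.eventually (lb_near L.lb h1)] with x hx hx'
    have hx' := not_not.1 hx'
    obtain ⟨w, hw⟩ := C.surj _ (hL.sub (hB' x hx'))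
    have b := hw ▸ hB x hx'
    refine ⟨F.pre x hx', ?_⟩
    rw [← D.π w x hw.symm b, (omm r F.Z F.S D.C' _ D.V').hY _ D.L' () _ trivial]
    unfold Hm.Ln.h
    rw [D.Q, D.w, D.gr w b, D.ψ () w b, hT.nrm i w (hw ▸ hx) (hw ▸ hB' x hx'), hw]
    simp only [zpow_neg, Finset.prod_inv_distrib, norm_mul, norm_inv, norm_pow]
    ring
  have c := F.hol.cont.continuousAt (x := y)
  refine ⟨c', fun x => ∏ k, σ k (j k) (F.γ x), k1, .prod _ fun t _ => hh h2 t, nz_of_gen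
    ((hg h2).mono fun _ k => Finset.prod_ne_zero_iff.2 fun t _ => k t), ?_, fun ε hε =>
    (k3 ε hε).imp fun K hK => ?_⟩
  · filter_upwards [e, c.eventually (eventually_inf_principal.1 k2)] with x q1 q2 hx
    exact (q1 hx).2 ▸ q2 (q1 hx).1
  · filter_upwards [e, c.eventually (eventually_inf_principal.1 hK)] with x q1 q2 hx
    exact (q1 hx).2 ▸ q2 (q1 hx).1

end Vale.Agent.P281Z.Lf
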