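import Vale.Agent.P281Z.Lf.Sk
import Vale.Agent.P284.H619.K.AlgD
import Mathlib.Analysis.Calculus.DifferentialForm.Basic

/-!
# P281Z, leaves: closed forms in the kernel of the curvature (row PAR)
-/

open scoped Topology ComplexConjugate ComplexOrder Matrix
open Filter Function
open Vale.Agent.P272.K
open Vale.Agent.P284.H608.K (Af Ad dhL dzV)
open Vale.Agent.P284.H619.K (tL pv pv_tL wd_eq_zero eq_det sq_posSemidef)
open ContinuousAlternatingMap (alternatizeUncurryFin alternatizeUncurryFin_apply)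

noncomputable section

namespace Vale.Agent.P281Z.Lf

namespace ParH

variable {n r : ℕ} {T : Cm n →L[ℂ] Cm r}

theorem detF_apply (T : Cm n →L[ℂ] Cm r) (v : Fin r → Cm n) :
    (detF r).compContinuousLinearMap T v = (Matrix.of fun i l => pv (tL T l) (v i)).det := by
  simp only [pv_tL]
  rfl

theorem dual (h : Surjective T) : ∃ ξ : Fin r → Cm n,
    (∀ l j, pv (tL T l) (ξ j) = if l = j then 1 else 0) ∧
      (detF r).compContinuousLinearMap T ξ = 1 := by
  choose ξ hξ using fun j : Fin r => h (Pi.single j 1)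
  have h1 : ∀ l j, pv (tL T l) (ξ j) = if l = j then 1 else 0 := fun l j => by
    rw [pv_tL, hξ, Pi.single_apply]
  refine ⟨ξ, h1, ?_⟩
  rw [detF_apply, ← Matrix.det_one (n := Fin r)]
  congr 1
  ext i l
  rw [Matrix.of_apply, h1, Matrix.one_apply]
  exact if_congr eq_comm rfl rfl

theorem psd {Θ : Matrix (Fin n) (Fin n) ℂ} {ε : ℝ} (hΘ : Θ.IsHermitian) (hε : 0 < ε)
    (h : ∀ v, ε * ‖T v‖ ^ 2 ≤ qd Θ v) :
    (Θ - ((ε / (r + 1) : ℝ) : ℂ) • P284.H619.K.sq (tL T)).PosSemidef := by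
  have h0 := hΘ.sub ((sq_posSemidef (tL T)).smul
    (Complex.zero_le_real.2 (by positivity : 0 ≤ ε / (r + 1)))).1
  refine .of_dotProduct_mulVec_nonneg h0 fun x => Complex.le_def.2
    ⟨?_, (h0.im_star_dotProduct_mulVec_self x).symm⟩
  have h1 : star x ⬝ᵥ P284.H619.K.sq (tL T) *ᵥ x = ∑ l, ((‖T (star x) l‖ ^ 2 : ℝ) : ℂ) := by
    simp only [← Complex.normSq_eq_norm_sq, ← Complex.mul_conj, ← pv_tL, dotProduct,
      Matrix.mulVec, P284.H619.K.sq, Matrix.of_apply, pv, map_sum, map_mul,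
      Pi.star_apply, RCLike.star_def, Complex.conj_conj, Finset.sum_mul, Finset.mul_sum]
    rw [Finset.sum_congr rfl fun c _ => Finset.sum_comm, Finset.sum_comm]
    refine Finset.sum_congr rfl fun l _ => Finset.sum_comm.trans ?_
    exact Finset.sum_congr rfl fun _ _ => Finset.sum_congr rfl fun _ _ => by ring
  have h2 : (star x ⬝ᵥ Θ *ᵥ x).re = qd Θ (star x) := by
    simp only [qd, dotProduct, Matrix.mulVec, Finset.mul_sum, Pi.star_apply, RCLike.star_def,
      Complex.conj_conj]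
    exact congrArg _ (Finset.sum_congr rfl fun _ _ => Finset.sum_congr rfl fun _ _ => by ring)
  have h3 : ∑ l, ‖T (star x) l‖ ^ 2 ≤ (r + 1) * ‖T (star x)‖ ^ 2 := by
    refine (Finset.sum_le_sum fun l _ => pow_le_pow_left₀ (norm_nonneg _)
      (norm_le_pi_norm _ l) 2).trans ?_
    simp only [Finset.sum_const, Finset.card_univ, Fintype.card_fin, nsmul_eq_mul]
    nlinarith [sq_nonneg ‖T (star x)‖]
  rw [Matrix.sub_mulVec, dotProduct_sub, Matrix.smul_mulVec, dotProduct_smul, h1, smul_eq_mul,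
    ← Complex.ofReal_sum, ← Complex.ofReal_mul, Complex.sub_re, Complex.ofReal_re, h2,
    Complex.zero_re, sub_nonneg]
  refine le_trans ?_ (h _)
  rw [div_mul_eq_mul_div, div_le_iff₀ (by positivity), mul_assoc, mul_comm _ (r + 1 : ℝ)]
  exact mul_le_mul_of_nonneg_left h3 hε.le

variable {X : Cm n → Cm r} {z : Cm n}

theorem dX_an (hX : AnalyticAt ℂ X z) (ξ : Fin r → Cm n) : AnalyticAt ℂ (fun y => dX X y ξ) z := by
  have e : (fun y => dX X y ξ) = fun y => ∑ σ : Equiv.Perm (Fin r),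
      ((Equiv.Perm.sign σ : ℤ) : ℂ) * ∏ i, fderiv ℂ X y (ξ (σ i)) i :=
    funext fun y => Matrix.det_apply' (Matrix.of fun i l => fderiv ℂ X y (ξ i) l)
  rw [e]
  exact Finset.analyticAt_fun_sum _ fun σ _ => analyticAt_const.mul
    (Finset.analyticAt_fun_prod _ fun i _ => analyticAt_pi_iff.1
      (((ContinuousLinearMap.apply ℂ (Cm r) (ξ (σ i))).analyticAt _).comp hX.fderiv) i)

theorem dhL_apply {k : ℕ} {b : Cm n → Af n k} (hb : DifferentiableAt ℂ b z) (φ : Cm n → ℝ)
    (u : Fin (k + 1) → Cm n) : dhL φ b z u = ∑ i : Fin (k + 1), (-1 : ℤ) ^ i.val •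
      (fderiv ℂ b z (u i) (i.removeNth u) - dv φ z (u i) * b z (i.removeNth u)) := by
  have h1 : ∀ a, dzV a b z = fderiv ℂ b z (Pi.single a 1) := fun a => by
    have h2 : (Pi.single a Complex.I : Cm n) = Complex.I • (Pi.single a 1 : Cm n) := by
      rw [← Pi.single_smul, smul_eq_mul, mul_one]
    rw [dzV, hb.fderiv_restrictScalars ℝ, h2]
    simp only [ContinuousLinearMap.coe_restrictScalars', map_smul, smul_smul, Complex.I_mul_I]
    module
  rw [dhL, alternatizeUncurryFin_apply]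
  refine Finset.sum_congr rfl fun i _ => congrArg _ ?_
  conv_rhs => rw [pi_eq_sum_univ' (u i), map_sum, ← pi_eq_sum_univ' (u i)]
  simp only [h1, _root_.sum_apply, ContinuousLinearMap.smulRight_apply, map_smul,
    ContinuousLinearMap.proj_apply, ContinuousAlternatingMap.sum_apply, dv, Finset.sum_mul,
    ContinuousAlternatingMap.smul_apply, ContinuousAlternatingMap.sub_apply, smul_eq_mul,
    ← Finset.sum_sub_distrib]
  exact Finset.sum_congr rfl fun _ _ => by ring

theorem flat (hX : AnalyticAt ℂ X z) {ξ : Fin r → Cm n} (h1 : dX X z ξ = 1) {b : Cm n → Af n r}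
    (hb : AnalyticAt ℂ b z) {f : Cm n → ℂ} (h3 : AnalyticAt ℂ f z)
    (h4 : b =ᶠ[𝓝 z] fun y => f y • dX X y) {φ : Cm n → ℝ} (h0 : dhL φ b z = 0) {v : Cm n}
    (hv : fderiv ℂ X z v = 0) : fderiv ℂ f z v = f z * dv φ z v := by
  have h5 : DifferentiableAt ℂ (dX X) z := ((hasFDerivAt_const (detF r) z
    ).continuousAlternatingMapCompContinuousLinearMap
      hX.fderiv.differentiableAt.hasFDerivAt).differentiableAt
  have h6 : extDeriv (dX X) z (Matrix.vecCons v ξ) = 0 := by
    refine (DFunLike.congr_fun (extDeriv_pullback (ω := fun _ => detF r) (r := 2)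
      (differentiableAt_const _) hX.contDiffAt (by simp)) _).trans ?_
    simp [extDeriv, alternatizeUncurryFin_apply]
  have h7 := (DFunLike.congr_fun h0 (Matrix.vecCons v ξ)).symm.trans
    (dhL_apply hb.differentiableAt φ _)
  have h8 : ∀ i : Fin r, dX X z (i.succ.removeNth (Matrix.vecCons v ξ)) = 0 := fun i => by
    cases r with
    | zero => exact i.elim0
    | succ r => exact (detF (r + 1)).map_coord_zero 0 hv
  have h9 : dX X z ((0 : Fin (r + 1)).removeNth (Matrix.vecCons v ξ)) = 1 := h1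
  rw [extDeriv, alternatizeUncurryFin_apply] at h6
  rw [h4.fderiv_eq, fderiv_fun_smul h3.differentiableAt h5, h4.self_of_nhds] at h7
  simp only [_root_.add_apply, _root_.smul_apply, ContinuousLinearMap.smulRight_apply,
    ContinuousAlternatingMap.add_apply, ContinuousAlternatingMap.smul_apply, smul_eq_mul,
    add_sub_assoc, smul_add, Finset.sum_add_distrib, ← mul_smul_comm, ← Finset.mul_sum, h6] at h7
  rw [Fin.sum_univ_succ] at h7
  simp only [h8, h9] at h7
  simp at h7
  linear_combination -h7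

end ParH

open ParH in
/-- row PAR -/
theorem par : PAR := by
  refine ⟨fun n r w Θ b T ε hw hΘ h0 hT hε h => ?_, fun n r X b φ z hX hs hb h h0 => ?_⟩
  · obtain ⟨ξ, h1, -⟩ := dual hT
    refine ⟨b ξ, ?_⟩
    ext v
    rw [eq_det (wd_eq_zero hw (by positivity) (psd hΘ hε h) (by rw [h0]; exact le_rfl)) h1 v,
      ContinuousAlternatingMap.smul_apply, detF_apply, smul_eq_mul]
  obtain ⟨ξ, -, h1⟩ := dual hs
  replace h1 : dX X z ξ = 1 := h1
  have h2 : dX X z ξ ≠ 0 := h1 ▸ one_ne_zero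
  have h3 : AnalyticAt ℂ (fun y => b y ξ / dX X y ξ) z :=
    (((ContinuousAlternatingMap.apply ℂ (Cm n) ℂ ξ).analyticAt _).comp hb).div (dX_an hX ξ) h2
  have h4 : ∀ᶠ y in 𝓝 z, b y = (b y ξ / dX X y ξ) • dX X y := by
    filter_upwards [h, (dX_an hX ξ).continuousAt.eventually_ne h2] with y ⟨c, hc⟩ hy
    rw [hc, ContinuousAlternatingMap.smul_apply, smul_eq_mul, mul_div_cancel_right₀ _ hy]
  exact ⟨fun e => h2 (by rw [e]; rfl), _, h3, h4, fun v => flat hX h1 hb h3 h4 h0⟩

end Vale.Agent.P281Z.Lf
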