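import Vale.Agent.P281Z.Hm.MCalc

/-!
# P281Z, the potential of the Poincare metric: local estimates
-/

open scoped Topology ComplexConjugate ContDiff
open Set Filter Complex
open Vale.Agent.P284Z (levi)

noncomputable section

namespace Vale.Agent.P281Z.Lf.PotH

open Hm

variable {p : ℕ} {z : Fin p → ℂ} {f g t : (Fin p → ℂ) → ℝ}

theorem ev_le {F : Type} [NormedAddCommGroup F] {a : (Fin p → ℂ) → F} (h : ContinuousAt a z) :
    ∀ᶠ y in 𝓝 z, ‖a y‖ ≤ ‖a z‖ + 1 :=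
  (h.norm.eventually (gt_mem_nhds (lt_add_one _))).mono fun _ => le_of_lt

theorem c2 (h : ContDiffAt ℝ 2 f z) : ContDiffAt ℝ 2 (fun x => (f x : ℂ)) z :=
  ofRealCLM.contDiff.contDiffAt.comp z h

/-- bounds for the derivatives -/
theorem bd2 (hf : ContDiffAt ℝ 2 f z) : ∃ C : ℝ, 0 ≤ C ∧ ∀ᶠ y in 𝓝 z, |f y| ≤ C ∧ ∀ v,
    |levi f y v| ≤ C * ‖v‖ ^ 2 ∧ ‖wd v (fun x => (f x : ℂ)) y‖ ≤ C * ‖v‖ := by
  have h1 := ev_le ((hf.fderiv_right (m := 1) (by norm_num)).continuousAt_fderiv one_ne_zero)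
  have h2 := ev_le ((c2 hf).continuousAt_fderiv two_ne_zero)
  have h3 := ev_le hf.continuousAt
  set A := ‖fderiv ℝ (fderiv ℝ f) z‖ + 1
  set B := ‖fderiv ℝ (fun x => (f x : ℂ)) z‖ + 1
  set D := ‖f z‖ + 1
  have : 0 ≤ A := by positivity
  have : 0 ≤ B := by positivity
  have : 0 ≤ D := by positivity
  refine ⟨2 * A + B + D, by positivity, ?_⟩
  filter_upwards [h1, h2, h3] with y k1 k2 k3
  refine ⟨k3.trans (by linarith), fun v => ⟨?_, ?_⟩⟩
  · have k : ∀ u, |fderiv ℝ (fderiv ℝ f) y u u| ≤ A * ‖u‖ ^ 2 := fun u =>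
      ((fderiv ℝ (fderiv ℝ f) y).le_of_opNorm₂_le_of_le k1 le_rfl le_rfl).trans_eq (by ring)
    have k' := k (I • v)
    rw [norm_smul, norm_I, one_mul] at k'
    refine (abs_add_le _ _).trans ?_
    nlinarith [k v, mul_nonneg (add_nonneg ‹0 ≤ B› ‹0 ≤ D›) (sq_nonneg ‖v‖)]
  · have k := (fderiv ℝ (fun x => (f x : ℂ)) y).le_of_opNorm_le k2
    have k' := k (I • v)
    rw [norm_smul, norm_I, one_mul] at k'
    rw [wd, norm_smul]
    have k4 := norm_sub_le (fderiv ℝ (fun x => (f x : ℂ)) y v)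
      (I • fderiv ℝ (fun x => (f x : ℂ)) y (I • v))
    rw [norm_smul, norm_I, one_mul] at k4
    simp only [norm_inv, Complex.norm_ofNat]
    nlinarith [k v, mul_nonneg (add_nonneg ‹0 ≤ A› ‹0 ≤ D›) (norm_nonneg v),
      mul_nonneg ‹0 ≤ A› (norm_nonneg v)]

/-- the logarithm of a coordinate -/
theorem crd {k : Fin p} (h : z k ≠ 0) :
    ContDiffAt ℝ 2 (fun x : Fin p → ℂ => Real.log (‖x k‖ ^ 2)) z ∧ ∀ v,
      levi (fun x : Fin p → ℂ => Real.log (‖x k‖ ^ 2)) z v = 0 ∧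
      wd v (fun x : Fin p → ℂ => (Real.log (‖x k‖ ^ 2) : ℂ)) z = v k / z k := by
  let l : (Fin p → ℂ) →L[ℂ] ℂ := ContinuousLinearMap.proj k
  have h1 : ContDiffAt ℝ 2 (fun x : Fin p → ℂ => ‖x k‖ ^ 2) z :=
    ((l.restrictScalars ℝ).contDiff.norm_sq ℂ).contDiffAt
  have h0 : ‖z k‖ ^ 2 ≠ 0 := by simpa using h
  have e : (fun x : Fin p → ℂ => ((‖x k‖ ^ 2 : ℝ) : ℂ)) = fun x => conj (l x) * l x :=
    funext fun x => by rw [conj_mul']; simp [l]
  have d : ∀ y, DifferentiableAt ℝ l y := fun y => l.differentiableAt.restrictScalars ℝ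
  have e1 : ∀ v, wd v (fun x => conj (l x) * l x) = fun y => conj (l y) * v k := fun v =>
    funext fun y => by
      rw [wd_cmul (df_conj (d y)) (d y), wd_conj (d y), wb_hol l.differentiableAt,
        wd_hol l.differentiableAt, l.fderiv]
      simp [l]
  refine ⟨h1.log h0, fun v => ⟨?_, ?_⟩⟩
  · rw [levi_log h1 h0, levi_eq h1, e, e1, wb_cmul (df_conj (d z)) (differentiableAt_const _),
      wb_conj (d z), wb_const, wd_hol l.differentiableAt, l.fderiv, mul_zero, add_zero]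
    simp only [l, ContinuousLinearMap.proj_apply, conj_mul', norm_mul, norm_conj, ← ofReal_pow,
      ofReal_re]
    field_simp
    ring
  · rw [wd_log (h1.differentiableAt two_ne_zero) h0, e, e1, congrFun e z]
    have : conj (z k) ≠ 0 := by simpa using h
    simp only [l, ContinuousLinearMap.proj_apply]
    field_simp

theorem levi_cm (c : ℝ) (hf : ContDiffAt ℝ 2 f z) (v : Fin p → ℂ) :
    levi (fun x => c * f x) z v = c * levi f z v := by
  have h : DifferentiableAt ℝ (wd v fun x => (f x : ℂ)) z := by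
    have := diff_fd (c2 hf)
    unfold wd
    fun_prop
  have e : wd v (fun x => ((c * f x : ℝ) : ℂ)) =ᶠ[𝓝 z]
      fun y => (c : ℂ) • wd v (fun x => (f x : ℂ)) y :=
    ((c2 hf).eventually (by simp)).mono fun y hy => by
      simpa using wd_const_smul (c : ℂ) (hy.differentiableAt two_ne_zero) v
  rw [levi_eq (contDiffAt_const.mul hf), levi_eq hf, wb_congr e, wb_const_smul _ h, smul_eq_mul,
    re_ofReal_mul]
  ring

theorem levi_sum {ι : Type} (s : Finset ι) {f : ι → (Fin p → ℂ) → ℝ}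
    (hf : ∀ i ∈ s, ContDiffAt ℝ 2 (f i) z) (v : Fin p → ℂ) :
    levi (fun x => ∑ i ∈ s, f i x) z v = ∑ i ∈ s, levi (f i) z v := by
  classical
  induction s using Finset.induction_on with
  | empty => simpa using levi_const 0 z v
  | insert i s hi ih =>
    have h := fun j hj => hf j (Finset.mem_insert_of_mem hj)
    simp only [Finset.sum_insert hi]
    rw [levi_add (hf i (Finset.mem_insert_self i s)) (ContDiffAt.sum h), ih h]

/-- the estimate at a point of the divisor -/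
theorem loc {k : Fin p} (hg : ContDiffAt ℝ 2 g z)
    (ht : ∀ᶠ y in 𝓝 z, y k ≠ 0 → t y = Real.log (‖y k‖ ^ 2) + g y ∧ t y ≤ -1) :
    ∃ c C : ℝ, 0 < c ∧ ∀ᶠ y in 𝓝 z, y k ≠ 0 → ∀ v,
      c * (‖v k‖ / (‖y k‖ * (1 + |Real.log ‖y k‖|))) ^ 2 - C * ‖v‖ ^ 2 ≤
        levi (fun x => -Real.log (t x)) y v := by
  obtain ⟨C, hC, h⟩ := bd2 hg
  refine ⟨2 / (2 + C) ^ 2, C + 4 * C ^ 2, by positivity, ?_⟩
  filter_upwards [h, ht.eventually_nhds, hg.eventually (by simp)] with y k1 k2 k3 hy v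
  obtain ⟨a1, a2⟩ := crd hy
  have e : t =ᶠ[𝓝 y] fun x => Real.log (‖x k‖ ^ 2) + g x := by
    filter_upwards [k2, (continuous_apply k).continuousAt.eventually_ne hy] with x b1 b2
      using (b1 b2).1
  obtain ⟨b1, b2⟩ := k2.self_of_nhds hy
  have e' : (fun x => (t x : ℂ)) =ᶠ[𝓝 y] fun x => (Real.log (‖x k‖ ^ 2) : ℂ) + g x :=
    e.mono fun x hx => by simp only [hx, ofReal_add]
  rw [levi_neg, levi_log ((a1.add k3).congr_of_eventuallyEq e) (by linarith), levi_congr e,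
    levi_add a1 k3, (a2 v).1, wd_congr e', wd_add ((c2 a1).differentiableAt two_ne_zero)
      ((c2 k3).differentiableAt two_ne_zero), (a2 v).2, zero_add]
  obtain ⟨b3, b4⟩ := k1.2 v
  set W := wd v (fun x => (g x : ℂ)) y
  set L := |Real.log ‖y k‖|
  have hL : 0 ≤ L := abs_nonneg _
  have n0 : 0 < ‖y k‖ := norm_pos_iff.2 hy
  have b5 : -t y ≤ (2 + C) * (1 + L) := by
    rw [b1, Real.log_pow]
    have := neg_abs_le (Real.log ‖y k‖)
    have := neg_abs_le (g y)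
    push_cast
    nlinarith [k1.1, mul_nonneg hC hL]
  have b6 : ‖v k‖ / ‖y k‖ ≤ ‖v k / y k + W‖ + C * ‖v‖ := by
    rw [← norm_div]
    have := norm_sub_le (v k / y k + W) W
    rw [add_sub_cancel_right] at this
    linarith
  have b7 : (‖v k‖ / ‖y k‖) ^ 2 ≤ 2 * ‖v k / y k + W‖ ^ 2 + 2 * (C * ‖v‖) ^ 2 := by
    nlinarith [pow_le_pow_left₀ (by positivity) b6 2, sq_nonneg (‖v k / y k + W‖ - C * ‖v‖)]
  have b8 : 1 ≤ t y ^ 2 := by nlinarith
  have b9 : 2 / (2 + C) ^ 2 * (‖v k‖ / (‖y k‖ * (1 + L))) ^ 2 ≤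
      2 * (‖v k‖ / ‖y k‖) ^ 2 / t y ^ 2 := by
    have : t y ^ 2 ≤ ((2 + C) * (1 + L)) ^ 2 := by nlinarith
    calc _ = 2 * (‖v k‖ / ‖y k‖) ^ 2 / ((2 + C) * (1 + L)) ^ 2 := by field_simp
      _ ≤ _ := by gcongr
  have b10 : 2 * (‖v k‖ / ‖y k‖) ^ 2 / t y ^ 2 ≤
      4 * ‖v k / y k + W‖ ^ 2 / t y ^ 2 + 4 * (C * ‖v‖) ^ 2 :=
    calc _ ≤ (4 * ‖v k / y k + W‖ ^ 2 + 4 * (C * ‖v‖) ^ 2) / t y ^ 2 := by gcongr; linarith
      _ ≤ _ := by rw [add_div]; gcongr; exact div_le_self (by positivity) b8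
  have b11 : levi g y v / t y ≤ C * ‖v‖ ^ 2 := by
    refine (le_abs_self _).trans (le_trans ?_ b3)
    rw [abs_div]
    exact div_le_self (abs_nonneg _) (by rw [abs_of_neg (by linarith)]; linarith)
  nlinarith

end Vale.Agent.P281Z.Lf.PotH
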