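import Vale.Agent.P281Z.Lf.Sk
import Vale.Agent.P281Z.Lf.PotA
import Vale.Agent.P281Z.Sc.Bd
import Vale.Agent.P281Z.Hm.Snc
import Vale.Agent.P277Z.Slc.Div
import Vale.Agent.P277.H619.T3.Met
import Vale.Agent.P284.H395.K.K8b
import Vale.Agent.P272.K.N.Det

/-!
# P281Z, a complete metric of finite volume on the complement of the divisor (POT)
-/

open scoped Manifold ContDiff Topology ComplexConjugate ComplexOrder
open Set Filter Matrix
open Vale.Agent.P272.K Vale.Agent.P285.H281.FD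
open Vale.Agent.P277Z (Hol at_chart)
open Vale.Agent.P277Z.Slc (LEq)
open Vale.Agent.P284.H395 (IsRho IsPot smul_psd u_cont)
open Vale.Agent.P284Z (levi)

noncomputable section

namespace Vale.Agent.P281Z.Lf

namespace PotH

variable {p : ℕ} {M M' : Matrix (Fin p) (Fin p) ℂ}

theorem qd_eq (M : Matrix (Fin p) (Fin p) ℂ) (v : Cm p) :
    qd M v = (star (star v) ⬝ᵥ M *ᵥ star v).re := by
  rw [star_star]
  simp only [qd, dotProduct, mulVec, Finset.mul_sum, Pi.star_apply, Complex.star_def]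
  exact congrArg _ (Finset.sum_congr rfl fun j _ => Finset.sum_congr rfl fun k _ => by ring)

theorem qd_add (M M' : Matrix (Fin p) (Fin p) ℂ) (v : Cm p) : qd (M + M') v = qd M v + qd M' v := by
  rw [qd_eq, qd_eq, qd_eq, add_mulVec, dotProduct_add, Complex.add_re]

theorem qd_sub (M M' : Matrix (Fin p) (Fin p) ℂ) (v : Cm p) : qd (M - M') v = qd M v - qd M' v := by
  rw [qd_eq, qd_eq, qd_eq, sub_mulVec, dotProduct_sub, Complex.sub_re]

theorem qd_smul (c : ℝ) (M : Matrix (Fin p) (Fin p) ℂ) (v : Cm p) :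
    qd ((c : ℂ) • M) v = c * qd M v := by
  rw [qd_eq, qd_eq, smul_mulVec, dotProduct_smul, smul_eq_mul, Complex.re_ofReal_mul]

theorem qd_nonneg (h : M.PosSemidef) (v : Cm p) : 0 ≤ qd M v :=
  qd_eq M v ▸ h.re_dotProduct_nonneg _

theorem psd_of (h : M.IsHermitian) (k : ∀ v, 0 ≤ qd M v) : M.PosSemidef :=
  .of_dotProduct_mulVec_nonneg h fun x => Complex.le_def.2
    ⟨by simpa only [qd_eq, star_star, Complex.zero_re] using k (star x),
      (h.im_star_dotProduct_mulVec_self x).symm⟩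

theorem qd_hess {u : Cm p → ℝ} {z : Cm p} (hu : ContDiffAt ℝ 2 u z) (v : Cm p) :
    qd (cHess u z) v = levi u z v / 4 := by
  rw [qd_eq, P284Z.cHess_quad hu, star_star, Complex.ofReal_re]

variable {X : Type} [TopologicalSpace X] [ChartedSpace (Cm p) X]
  {w ρ : Chart p X → Cm p → Matrix (Fin p) (Fin p) ℂ} {e e' : Chart p X} {x : X}

theorem w_low (hw : IsKahler w) (he : At e x) :
    ∃ c : ℝ, 0 < c ∧ ∀ᶠ y in 𝓝 x, ∀ v, c * ‖v‖ ^ 2 ≤ qd (w e (e y)) v := by
  obtain ⟨c, hc, h⟩ := N.exists_coercive (hw.posDef e x he)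
  have h1 : ∀ᶠ y in 𝓝 x, ∀ i j, ‖(w e (e y) - w e (e x)) i j‖ ≤ c / (2 * (p ^ 2 + 1)) :=
    eventually_all.2 fun i => eventually_all.2 fun j =>
      (Metric.tendsto_nhds.1 ((hw.smooth e x he i j).continuousAt.comp (e.continuousAt he.2))
        (c / (2 * (p ^ 2 + 1))) (by positivity)).mono fun y hy => by
          simpa [dist_eq_norm] using hy.le
  refine ⟨c / 2, by positivity, h1.mono fun y hy v => ?_⟩
  have h2 := (Complex.abs_re_le_norm _).trans (N.re_quadratic_le hy (star v))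
  have h3 := h (star v)
  rw [← qd_eq, norm_star] at h2 h3
  rw [qd_sub] at h2
  have h4 : (p : ℝ) ^ 2 * (c / (2 * (p ^ 2 + 1))) ≤ c / 2 := by
    rw [mul_div_assoc', div_le_div_iff₀ (by positivity) two_pos]
    nlinarith
  nlinarith [neg_abs_le (qd (w e (e y)) v - qd (w e (e x)) v),
    mul_le_mul_of_nonneg_right h4 (sq_nonneg ‖v‖)]

omit [ChartedSpace (Cm p) X] in
theorem cpt [CompactSpace X] {α : Type} {F : Filter α} {P : α → X → Prop}
    (h : ∀ y, ∃ N ∈ 𝓝 y, ∀ᶠ a in F, ∀ x ∈ N, P a x) : ∀ᶠ a in F, ∀ x, P a x :=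
  (isCompact_univ.induction_on (p := fun s => ∀ᶠ a in F, ∀ x ∈ s, P a x) (by simp)
    (fun _ _ k h => h.mono fun _ b x hx => b x (k hx))
    (fun _ _ k h => (k.and h).mono fun _ b x hx => hx.elim (b.1 x) (b.2 x))
    fun y _ => by simpa using h y).mono fun _ b x => b x trivial

variable [IsManifold 𝓘(ℂ, Cm p) ω X]

theorem hess_ch {f : X → ℝ} (h : At e x) (h' : At e' x)
    (hf : ContDiffAt ℝ 2 (fun z => f (e'.symm z)) (e' x)) :
    cHess (fun y => f (e.symm y)) (e x) = (jacM e e' x).transpose *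
      cHess (fun y => f (e'.symm y)) (e' x) * (jacM e e' x).map (starRingEnd ℂ) := by
  have h1 : (fun y => f (e.symm y)) =ᶠ[𝓝 (e x)] fun y => f (e'.symm (e' (e.symm y))) := by
    filter_upwards [h.nhds_at h'] with z hz
    rw [hz.2.2.left_inv]
  have := cHess_comp (τ := fun z => e' (e.symm z)) (f := fun y => f (e'.symm y)) (z := e x)
    (by rw [h.left_inv]; exact hf) (transition h h')
  rw [h.left_inv] at this
  exact (cHess_congr h1).trans this

/-- the logarithm of the norm of the canonical section -/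
structure Tf (S : Hm.Snc p X) (l : Fin S.r) (t : X → ℝ) : Prop where
  le : ∀ x ∉ S.G l, t x ≤ -1
  sm : ∀ (e : Chart p X) x, At e x → x ∉ S.G l → ContDiffAt ℝ ∞ (fun z => t (e.symm z)) (e x)
  lim : ∀ y ∈ S.G l, Tendsto t (𝓝[(S.G l)ᶜ] y) atBot
  loc : ∀ y ∈ S.G l, ∀ k, S.lab y l = some k → ∃ g, ContDiffAt ℝ 2 g (chartAt (Cm p) y y) ∧
    ∀ᶠ z in 𝓝 (chartAt (Cm p) y y), z k ≠ 0 →
      t ((chartAt (Cm p) y).symm z) = Real.log (‖z k‖ ^ 2) + g z ∧
        t ((chartAt (Cm p) y).symm z) ≤ -1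

omit [IsManifold 𝓘(ℂ, Cm p) ω X] in
theorem sm_log {a : X → ℂ} (ha : Hol p a x) (h0 : a x ≠ 0) (he : At e x) :
    ContDiffAt ℝ ∞ (fun z => Real.log (‖a (e.symm z)‖ ^ 2)) (e x) :=
  ((((ha e he).contDiffAt (n := ∞)).restrict_scalars ℝ).norm_sq ℂ).log
    (by rw [he.left_inv]; simpa using h0)

theorem exists_tf (W : Mf p) (S : Hm.Snc p W.X) (l : Fin S.r) (h : ∀ x, ∃ ζ, LEq p (S.G l) x ζ) :
    ∃ t, Tf S l t := by
  obtain ⟨O, σ, hO⟩ := P277Z.Slc.stDiv p W.X _ h
  obtain ⟨ψ, hψ⟩ := P277.T3.exists_isMet hO.lb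
  choose j hj using hO.lb.cover
  let t : W.X → ℝ := fun x => Real.log (‖σ (j x) x‖ ^ 2) - ψ (j x) x
  have h0 : ∀ i x, x ∈ O.U i → x ∉ S.G l → σ i x ≠ 0 := fun i x hx => mt (hO.leq i x hx).mem.1
  have h1 : ∀ i x, x ∈ O.U i → x ∉ S.G l → t x = Real.log (‖σ i x‖ ^ 2) - ψ i x :=
    fun i x hx k => by
      simp only [t]
      rw [hO.sec.change _ i x (hj x) hx, hψ.change _ i x (hj x) hx, norm_mul, mul_pow, Real.log_mul
        (by simpa using hO.lb.ne_zero _ i x (hj x) hx) (by simpa using h0 i x hx k)]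
      ring
  have h2 : ∀ y, ContinuousAt (ψ (j y)) y := fun y =>
    u_cont (at_chart (n := p) y) (hψ.smooth _ _ y (at_chart y) (hj y))
  have h3 : ∀ y, ContinuousAt (fun x => ‖σ (j y) x‖ ^ 2) y := fun y =>
    (hO.leq _ y (hj y)).hol.cont.norm.pow 2
  obtain ⟨B, hB⟩ := (cpt (F := atTop) (P := fun B x => x ∉ S.G l → t x ≤ B) fun y => by
    obtain ⟨C, -, hC⟩ := bdd_near ((h3 y).sub (h2 y))
    refine ⟨_, hC.and (lb_near hO.lb (hj y)), (eventually_ge_atTop C).mono fun B k x hx k' => ?_⟩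
    rw [h1 _ x hx.2 k']
    exact (sub_le_sub_right (Real.log_le_self (sq_nonneg _)) _).trans (hx.1.trans k)).exists
  have h4 : ∀ x ∉ S.G l, t x - (B + 1) ≤ -1 := fun x hx => by linarith [hB x hx]
  refine ⟨fun x => t x - (B + 1), h4, fun e x he hx => ?_, fun y hy => ?_, fun y hy k hk => ?_⟩
  · refine (((sm_log (hO.leq _ x (hj x)).hol (h0 _ x (hj x) hx) he).sub
      (hψ.smooth _ e x he (hj x))).congr_of_eventuallyEq ?_).sub contDiffAt_const
    filter_upwards [at_ev he ((lb_near hO.lb (hj x)).and ((hO.leq _ x (hj x)).not_mem_near hx))]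
      with z hz using h1 _ _ hz.1 hz.2
  · have k1 : Tendsto (fun x => ‖σ (j y) x‖ ^ 2) (𝓝[(S.G l)ᶜ] y) (𝓝[≠] 0) :=
      tendsto_nhdsWithin_iff.2 ⟨by
        simpa [(hO.leq _ y (hj y)).mem.2 hy] using (h3 y).tendsto.mono_left nhdsWithin_le_nhds, by
        filter_upwards [self_mem_nhdsWithin, mem_nhdsWithin_of_mem_nhds (lb_near hO.lb (hj y))]
          with x a b using by simpa using h0 _ x b a⟩
    refine tendsto_atBot_add_const_right _ _ (((Real.tendsto_log_nhdsNE_zero.comp k1).atBot_add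
      ((h2 y).neg.tendsto.mono_left nhdsWithin_le_nhds)).congr' ?_)
    filter_upwards [self_mem_nhdsWithin, mem_nhdsWithin_of_mem_nhds (lb_near hO.lb (hj y))]
      with x a b using (h1 _ x b a).symm
  · have he := at_chart (n := p) y
    have k1 : ∀ᶠ x in 𝓝 y, chartAt (Cm p) y x k = 0 ↔ x ∈ S.G l :=
      (S.snc y l).mono fun x hx => by simpa [hk] using hx.symm
    obtain ⟨u, u1, u2, u3⟩ := leq_unit (P277Z.Slc.LEq.of_chart k1 (hol_chart he k) he
      fun _ => ((ind_chart he).2 _ he).ne_zero k) (hO.leq _ y (hj y))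
    refine ⟨_, (((sm_log u1 u2 he).sub (hψ.smooth _ _ y he (hj y))).sub
      (contDiffAt_const (c := B + 1))).of_le (by norm_cast), ?_⟩
    filter_upwards [at_ev he ((k1.and u3).and ((u1.ne_near u2).and (lb_near hO.lb (hj y)))),
      P277Z.At.right he] with z ⟨⟨a1, a2⟩, a3, a4⟩ a5 hz
    rw [a5] at a1 a2
    refine ⟨?_, h4 _ (mt a1.2 hz)⟩
    rw [h1 _ _ a4 (mt a1.2 hz), a2, norm_mul, mul_pow,
      Real.log_mul (by simpa using a3) (by simpa using hz)]
    ring

variable {S : Hm.Snc p X} {l : Fin S.r} {t : X → ℝ}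

omit [IsManifold 𝓘(ℂ, Cm p) ω X] in
theorem Tf.sm' (h : Tf S l t) (he : At e x) (hx : x ∉ S.G l) :
    ContDiffAt ℝ ∞ (fun z => -Real.log (t (e.symm z))) (e x) :=
  ((h.sm e x he hx).log (by rw [he.left_inv]; linarith [h.le x hx])).neg

open Classical in
/-- the term of the component `l` in the metric of Poincare -/
def tm (S : Hm.Snc p X) (y : X) (l : Fin S.r) (z v : Cm p) : ℝ :=
  if y ∈ S.G l then (S.lab y l).elim 0 fun i => (‖v i‖ / (‖z i‖ * (1 + |Real.log ‖z i‖|))) ^ 2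
  else 0

omit [IsManifold 𝓘(ℂ, Cm p) ω X] in
theorem tm_sum (y : X) (z v : Cm p) : S.poin y z v = ‖v‖ ^ 2 + ∑ l, tm S y l z v :=
  congrArg (‖v‖ ^ 2 + ·) (Multiplicative.ofAdd.injective (by
    rw [ofAdd_sum, ofAdd_sum]
    exact (S.prod_eq y (fun l h => by rw [tm, if_neg h]; rfl) fun l i h k => by
      rw [tm, if_pos h, k]; rfl).symm))

omit [IsManifold 𝓘(ℂ, Cm p) ω X] in
theorem tm_nonneg (y : X) (l : Fin S.r) (z v : Cm p) : 0 ≤ tm S y l z v := by
  unfold tm
  split_ifs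
  · cases S.lab y l
    exacts [le_rfl, sq_nonneg _]
  · exact le_rfl

omit [IsManifold 𝓘(ℂ, Cm p) ω X] in
theorem Tf.est (h : Tf S l t) (y : X) : ∃ c C : ℝ, 0 < c ∧ ∀ᶠ x in 𝓝 y, x ∈ S.U → ∀ v,
    c * tm S y l (chartAt (Cm p) y x) v - C * ‖v‖ ^ 2 ≤
      levi (fun z => -Real.log (t ((chartAt (Cm p) y).symm z))) (chartAt (Cm p) y x) v := by
  have he := at_chart (n := p) y
  have hc := (chartAt (Cm p) y).continuousAt he.2
  by_cases hy : y ∈ S.G l
  · obtain ⟨k, k1, k2⟩ := S.exists_lab hy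
    obtain ⟨g, g1, g2⟩ := h.loc y hy k k2
    obtain ⟨c, C, hc0, k3⟩ := PotH.loc g1 g2
    refine ⟨c, C, hc0, ?_⟩
    filter_upwards [hc.eventually k3, S.ev_U y] with x a1 a2 hx v
    rw [tm, if_pos hy, k2]
    exact a1 (a2.1 hx k k1) v
  · obtain ⟨C, -, k⟩ := bd2 ((h.sm' he hy).of_le (by norm_cast))
    refine ⟨1, C, one_pos, (hc.eventually k).mono fun x a _ v => ?_⟩
    rw [tm, if_neg hy]
    linarith [neg_abs_le (levi (fun z => -Real.log (t ((chartAt (Cm p) y).symm z)))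
      (chartAt (Cm p) y x) v), (a.2 v).1]

/-- the potential -/
theorem pot [CompactSpace X] {t : Fin S.r → X → ℝ} (ht : ∀ l, Tf S l (t l)) (hw : IsKahler w)
    (hρ : IsRho S.Uᶜ p ρ) (hB : ∀ y, ∃ B : ℝ, ∀ᶠ y' in 𝓝 y, y' ∈ S.U → ∀ v,
      qd (ρ (chartAt (Cm p) y) (chartAt (Cm p) y y')) v ≤ B * S.poin y (chartAt (Cm p) y y') v) :
    ∃ C u, IsPot S.Uᶜ w ρ C u := by
  have sm : ∀ (A : ℝ) (e : Chart p X) x, At e x → x ∈ S.U →
      ContDiffAt ℝ ∞ (fun z => A * ∑ l, -Real.log (t l (e.symm z))) (e x) := fun A e x he hx =>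
    contDiffAt_const.mul (ContDiffAt.sum fun l _ => (ht l).sm' he (hx l))
  have key := cpt (F := (atTop : Filter ℝ).curry (atTop : Filter ℝ))
    (P := fun a x => ∃ e : Chart p X, At e x ∧ (x ∈ S.U →
      (cHess (fun z => a.1 * ∑ l, -Real.log (t l (e.symm z))) (e x) + (a.2 : ℂ) • w e (e x) -
        ρ e (e x)).PosSemidef)) fun y => by
    have he := at_chart (n := p) y
    obtain ⟨B, h1⟩ := hB y
    obtain ⟨c₀, h2, h3⟩ := w_low hw he
    choose c C h4 h5 using fun l => (ht l).est y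
    refine ⟨_, ((at_near he).and h1).and (h3.and (eventually_all.2 h5)), eventually_curry_iff.2 ?_⟩
    filter_upwards [eventually_ge_atTop 0, eventually_all.2 fun l =>
      (tendsto_id.atTop_mul_const (h4 l)).eventually_ge_atTop (4 * B)] with A a1 a2
    filter_upwards [eventually_ge_atTop 0,
      (tendsto_id.atTop_mul_const h2).eventually_ge_atTop (B + A * (∑ l, C l) / 4)]
      with D a3 a4 x ⟨⟨b1, b2⟩, b3, b4⟩
    refine ⟨_, b1, fun hx => ?_⟩
    have s1 := fun l => ((ht l).sm' b1 (hx l)).of_le (m := 2) (by norm_cast)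
    have s2 := (sm A _ x b1 hx).of_le (m := 2) (by norm_cast)
    refine psd_of (((C2.cHess_isHermitian s2).add (smul_psd (hw.posDef _ x b1).posSemidef a3).1).sub
      (hρ.psd _ x b1 (not_not.2 hx)).1) fun v => ?_
    rw [qd_sub, qd_add, qd_smul, qd_hess s2, levi_cm _ (ContDiffAt.sum fun l _ => s1 l),
      levi_sum _ fun l _ => s1 l]
    have b5 := b2 hx v
    have b6 := mul_le_mul_of_nonneg_left
      (Finset.sum_le_sum fun l (_ : l ∈ Finset.univ) => b4 l hx v) a1
    have b7 := Finset.sum_le_sum fun l (_ : l ∈ Finset.univ) =>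
      mul_le_mul_of_nonneg_right (a2 l) (tm_nonneg y l (chartAt (Cm p) y x) v)
    rw [tm_sum] at b5
    simp only [Finset.sum_sub_distrib, ← Finset.sum_mul] at b6
    simp only [id, mul_assoc, ← Finset.mul_sum] at b7 a4
    nlinarith [mul_le_mul_of_nonneg_left (b3 v) a3, mul_le_mul_of_nonneg_right a4 (sq_nonneg ‖v‖)]
  obtain ⟨A, hA, h⟩ := ((eventually_gt_atTop 0).and (eventually_curry_iff.1 key)).exists
  obtain ⟨C, h⟩ := h.exists
  refine ⟨C, fun x => A * ∑ l, -Real.log (t l x), fun e x he hx => sm A e x he (not_not.1 hx),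
    fun x hx => ?_, fun e x he hx => ?_⟩
  · obtain ⟨l, hl⟩ := not_forall.1 hx
    rw [compl_compl]
    refine Tendsto.const_mul_atBot hA (tendsto_atBot_mono' _ ?_ (tendsto_neg_atTop_atBot.comp
      (Real.tendsto_log_atTop.comp (tendsto_neg_atBot_atTop.comp (((ht l).lim x
        (not_not.1 hl)).mono_left (nhdsWithin_mono _ fun y hy => hy l))))))
    filter_upwards [self_mem_nhdsWithin] with y hy
    simp only [Function.comp, Real.log_neg_eq_log]
    rw [Finset.sum_neg_distrib, neg_le_neg_iff]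
    refine Finset.single_le_sum (f := fun l => Real.log (t l y)) (fun l _ => ?_) (Finset.mem_univ l)
    rw [← Real.log_neg_eq_log]
    exact Real.log_nonneg (by linarith [(ht l).le y (hy l)])
  · obtain ⟨e', he', k⟩ := h x
    have := (k (not_not.1 hx)).mul_mul_conjTranspose_same (jacM e e' x).transpose
    rw [hess_ch (f := fun x => A * ∑ l, -Real.log (t l x)) he he'
      ((sm A e' x he' (not_not.1 hx)).of_le (by norm_cast)), hw.change e e' x he he',
      hρ.change e e' x he he' hx]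
    simp only [Matrix.mul_sub, Matrix.sub_mul, Matrix.mul_add, Matrix.add_mul, Matrix.mul_smul,
      Matrix.smul_mul] at this
    exact this

end PotH

open PotH in
theorem pot_of (hS : SNCB) : POT := by
  intro p W S ρ ⟨w, hw⟩ hρ hB
  choose t ht using fun l => exists_tf W S l fun x => ((hS p W S).1 x).elim fun ζ h => ⟨ζ l, h.1 l⟩
  obtain ⟨C, u, hu⟩ := pot ht hw hρ hB
  obtain ⟨h, h1, ⟨χ⟩, h2, h3⟩ :=
    P284.H395.K.k8b p W.X w hw _ S.isOpen_U.isClosed_compl p ρ hρ C u hu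
  refine ⟨fun e z => ρ e z + h e z, ⟨S.isOpen_U, ⟨fun e x he hx i j => ?_, fun e x he hx => ?_,
    fun e e' x he he' hx => ?_, fun e x he hx i j k => ?_⟩,
    ⟨{ χ with ε := fun ν => |χ.ε ν|, grad := fun ν e x he hx => ?_, tend := ?_ }⟩,
    fun e x he => ?_, fun e x he => ?_⟩, fun e x he hx v => ?_⟩
  · exact (hρ.smooth e x he hx i j).add (h1.smooth e x he hx i j)
  · exact .posSemidef_add (hρ.psd e x he hx) (h1.posDef e x he hx)
  · rw [hρ.change e e' x he he' hx, h1.change e e' x he he' hx, Matrix.mul_add, Matrix.add_mul]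
  · have d := fun i j => (hρ.smooth e x he hx i j).differentiableAt (by simp)
    have d' := fun i j => (h1.smooth e x he hx i j).differentiableAt (by simp)
    simp only [Matrix.add_apply]
    rw [INT.dz_add (d i j) (d' i j), INT.dz_add (d k j) (d' k j), hρ.closed e x he hx,
      h1.closed e x he hx]
  · have := ((χ.grad ν e x he hx).add (smul_psd (hρ.psd e x he hx) (abs_nonneg (χ.ε ν)))).add
      (smul_psd (h1.posDef e x he hx).posSemidef (sub_nonneg.2 (le_abs_self (χ.ε ν))))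
    refine (congrArg PosSemidef ?_).mp this
    rw [Complex.ofReal_sub, sub_smul, smul_add]
    abel
  · simpa using χ.tend.abs
  · simpa only [compl_compl] using h3 e x he
  · obtain ⟨c, hc, k⟩ := w_low hw he
    refine ⟨c, hc, ?_⟩
    filter_upwards [k, at_near he] with y a b hy v
    have := qd_nonneg (h2 e y b (not_not.2 hy)) v
    rw [qd_sub] at this
    rw [qd_add]
    linarith [a v, qd_nonneg (hρ.psd e y b (not_not.2 hy)) v]
  · rw [qd_add]
    linarith [qd_nonneg (h1.posDef e x he (not_not.2 hx)).posSemidef v]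

end Vale.Agent.P281Z.Lf
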