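import Vale.Agent.P281Z.Lf.Grow
import Vale.Agent.P281Z.Hm.Gl
import Vale.Agent.P277Z.Luf.Hol

/-!
# P281Z, the ratios of square integrable forms are meromorphic (RAT)
-/

open scoped Topology Matrix.Norms.Operator
open Set Filter Matrix Metric
open Vale.Agent.P272.K (Cm Chart At)
open Vale.Agent.P277Z (gen)
open Vale.Agent.P284.H608.K (Af ev)
open Vale.Agent.P281Z.Hm (Mx Gr cz Dm St ex BV BL BdL Cv StGrow StBd)
open Vale.Agent.P281Z.Hm.L1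
open Vale.Agent.P281Z.Hm.DescH
open Vale.Agent.P281Z.Hm.LiftH
open Vale.Agent.P281Z.Hm.FrH (pl_le)

noncomputable section

namespace Vale.Agent.P281Z.Lf

open MerqH GrowH

namespace RatH

variable {p : ℕ} {K : Finset (Fin p)} {n : Type} [Fintype n] [DecidableEq n] {Q : Mx n} {w a : ℕ}
  {π : Cm p → Gr n} {T : Fin p → Matrix n n ℤ} {ψ : Cm p → n → ℂ} {lam : Fin p → ℂ}
  {F : Mx n → Cm p → ℂ}

theorem ex_ev {k : ℕ} {A : Af p k} (h : A ≠ 0) : ∃ J, ev A J ≠ 0 := by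
  by_contra! e
  refine h (ContinuousAlternatingMap.toAlternatingMap_injective
    ((Pi.basisFun ℂ (Fin p)).ext_alternating fun J _ => ?_))
  simpa [ev] using e J

theorem eg_line (hG : StGrow) (hv : BV K Q w π T) (h : BL K Q w π T a ψ lam) (j : n) :
    Eg K fun ζ => ψ ζ j := by
  obtain ⟨C, A, hC⟩ := h.mod
  refine of_sq (fun ζ hζ => Hm.an_crd (h.ln ζ hζ).an j) (M := 1 + A) fun R η hη => ?_
  obtain ⟨B, N, hB⟩ := (hG n p K Q w π hv.lv η hη).2 R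
  obtain ⟨c, c0, hc⟩ := pl_le K N
  refine ⟨|B| * c * C, fun ζ hζ => ?_⟩
  have hd := st_dm hη hζ
  have h0 := Hm.hn_nonneg (hv.lv ζ hd).hs0.pos (ψ ζ)
  have h1 := zero_le_one.trans (Hm.FrH.le_pl hd).1
  calc _ ≤ ‖ψ ζ‖ ^ 2 := pow_le_pow_left₀ (norm_nonneg _) (norm_le_pi_norm _ j) 2
    _ ≤ |B| * (c * Real.exp (∑ i ∈ K, (ζ i).im)) * (C * Real.exp (A * ∑ i ∈ K, (ζ i).im)) :=
        (hB ζ hζ _).2.trans (mul_le_mul (mul_le_mul (le_abs_self B) (hc ζ hd) (by positivity)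
          (abs_nonneg B)) (hC ζ hd) h0 (by positivity))
    _ = _ := by
        rw [add_mul, one_mul, Real.exp_add]
        ring

theorem gw_mul (h : Gw K T F) (hψ : ∀ j, Eg K fun ζ => ψ ζ j)
    (e : ∀ i ∈ K, ∀ ζ ∈ Dm K, ψ (ζ + Pi.single i 1) = cz (T i) *ᵥ ψ ζ) (κ : n) (a : ℕ) :
    Gw K T fun A ζ => F A ζ * (A *ᵥ ψ ζ) κ ^ a := by
  have h1 : ∀ A : Mx n, Eg K fun ζ => F A ζ * (A *ᵥ ψ ζ) κ ^ a := fun A =>
    Eg.mul ⟨h.an A, h.gr A⟩ ((Eg.sum Finset.univ fun j _ => (Eg.const (A κ j)).mul (hψ j)).pow a)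
  obtain ⟨d, hd⟩ := h.poly
  refine ⟨fun A => (h1 A).an, fun A i hi ζ hζ => by rw [h.sh A i hi ζ hζ, e i hi ζ hζ,
    mulVec_mulVec], ⟨d + a * 1, fun ζ hζ => ?_⟩, fun A => (h1 A).gr⟩
  obtain ⟨P, h2, h3⟩ := hd ζ hζ
  refine ⟨P * (∑ j, MvPolynomial.X (κ, j) * MvPolynomial.C (ψ ζ j)) ^ a,
    (MvPolynomial.totalDegree_mul _ _).trans (add_le_add h2 ((MvPolynomial.totalDegree_pow _ _).trans
      (Nat.mul_le_mul_left a (MvPolynomial.totalDegree_finsetSum_le fun j _ =>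
        (MvPolynomial.totalDegree_mul _ _).trans (by simp))))), fun A => ?_⟩
  simp [h3, mulVec, dotProduct]

variable {Y : Type} [TopologicalSpace Y] [ChartedSpace (Cm p) Y] {S : Hm.Snc p Y} {C : Cv Y S.U}
  {y : Y} {ρ : ℝ} {f : Cm p → C.X} {g : Fin p → C.Γ}

theorem dense (h : BdL S C y ρ f g) {D : Set Y} (hD : Dense D) :
    Dm (S.K y) ⊆ closure {ζ | ζ ∈ Dm (S.K y) ∧ C.π (f ζ) ∈ D} := fun ζ hζ => by
  set e := chartAt (Cm p) y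
  have h1 : Tendsto (fun x => (ρ : ℂ)⁻¹ • (e x - e y)) (𝓝 (C.π (f ζ))) (𝓝 (ex (S.K y) 1 ζ)) := by
    have := ((e.continuousAt (src h hζ)).tendsto.sub_const (e y)).const_smul (ρ : ℂ)⁻¹
    rwa [crd h hζ, add_sub_cancel_left, inv_smul_smul₀ (Complex.ofReal_ne_zero.2 h.pos.ne')] at this
  have h2 := (lb_diff (a := 1) (c := ζ) fun i hi => ex_ne (K := S.K y) (a := 1) ζ hi).continuousAt
  rw [ContinuousAt, lb_self] at h2
  refine mem_closure_iff_frequently.2 ((h2.comp h1).frequently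
    (((mem_closure_iff_frequently.1 (hD _)).and_eventually ?_).mono fun x a => ⟨(a.2 :
      _ ∧ C.π (f (lb (S.K y) 1 ζ (ex (S.K y) 1 ζ) ((ρ : ℂ)⁻¹ • (e x - e y)))) = x).1,
        a.2.2.symm ▸ a.1⟩))
  filter_upwards [(h2.comp h1).eventually_mem ((Hm.TorH.dm_open _).mem_nhds hζ),
    h1.eventually_mem (ball_mem_nhds _ (div_pos (mo_pos (K := S.K y) ζ) four_pos)),
    e.open_source.mem_nhds (src h hζ)] with x a b c
  refine ⟨a, (h.eq _ a).trans ?_⟩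
  rw [Function.comp_apply, ex_lb one_pos (fun _ _ => rfl) (near_ne hζ b), pt_inv h.pos,
    e.left_inv c]

end RatH

open RatH in
/-- **RAT** -/
theorem rat_of (hG : StGrow) (hBd : StBd) (grow : GROW) (merq : MERQ) (llb : LLB) : RAT := by
  intro p W S C n _ _ V l L Λ φ m hΛ hl hM c a k b₀ b₁ D q h₀ h₁ l₀ l₁ hD hD' hq t y ht
  obtain ⟨x₀⟩ : Nonempty C.X := inferInstance
  obtain ⟨i₀, hi₀⟩ := L.lb.cover (C.π x₀)
  obtain ⟨κ, -⟩ := Function.ne_iff.1 (L.ln i₀ ℂ _ 0 (Cv.lift_const x₀ 0) hi₀).ne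
  obtain ⟨k1, k2, -⟩ := llb p W S C n V l L Λ φ m hΛ hl c 0
  obtain ⟨k3, k4, -⟩ := llb p W S C n V l L Λ φ m hΛ hl c a
  obtain ⟨O₀, hO₀, g₀⟩ := grow p W S C n V _ _ _ k1 (k2 κ) k b₀ h₀ l₀ y
  obtain ⟨O₁, hO₁, g₁⟩ := grow p W S C n V _ _ _ k3 (k4 κ) k b₁ h₁ l₁ y
  obtain ⟨ρ, f, g, a', N, β, φ', h, hO, hb, -⟩ :=
    hBd p W.X S C n V l L hM y t ht _ (inter_mem hO₀ hO₁)
  set e := chartAt (Cm p) y with he
  have hy : At e y := ⟨chart_mem_atlas _ _, mem_chart_source _ _⟩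
  have hρ : (ρ : ℂ) ≠ 0 := Complex.ofReal_ne_zero.2 h.pos.ne'
  choose ι hι using fun x : C.X => hΛ.lb.cover (C.π x) (C.mem x)
  have hU : ∀ ζ ∈ Dm (S.K y), C.π (f ζ) ∈ Λ.U (ι (f ζ)) ∩ (l.U t ∩ S.U) := fun ζ hζ =>
    ⟨hι _, h.eq ζ hζ ▸ (hO _ (pt_mem h.pos _ ((mem_dm one_pos).1 hζ))).2, C.mem _⟩
  obtain ⟨ζ₀, hζ₀, d₀⟩ := closure_nonempty_iff.1 ⟨_, dense h hD' (bp_mem _)⟩
  obtain ⟨J, hJ⟩ := ex_ev (hq _ d₀ _ t e ⟨hy.1, src h hζ₀⟩ (hU ζ₀ hζ₀)).1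
  obtain ⟨F₀, w₀, e₀⟩ := g₀ ρ f g h (fun z hz => (hO z hz).1.1) J
  obtain ⟨F₁, w₁, e₁⟩ := g₁ ρ f g h (fun z hz => (hO z hz).1.2) J
  have e₂ : ∀ A, ∀ ζ ∈ Dm (S.K y), F₀ A ζ * (A *ᵥ L.ψ t (f ζ)) κ ^ a =
      ev (b₀ (ι (f ζ), t) e (e (C.π (f ζ)))) J * bm m L κ c a A (ι (f ζ), t) (f ζ) :=
    fun A ζ hζ => by
      rw [e₀ A ζ hζ (ι (f ζ), t) (hU ζ hζ), mul_assoc]
      simp only [bm, pow_zero, mul_one]
      rfl
  have rel : ∀ ζ ∈ Dm (S.K y), C.π (f ζ) ∈ D → ∀ A,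
      F₁ A ζ = q t (C.π (f ζ)) * (F₀ A ζ * (A *ᵥ L.ψ t (f ζ)) κ ^ a) := fun ζ hζ d A => by
    rw [e₂ A ζ hζ, e₁ A ζ hζ (ι (f ζ), t) (hU ζ hζ),
      (hq _ d _ t e ⟨hy.1, src h hζ⟩ (hU ζ hζ)).2, ← mul_assoc]
    rfl
  obtain ⟨φ₀, φ₁, a₀, a₁, ⟨σ, hσ, n₀⟩, r⟩ := merq n p _ _ _ _ _ _ F₁ hb.un
    (gw_mul w₀ (eg_line hG hb.bv hb.bl) (fun i hi ζ hζ => by
      rw [hb.bl.eqv i hi ζ hζ, hl, one_smul]) κ a) w₁ (by
      obtain ⟨d, hd⟩ := (k4 κ).poly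
      obtain ⟨P, h2, -, h3⟩ := hd (ι (f ζ₀), t) (f ζ₀) (hU ζ₀ hζ₀)
      by_contra! h4
      refine h2 (MvPolynomial.funext fun x => ?_)
      have h5 := h4 (of fun a b => x (a, b)) ζ₀ hζ₀
      rw [e₂ _ _ hζ₀, h3] at h5
      exact (mul_eq_zero.1 h5).resolve_left hJ)
    ((dense h hD').trans (closure_mono fun ζ hζ => ⟨hζ.1, _, rel ζ hζ.1 hζ.2⟩))
  have an : ∀ u : Cm p → ℂ, AnalyticOnNhd ℂ u (ball 0 1) →
      P277Z.Hol p (fun x => u ((ρ : ℂ)⁻¹ • (e x - e y))) y := fun u hu =>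
    P277Z.hol_comp hy (f := fun z => u ((ρ : ℂ)⁻¹ • (z - e y)))
      ((hu 0 (mem_ball_self one_pos)).comp_of_eq
        ((analyticAt_id.sub analyticAt_const).const_smul (c := (ρ : ℂ)⁻¹)) (by simp))
  refine ⟨_, _, an φ₁ a₁, an φ₀ a₀, fun z => n₀ (a₀.eqOn_zero_of_preconnected_of_eventuallyEq_zero
    (convex_ball 0 1).isPreconnected (mem_ball_self one_pos) ?_ hσ), ?_⟩
  · have h2 : Tendsto (fun s : Cm p => e y + (ρ : ℂ) • s) (𝓝 0) (𝓝 (e y)) :=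
      (by fun_prop : Continuous fun s : Cm p => e y + (ρ : ℂ) • s).tendsto' 0 _ (by simp)
    filter_upwards [((e.tendsto_symm hy.2).comp h2).eventually z, ball_mem_nhds (0 : Cm p) one_pos]
      with s h3 h4
    rwa [Function.comp_apply, e.right_inv (h.sub (pt_mem h.pos _ h4)), add_sub_cancel_left,
      inv_smul_smul₀ hρ] at h3
  · have h2 : D ∩ S.U ∈ gen {y} := ⟨univ, isOpen_univ, subset_univ _, by
      rw [(hD.inter S.isOpen_U).interior_eq, (hD'.inter_of_isOpen_left (fun x =>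
        mem_closure_iff_nhdsWithin_neBot.2 (Hm.Gl.neBot_U C x)) hD).closure_eq]⟩
    filter_upwards [h2, P277Z.gen_le_nhds y (cover h (η := 1 / 2) (by norm_num))] with x h3 h4
    obtain ⟨ζ, hζ, rfl⟩ := h4 h3.2
    have hd := st_dm one_half_pos hζ
    rw [crd h hd, add_sub_cancel_left, inv_smul_smul₀ hρ, r ζ hd _ (rel ζ hd h3.1)]

end Vale.Agent.P281Z.Lf
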