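import Vale.Agent.P281Z.Lf.Theta
import Vale.Agent.P281Z.Hm.Gl
import Vale.Agent.P281Z.Mf.Fib
import Vale.Agent.P277Z.Pos.Tch

/-!
# P281Z, the base of the variation: the limit metric on a boundary component
-/

set_option linter.unusedSectionVars false

open scoped Manifold ContDiff Topology
open Set Filter
open Vale.Agent.P272.K Vale.Agent.P285.H281.FD
open Vale.Agent.P277Z (Hol at_chart hol_const)
open Vale.Agent.P277Z.Slc (lin LEq dd)
open Vale.Agent.P277.HD (pull)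
open Vale.Agent.P284Z (levi)
open Vale.Agent.P284Y.Lib (levi_congr levi_add levi_sum levi_const_mul levi_hol)

noncomputable section

namespace Vale.Agent.P281Z.Lf

namespace RsH

/-- the normalised quotient -/
def qq {X : Type} (u : X → ℝ) (s : ℝ) (k : ℕ) (ξ : X → ℂ) (x : X) : ℝ :=
  u x / (‖ξ x‖ ^ s * (-Real.log ‖ξ x‖) ^ k)

theorem trw {X : Type} {F : Filter X} {u : X → ℝ} {ξ ξ' w : X → ℂ} {w₀ : ℂ} {κ s : ℝ} {k : ℕ}
    (hw : Tendsto w F (𝓝 w₀)) (h0 : w₀ ≠ 0) (e : ∀ᶠ z in F, ξ' z = w z * ξ z)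
    (h2 : Tendsto (fun x => ‖ξ' x‖) F (𝓝[>] 0)) (h : Tendsto (qq u s k ξ) F (𝓝 κ)) :
    Tendsto (qq u s k ξ') F (𝓝 (κ * ‖w₀‖⁻¹ ^ s)) := by
  have h1 := norm_pos_iff.2 h0
  refine Hm.Gl.tr h ((hw.norm.inv₀ h1.ne').congr' ?_) (inv_pos.2 h1) h2
  filter_upwards [e, h2.eventually self_mem_nhdsWithin] with z a b
  have c : ‖ξ z‖ ≠ 0 := fun c => by simp [a, c] at b
  rw [a, norm_mul, div_mul_cancel_right₀ c]

theorem lg {t ε : ℝ} (h0 : 0 < t) (h1 : t ≤ 1) (hε : 0 < ε) (M : ℕ) :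
    (1 + |Real.log t|) ^ M * t ^ ε ≤ (1 + 1 / (ε / (M + 1))) ^ M := by
  have a : 0 < ε / (M + 1) := by positivity
  have b : t ^ ε ≤ (t ^ (ε / (M + 1))) ^ M := by
    rw [← Real.rpow_mul_natCast h0.le]
    refine Real.rpow_le_rpow_of_exponent_ge h0 h1 ?_
    rw [div_mul_eq_mul_div, div_le_iff₀ (by positivity)]
    gcongr
    linarith
  have c := Real.abs_log_mul_self_rpow_lt t _ h0 h1 a
  have d := Real.rpow_le_one h0.le h1 a.le
  rw [abs_mul, abs_of_pos (Real.rpow_pos_of_pos h0 _)] at c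
  calc _ ≤ (1 + |Real.log t|) ^ M * (t ^ (ε / (M + 1))) ^ M := by gcongr
    _ = (t ^ (ε / (M + 1)) + |Real.log t| * t ^ (ε / (M + 1))) ^ M := by rw [← mul_pow]; ring
    _ ≤ _ := by gcongr

section snc
variable {p : ℕ} {Y : Type} [TopologicalSpace Y] [ChartedSpace (Cm p) Y]
  [IsManifold 𝓘(ℂ, Cm p) ω Y] (S : Hm.Snc p Y) {y : Y} {l : Fin S.r}

theorem ev_lab {b : Fin p} (e : S.lab y l = some b) :
    ∀ᶠ y' in 𝓝 y, y' ∈ S.G l ↔ chartAt (Cm p) y y' b = 0 :=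
  (S.snc y l).mono fun _ a => by simpa [e] using a

theorem leq_ab (y : Y) (l : Fin S.r) : ∃ ξ : Y → ℂ, LEq p (S.G l) y ξ ∧
    ∀ y', ‖ξ y'‖ = S.ab y l (chartAt (Cm p) y y') := by
  by_cases h : y ∈ S.G l
  · obtain ⟨b, -, e⟩ := S.exists_lab h
    exact ⟨fun y' => chartAt (Cm p) y y' b, ⟨(ev_lab S e).mono fun _ => Iff.symm, fun c hc =>
      ⟨hol_chart (at_chart y) b c hc, fun _ => ((ind_chart (at_chart y)).2 c hc).ne_zero b⟩⟩,
      fun y' => (S.ab_of_lab h e _).symm⟩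
  · exact ⟨fun _ => 1, ⟨(S.ev_cut y).mono fun _ a => iff_of_false one_ne_zero fun k =>
      h ((a l).1 k).1, fun c hc => ⟨analyticAt_const, fun k => (one_ne_zero k).elim⟩⟩,
      fun y' => by rw [S.ab_of_not h, norm_one]⟩

theorem leq_zero {ξ : Y → ℂ} (h : LEq p (S.G l) y ξ) (hy : y ∈ S.G l) :
    Tendsto (fun x => ‖ξ x‖) (𝓝[S.U] y) (𝓝[>] 0) := by
  refine tendsto_nhdsWithin_iff.2 ⟨?_, ?_⟩
  · have := h.hol.cont.norm
    rw [ContinuousAt, h.mem.2 hy, norm_zero] at this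
    exact this.mono_left nhdsWithin_le_nhds
  · filter_upwards [self_mem_nhdsWithin, mem_nhdsWithin_of_mem_nhds h.1] with x a b
    exact norm_pos_iff.2 fun k => a l (b.1 k)

theorem ab_le (y : Y) : ∀ᶠ y' in 𝓝 y, ∀ l, S.ab y l (chartAt (Cm p) y y') ≤ 1 :=
  eventually_all.2 fun l => by
    by_cases h : y ∈ S.G l
    · obtain ⟨ξ, h1, h2⟩ := leq_ab S y l
      have := h1.hol.cont.norm.eventually (gt_mem_nhds (a := 1) (by simp [h1.mem.2 h]))
      exact this.mono fun y' a => h2 y' ▸ a.le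
    · exact .of_forall fun _ => (S.ab_of_not h _).le

theorem ev_G0 (h : y ∈ S.G0 l) : ∀ᶠ y' in 𝓝 y, y' ∈ S.G l → y' ∈ S.G0 l :=
  (S.ev_cut y).mono fun _ a b => ⟨b, fun l' c k => h.2 l' c ((a l').1 k).1⟩

end snc

variable {p : ℕ} (D : Zd p) (l : Fin D.S.r) (k : ℕ)

/-- the limit -/
def lam (ξ : D.Z.X → ℂ) (y : D.Z.X) : ℝ :=
  limUnder (𝓝[D.S.U] y) (qq (D.L.hY ()) (2 * (D.α l : ℝ)) k ξ)

/-- the weight -/
def ph (j : D.M.ι) (y : D.Z.X) : ℝ := D.a * (-Real.log (lam D l k (D.σ l (j l)) y) +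
  ∑ l', 2 * (Function.update D.α l 0 l' : ℝ) * Real.log ‖D.σ l' (j l') y‖)

variable {D l k}

theorem lam_eq {ξ : D.Z.X → ℂ} {y : D.Z.X} {κ : ℝ}
    (h : Tendsto (qq (D.L.hY ()) (2 * (D.α l : ℝ)) k ξ) (𝓝[D.S.U] y) (𝓝 κ)) :
    lam D l k ξ y = κ :=
  have := Hm.Gl.neBot_U D.C y
  h.limUnder_eq

theorem sum_upd (f : Fin D.S.r → ℝ) : 2 * (D.α l : ℝ) * f l +
    ∑ l', 2 * (Function.update D.α l 0 l' : ℝ) * f l' = ∑ l', 2 * (D.α l' : ℝ) * f l' := by
  rw [Fintype.sum_eq_add_sum_subtype_ne _ l, Fintype.sum_eq_add_sum_subtype_ne _ l]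
  simp only [Function.update_self, Rat.cast_zero, mul_zero, zero_mul, zero_add]
  exact congrArg _ (Finset.sum_congr rfl fun a _ => by rw [Function.update_of_ne a.2])

/-- the local form of the weight -/
theorem key (h : D.Ok) {y : D.Z.X} (hy : y ∈ D.S.G l) {b : Fin p} (hb : D.S.lab y l = some b)
    {κ : Cm p → ℝ} {P : Cm p → Prop} (hκ : ∀ᶠ z in 𝓝 (chartAt (Cm p) y y),
      (chartAt (Cm p) y).symm z ∈ D.S.G0 l → 0 < κ z ∧
      Tendsto (fun x => D.L.hY () ((chartAt (Cm p) y).symm x) /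
        (‖x b‖ ^ (2 * (D.α l : ℝ)) * (-Real.log ‖x b‖) ^ k))
        (𝓝[{x | (chartAt (Cm p) y).symm x ∈ D.S.U}] z) (𝓝 (κ z)) ∧ P z)
    {j : D.M.ι} (hj : y ∈ D.M.U j) : ∃ w : Fin D.S.r → D.Z.X → ℂ,
      (∀ l', Hol p (w l') y ∧ w l' y ≠ 0) ∧ ∀ᶠ y' in 𝓝 y, y' ∈ D.S.G0 l →
      0 < κ (chartAt (Cm p) y y') ∧ P (chartAt (Cm p) y y') ∧
      (∃ c, 0 < c ∧ Tendsto (qq (D.L.hY ()) (2 * (D.α l : ℝ)) k (D.σ l (j l))) (𝓝[D.S.U] y') (𝓝 c)) ∧
      (∀ l', l' ≠ l → 0 < D.S.ab y l' (chartAt (Cm p) y y')) ∧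
      ph D l k j y' = D.a * (-Real.log (κ (chartAt (Cm p) y y')) +
        ∑ l', 2 * (D.α l' : ℝ) * Real.log ‖w l' y'‖ +
        Real.log (D.S.mon y (Function.update D.α l 0) (chartAt (Cm p) y y'))) := by
  choose ξ h1 h2 using leq_ab D.S y
  have h3 := fun l' => (h.div l').leq _ y (hj l')
  choose w w1 w2 w3 using fun l' => leq_unit (h1 l') (h3 l')
  have he := at_chart (n := p) y
  refine ⟨w, fun l' => ⟨w1 l', w2 l'⟩, ?_⟩
  filter_upwards [((chartAt (Cm p) y).continuousAt he.2).eventually hκ, at_near he, (w1 l).near,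
    eventually_all.2 fun l' => (w1 l').ne_near (w2 l'), (w3 l).eventually_nhds, (h3 l).near,
    eventually_all.2 w3, eventually_all.2 fun l' => (h1 l').1] with y' a1 a2 a3 a4 a5 a6 a7 a8 hy'
  obtain ⟨b1, b2, b3⟩ := a1 (by rwa [a2.left_inv])
  have b4 : Tendsto (qq (D.L.hY ()) (2 * (D.α l : ℝ)) k (ξ l)) (𝓝[D.S.U] y')
      (𝓝 (κ (chartAt (Cm p) y y'))) := by
    refine (b2.comp (Hm.Gl.chart_U a2.2)).congr' ?_
    filter_upwards [mem_nhdsWithin_of_mem_nhds (at_near a2)] with x hx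
    rw [Function.comp, hx.left_inv, qq, h2, D.S.ab_of_lab hy hb]
  have b5 := trw (a3.cont.tendsto.mono_left nhdsWithin_le_nhds) (a4 l)
    (mem_nhdsWithin_of_mem_nhds a5) (leq_zero D.S a6 hy'.1) b4
  have b6 : ∀ l', 0 < ‖w l' y'‖ := fun l' => norm_pos_iff.2 (a4 l')
  have b7 : ∀ l', l' ≠ l → 0 < D.S.ab y l' (chartAt (Cm p) y y') := fun l' c =>
    h2 l' y' ▸ norm_pos_iff.2 fun e => hy'.2 l' c ((a8 l').1 e)
  refine ⟨b1, b3, ⟨_, mul_pos b1 (Real.rpow_pos_of_pos (inv_pos.2 (b6 l)) _), b5⟩, b7, ?_⟩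
  have b8 : ∑ l', 2 * (Function.update D.α l 0 l' : ℝ) * Real.log ‖D.σ l' (j l') y'‖ =
      ∑ l', 2 * (Function.update D.α l 0 l' : ℝ) * Real.log ‖w l' y'‖ +
        Real.log (D.S.mon y (Function.update D.α l 0) (chartAt (Cm p) y y')) := by
    rw [Hm.Snc.mon, Real.log_prod fun l' _ => ?_, ← Finset.sum_add_distrib]
    · refine Finset.sum_congr rfl fun l' _ => ?_
      by_cases c : l' = l
      · simp [c]
      · rw [a7, norm_mul, h2, Real.log_mul (b6 _).ne' (b7 _ c).ne', Real.log_rpow (b7 _ c)]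
        ring
    · by_cases c : l' = l
      · simp [c]
      · exact (Real.rpow_pos_of_pos (b7 _ c) _).ne'
  rw [ph, lam_eq b5, Real.log_mul b1.ne' (Real.rpow_pos_of_pos (inv_pos.2 (b6 l)) _).ne',
    Real.log_rpow (inv_pos.2 (b6 l)), Real.log_inv, ← sum_upd (l := l), b8]
  ring

theorem chg (h : D.Ok) {y : D.Z.X} (hy : y ∈ D.S.G0 l) {j j' : D.M.ι} (hj : y ∈ D.M.U j)
    (hj' : y ∈ D.M.U j') {c : ℝ} (hc : 0 < c)
    (a : Tendsto (qq (D.L.hY ()) (2 * (D.α l : ℝ)) k (D.σ l (j' l))) (𝓝[D.S.U] y) (𝓝 c)) :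
    ph D l k j y = ph D l k j' y + Real.log (‖D.M.g j j' y‖ ^ 2) := by
  have g0 : ∀ l', 0 < ‖(D.O l').g (j l') (j' l') y‖ := fun l' =>
    norm_pos_iff.2 ((h.div l').lb.ne_zero _ _ _ (hj l') (hj' l'))
  have b := trw ((lb_hol (h.div l).lb (hj l) (hj' l)).cont.tendsto.mono_left nhdsWithin_le_nhds)
    (norm_pos_iff.1 (g0 l)) (mem_nhdsWithin_of_mem_nhds (((lb_near (h.div l).lb (hj l)).and
      (lb_near (h.div l).lb (hj' l))).mono fun z e => (h.div l).sec.change _ _ z e.1 e.2))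
    (leq_zero D.S ((h.div l).leq _ y (hj l)) hy.1) a
  have b1 : ∑ l', 2 * (Function.update D.α l 0 l' : ℝ) * Real.log ‖D.σ l' (j l') y‖ =
      ∑ l', 2 * (Function.update D.α l 0 l' : ℝ) * Real.log ‖(D.O l').g (j l') (j' l') y‖ +
      ∑ l', 2 * (Function.update D.α l 0 l' : ℝ) * Real.log ‖D.σ l' (j' l') y‖ := by
    rw [← Finset.sum_add_distrib]
    refine Finset.sum_congr rfl fun l' _ => ?_
    by_cases e : l' = l
    · simp [e]
    · rw [(h.div l').sec.change _ _ y (hj l') (hj' l'), norm_mul, Real.log_mul (g0 l').ne'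
        (norm_ne_zero_iff.2 fun k => hy.2 l' e (((h.div l').leq _ y (hj' l')).mem.1 k))]
      ring
  have b2 : Real.log (‖D.M.g j j' y‖ ^ 2) =
      D.a * ∑ l', 2 * (D.α l' : ℝ) * Real.log ‖(D.O l').g (j l') (j' l') y‖ := by
    rw [Real.log_pow, show D.M.g j j' y = ∏ l', (D.O l').g (j l') (j' l') y ^ D.m l' from rfl,
      norm_prod, Real.log_prod fun l' _ => by rw [norm_zpow]; exact zpow_ne_zero _ (g0 l').ne',
      Finset.mul_sum, Finset.mul_sum]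
    refine Finset.sum_congr rfl fun l' _ => ?_
    have e : (D.m l' : ℝ) = D.a * D.α l' := by exact_mod_cast h.int l'
    rw [norm_zpow, Real.log_zpow, e]
    push_cast
    ring
  rw [ph, ph, lam_eq a, lam_eq b, Real.log_mul hc.ne' (Real.rpow_pos_of_pos (inv_pos.2 (g0 l)) _).ne',
    Real.log_rpow (inv_pos.2 (g0 l)), Real.log_inv, b1, b2, ← sum_upd (l := l)]
  ring

theorem bnd {y : D.Z.X} {B κ m s ε : ℝ} {N : ℕ} {z : Cm p} (hε : 0 < ε)
    (h0 : D.S.ab y l z = 0) (h1 : ∀ l', l' ≠ l → 0 < D.S.ab y l' z) (h2 : ∀ l', D.S.ab y l' z ≤ 1)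
    (hκ : 0 < κ) (hm : 0 < m) (h3 : κ ≤ B * m * D.S.plog y z ^ N) :
    Real.exp (-(D.a * (-Real.log κ + s + Real.log m))) *
      ∏ l' : {l' // l' ≠ l}, D.S.ab y l' z ^ ε ≤ (|B| * Real.exp (-s)) ^ D.a *
        ∏ _l' : {l' // l' ≠ l}, (1 + 1 / (ε / ((N * D.a : ℕ) + 1))) ^ (N * D.a) := by
  have a : Real.exp (-(D.a * (-Real.log κ + s + Real.log m))) = (κ / m * Real.exp (-s)) ^ D.a := by
    rw [← mul_neg, Real.exp_nat_mul, ← Real.exp_log (div_pos hκ hm), ← Real.exp_add,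
      Real.log_div hκ.ne' hm.ne']
    congr 2
    ring
  have b : D.S.plog y z = ∏ l' : {l' // l' ≠ l}, (1 + |Real.log (D.S.ab y l' z)|) := by
    rw [Hm.Snc.plog, Fintype.prod_eq_mul_prod_subtype_ne _ l, h0]
    simp
  have c : 0 ≤ D.S.plog y z := by
    rw [b]
    positivity
  have d : κ / m ≤ |B| * D.S.plog y z ^ N := by
    rw [div_le_iff₀ hm, mul_right_comm]
    exact h3.trans (by gcongr; exact le_abs_self B)
  have e : ∀ l' : {l' // l' ≠ l}, 0 ≤ D.S.ab y l' z ^ ε := fun l' =>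
    Real.rpow_nonneg (h1 _ l'.2).le _
  calc _ ≤ (|B| * D.S.plog y z ^ N * Real.exp (-s)) ^ D.a *
        ∏ l' : {l' // l' ≠ l}, D.S.ab y l' z ^ ε := by
        rw [a]
        gcongr
        exact Finset.prod_nonneg fun l' _ => e l'
    _ = (|B| * Real.exp (-s)) ^ D.a * ∏ l' : {l' // l' ≠ l},
        ((1 + |Real.log (D.S.ab y l' z)|) ^ (N * D.a) * D.S.ab y l' z ^ ε) := by
        rw [Finset.prod_mul_distrib, Finset.prod_pow, ← b]
        ring
    _ ≤ _ := by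
        refine mul_le_mul_of_nonneg_left (Finset.prod_le_prod (fun l' _ => mul_nonneg
          (by positivity) (e l')) fun l' _ => lg (h1 _ l'.2) (h2 _) hε _) (by positivity)

end RsH

open RsH in
/-- **RESTR** -/
theorem restr_of (sncb : SNCB) (pll : PULL) : RESTR := by
  rintro d D h ν l ⟨k, hk⟩
  refine ⟨fun ⟨y, hy⟩ => ?_, fun F i hi => ⟨fun j x => ph D l k j (i x), ?_⟩⟩
  · obtain ⟨b, -, hb⟩ := D.S.exists_lab hy.1
    obtain ⟨κ, -, -, -, h1⟩ := hk y hy.1 b hb () trivial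
    obtain ⟨W, h2, h3⟩ := (h1 hy).2.2
    have h4 := Submodule.finrank_lt (s := W) fun e => by
      simpa using (h3 (Pi.single b 1) (e ▸ Submodule.mem_top)).1
    rw [Module.finrank_fin_fun] at h4
    omega
  have h0 : ∀ x, x ∈ off (fun l' : {l' // l' ≠ l} => i ⁻¹' D.S.G l') → i x ∈ D.S.G0 l :=
    fun x hx => ⟨hi.mem x, fun l' c => hx ⟨l', c⟩⟩
  have h1 : ∀ j (e : Chart d F.X) x, At e x → i x ∈ D.M.U j → i x ∈ D.S.G0 l →
      ContDiffAt ℝ 2 (fun z => ph D l k j (i (e.symm z))) (e x) ∧ ∃ W : Submodule ℂ (Cm d),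
        d ≤ Module.finrank ℂ W + (ν - 1) ∧
        ∀ v ∈ W, levi (fun z => ph D l k j (i (e.symm z))) (e x) v ≤ 0 := fun j e x he hj hx => by
    obtain ⟨b, -, hb⟩ := D.S.exists_lab hx.1
    obtain ⟨κ, B, N, k1, k2⟩ := hk _ hx.1 b hb () trivial
    obtain ⟨k3, -, W, k4, k5⟩ := k2 hx
    obtain ⟨w, w1, w2⟩ := key h hx.1 hb k1 hj
    have hc := at_chart (n := d + 1) (i x)
    set c := chartAt (Cm (d + 1)) (i x)
    have a1 := (hi.hol.at x).an he hc
    have a2 : ContDiffAt ℝ 2 (fun z => Real.log (κ z)) (c (i (e.symm (e x)))) := by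
      rw [he.left_inv]
      exact k3.contDiffAt.log (w2.self_of_nhds hx).1.ne'
    have a3 : ContDiffAt ℝ 2 (fun z => Real.log (κ (c (i (e.symm z))))) (e x) :=
      ContDiffAt.comp (g := fun z => Real.log (κ z)) (e x) a2
        ((a1.contDiffAt (n := 2)).restrict_scalars ℝ)
    have a4 := fun l' => P277Z.Pos.log_norm_c2 (hi.hol.hol (w1 l').1 e he) (by
      rw [he.left_inv]; exact (w1 l').2)
    have a5 : ContDiffAt ℝ 2 (fun z => ∑ l', 2 * (D.α l' : ℝ) * Real.log ‖w l' (i (e.symm z))‖)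
        (e x) := ContDiffAt.sum fun l' _ => contDiffAt_const.mul (a4 l').1
    have a6 : (fun z => ph D l k j (i (e.symm z))) =ᶠ[𝓝 (e x)] fun z => D.a *
        ((-1) * Real.log (κ (c (i (e.symm z)))) +
          ∑ l', 2 * (D.α l' : ℝ) * Real.log ‖w l' (i (e.symm z))‖) := by
      filter_upwards [at_ev he (hi.hol.cont.continuousAt.eventually (w2.and (ev_G0 D.S hx)))]
        with z hz
      rw [(hz.1 (hz.2 (hi.mem _))).2.2.2.2, Hm.Snc.mon, Finset.prod_eq_one fun l' _ => ?_]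
      · simp
      · by_cases e : l' = l
        · simp [e]
        · rw [D.S.ab_of_not (hx.2 l' e), Real.one_rpow]
    have a7 := (contDiffAt_const (c := (-1 : ℝ))).mul a3
    refine ⟨(contDiffAt_const.mul (a7.add a5)).congr_of_eventuallyEq a6,
      W.comap (df i e c x).toLinearMap, ?_, fun v hv => ?_⟩
    · have b1 := (hi.tan (α := Unit) (h := fun _ y => c y b) ((ind_chart hc).comp (fun _ => b)
        (Function.injective_of_subsingleton _)) ((ev_lab D.S hb).mono fun _ a => by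
          simpa using a)).2 e c he hc
      have b2 : W ≤ (df i e c x).toLinearMap.range := fun v hv => (b1 v).1 fun _ => by
        rw [← df_apply (holM_id.at _) hc hc, df_id_self hc]
        exact (k5 v hv).1
      have b3 := Submodule.finrank_map_le (df i e c x).toLinearMap (W.comap (df i e c x).toLinearMap)
      rw [Submodule.map_comap_eq_self b2] at b3
      have b4 := k4.trans (Nat.add_le_add_right b3 ν)
      omega
    · rw [levi_congr a6, levi_const_mul (a7.add a5), levi_add a7 a5, levi_const_mul a3,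
        levi_sum _ fun l' _ => contDiffAt_const.mul (a4 l').1, Finset.sum_eq_zero fun l' _ => by
          rw [levi_const_mul (a4 l').1, (a4 l').2, mul_zero], levi_hol a1 a2, he.left_inv]
      exact (congrArg (fun t : ℝ => D.a * (-1 * t + 0)) (k5 _ hv).2).le.trans (by simp)
  refine ⟨fun j e x he hj hx => (h1 j e x he hj (h0 x hx)).1, fun j j' x hj hj' hx => ?_,
    fun j e x he hj hx => (h1 j e x he hj (h0 x hx)).2, fun j x hj ζ hζ ε hε => ?_⟩
  · obtain ⟨b, -, hb⟩ := D.S.exists_lab (hi.mem x)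
    obtain ⟨κ, B, N, k1, -⟩ := hk _ (hi.mem x) b hb () trivial
    obtain ⟨w, -, w2⟩ := key h (hi.mem x) hb k1 hj'
    obtain ⟨c, c1, c2⟩ := (w2.self_of_nhds (h0 x hx)).2.2.1
    exact chg h (h0 x hx) hj hj' c1 c2
  obtain ⟨b, -, hb⟩ := D.S.exists_lab (hi.mem x)
  obtain ⟨κ, B, N, k1, -⟩ := hk _ (hi.mem x) b hb () trivial
  obtain ⟨w, w1, w2⟩ := key h (hi.mem x) hb k1 hj
  choose ξ x1 x2 using leq_ab D.S (i x)
  refine bd_leq tendsto_id (fun l' => ((pll d D.Z _ _ _ (ThH.snc_opt (sncb _ D.Z D.S).1 l)).2 F i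
    hi).2.1 x l' (ξ l') (x1 l')) hζ (fun _ => (Real.exp_pos _).le) ?_
  obtain ⟨C, c1, c2⟩ := bdd_near (t := i x) (f := fun y => (|B| * Real.exp
    (-∑ l', 2 * (D.α l' : ℝ) * Real.log ‖w l' y‖)) ^ D.a) ((continuousAt_const.mul
      (ContinuousAt.neg (tendsto_finsetSum _ fun l' _ => continuousAt_const.mul
        ((w1 l').1.cont.norm.log (norm_ne_zero_iff.2 (w1 l').2)))).rexp).pow _)
  refine ⟨C * ∏ _l' : {l' // l' ≠ l}, (1 + 1 / (ε / ((N * D.a : ℕ) + 1))) ^ (N * D.a), ?_⟩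
  filter_upwards [hi.hol.cont.continuousAt.eventually
    ((w2.and c2).and ((ab_le D.S (i x)).and (x1 l).1))] with x' ⟨⟨a1, a2⟩, a3, a4⟩ hx'
  obtain ⟨b1, b2, -, b3, b4⟩ := a1 (h0 x' hx')
  simp only [id, x2]
  rw [b4]
  refine (bnd hε (by rw [← x2, a4.2 (hi.mem _), norm_zero]) b3 a3 b1
    (Finset.prod_pos fun l' _ => ?_) b2).trans (by gcongr)
  by_cases e : l' = l
  · simp [e]
  · exact Real.rpow_pos_of_pos (b3 _ e) _

end Vale.Agent.P281Z.Lf
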