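import Vale.Agent.P281Z.Lf.Sk
import Vale.Agent.P281Z.Lf.Bert

/-!
# P281Z, the base of the variation: general members of a linear system
-/

namespace Vale.Agent.P281Z.Lf

theorem slice : SLICE := fun _ X _ _ _ _ => bertini X

end Vale.Agent.P281Z.Lf
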