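import Vale.Agent.P281Z.Lf.Sk
import Vale.Agent.P281Z.Nt.Hyp
import Vale.Agent.P281Z.Sc.Bd
import Vale.Agent.P281Z.Mf.An

/-!
# P281Z, block HL: restriction to a smooth divisor (row STEP)
-/

open scoped Manifold ContDiff Topology
open Set Filter
open Vale.Agent.P272.K Vale.Agent.P285.H281.FD
open Vale.Agent.P277Z (Hol hol_const)
open Vale.Agent.P277Z.Slc (lin LEq IsDiv)
open Vale.Agent.P277.HD (pull)

set_option linter.unusedSectionVars false

noncomputable section

namespace Vale.Agent.P281Z.Lf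

namespace St1

variable {n : ℕ} {X : Type} [TopologicalSpace X] [ChartedSpace (Cm n) X]
  [IsManifold 𝓘(ℂ, Cm n) ω X] {H : Set X} {x : X}

theorem cancel {ζ a b : X → ℂ} (h : LEq n H x ζ) (ha : Hol n a x) (hb : Hol n b x)
    (k : ∀ᶠ y in 𝓝 x, a y * ζ y = b y * ζ y) : a x = b x :=
  tendsto_nhds_unique_of_frequently_eq ha.cont hb.cont
    (((not_eventually.1 (leq_nz h)).and_eventually k).mono fun _ e => mul_right_cancel₀ e.1 e.2)

theorem comb {L : Bd X} {k : ℕ} {s : Fin k → L.ι → X → ℂ} (h : ∀ j, IsSec n L (s j))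
    (c : Fin k → ℂ) : IsSec n L fun i x => ∑ j, c j * s j i x :=
  isSec_of (fun _ _ hx => Hol.sum _ fun j _ => (hol_const _ _).mul (sec_hol (h j) hx))
    fun a b x ha hb => by
      simp only [Finset.mul_sum, (h _).change a b x ha hb, mul_left_comm]

/-- division by the section which defines `H` -/
theorem div {α : Type} [Fintype α] [DecidableEq α] {E : α → Bd X} {a : α} {σ : (E a).ι → X → ℂ}
    {m : α → ℤ} (hE : ∀ b, IsLB n (E b)) (hσ : IsDiv n H (E a) σ) {t : (lin E m).ι → X → ℂ}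
    (ht : IsSec n _ t) (h0 : ∀ j, ∀ x ∈ (lin E m).U j, x ∈ H → t j x = 0) :
    ∃ t', IsSec n (lin E (m - Pi.single a 1)) t' ∧
      ∀ j, ∀ x ∈ (lin E m).U j, t j x = t' j x * σ (j a) x := by
  have hU := fun j x => lb_near (lb_lin hE m) (a := j) (x := x)
  choose! c c1 c2 using fun j x (hx : x ∈ (lin E m).U j) => Nt.Hp.div (hσ.leq (j a) x (hx a))
    (sec_hol ht hx) ((hU j x hx).mono (h0 j))
  have h1 : ∀ j, ∀ x ∈ (lin E m).U j, Hol n (fun y => c j y y) x := fun j x hx =>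
    (c1 j x hx).congr (by
      filter_upwards [hU j x hx, (c1 j x hx).near, (c2 j x hx).eventually_nhds] with y k1 k2 k3
      exact cancel (hσ.leq (j a) y (k1 a)) k2 (c1 j y k1)
        ((k3.and (c2 j y k1)).mono fun _ e => e.1.symm.trans e.2))
  have h2 := fun j x hx => (c2 j x hx).self_of_nhds
  refine ⟨fun j x => c j x x, isSec_of h1 fun j j' x hj hj' => cancel (hσ.leq (j a) x (hj a))
    (h1 j x hj) ((lb_hol (lb_lin hE _) hj hj').mul (h1 j' x hj')) ?_, h2⟩
  filter_upwards [hU j x hj, hU j' x hj'] with y k k'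
  have e : (lin E (m - Pi.single a 1)).g j j' y * (E a).g (j a) (j' a) y = (lin E m).g j j' y := by
    simp only [lin]
    rw [← Finset.mul_prod_erase _ _ (Finset.mem_univ a), ← Finset.mul_prod_erase _
      (fun b => (E b).g (j b) (j' b) y ^ m b) (Finset.mem_univ a), mul_right_comm, Pi.sub_apply,
      Pi.single_eq_same, zpow_sub_one₀ ((hE a).ne_zero _ _ y (k a) (k' a)),
      inv_mul_cancel_right₀ ((hE a).ne_zero _ _ y (k a) (k' a))]
    exact congrArg _ (Finset.prod_congr rfl fun b hb => by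
      rw [Pi.sub_apply, Pi.single_eq_of_ne (Finset.ne_of_mem_erase hb), sub_zero])
  rw [← h2 j y k, ht.change j j' y k k', h2 j' y k', hσ.sec.change _ _ y (k a) (k' a), ← e]
  ring

theorem sum_comb {k m : ℕ} (b : Fin m → Fin k → ℂ) (c : Fin m → ℂ) (u : Fin k → ℂ) :
    ∑ l, c l * ∑ j, b l j * u j = ∑ j, (∑ l, c l • b l) j * u j := by
  simp only [Finset.sum_apply, Finset.mul_sum, Finset.sum_mul, Pi.smul_apply, smul_eq_mul,
    mul_assoc]
  exact Finset.sum_comm

theorem exists_ind {k m : ℕ} (W : Submodule ℂ (Fin k → ℂ)) (h : m ≤ Module.finrank ℂ W) :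
    ∃ b : Fin m → Fin k → ℂ, (∀ l, b l ∈ W) ∧ ∀ c : Fin m → ℂ, ∑ l, c l • b l = 0 → c = 0 :=
  let ⟨b, hb⟩ := exists_linearIndependent_of_le_finrank h
  ⟨fun l => b l, fun l => (b l).2, fun c hc => funext
    (Fintype.linearIndependent_iff.1 (hb.map' W.subtype W.ker_subtype) c hc)⟩

end St1

open St1 in
/-- **STEP** -/
theorem step : STEP := by
  rintro d X α _ _ E a σ H F i m k K hE hσ hi hK ⟨s, h1, h2⟩
  let W : Submodule ℂ (Fin k → ℂ) :=
    { carrier := {c | ∀ j, ∀ x ∈ (lin E m).U j, x ∈ H → ∑ l, c l * s l j x = 0}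
      add_mem' := fun a b j x k k' => by simp [add_mul, Finset.sum_add_distrib, a j x k k', b j x k k']
      zero_mem' := fun _ _ _ _ => by simp
      smul_mem' := fun c _ b j x k k' => by simp [mul_assoc, ← Finset.mul_sum, b j x k k'] }
  obtain ⟨W', hW⟩ := W.exists_isCompl
  obtain ⟨b', k1, k2⟩ := exists_ind W' le_rfl
  have h3 := hK _ ⟨fun l j x => ∑ l', b' l l' * s l' j (i x),
    fun l => let h := hi.hol.sec (comb h1 (b' l)); ⟨h.1, h.2⟩, fun c hc =>
      k2 c (hW.disjoint.le_bot ⟨fun j x k k' => by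
        obtain ⟨y, rfl⟩ := hi.ex k'
        exact (sum_comb b' c _).symm.trans (hc j y k), W'.sum_mem fun l _ => W'.smul_mem _ (k1 l)⟩)⟩
  have h4 := Submodule.finrank_add_eq_of_isCompl hW
  rw [Module.finrank_fin_fun] at h4
  obtain ⟨b, k3, k4⟩ := exists_ind W (m := k - K) (by omega)
  choose t t1 t2 using fun l => div hE hσ (comb h1 (b l)) (k3 l)
  refine ⟨t, t1, fun c hc => k4 c (h2 _ fun j x hx => ?_)⟩
  simp only [← sum_comb, t2 _ j x hx, ← mul_assoc, ← Finset.sum_mul, hc j x hx, zero_mul]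

end Vale.Agent.P281Z.Lf
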