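import Vale.Agent.P281Z.Lf.Sk
import Vale.Agent.P281Z.Mf.Sub
import Vale.Agent.P281Z.Sc.Bd

/-!
# P281Z, the base of the variation: `K + c M` is big
-/

open scoped Manifold ContDiff Topology
open Set Filter
open Vale.Agent.P272.K Vale.Agent.P285.H281.FD
open Vale.Agent.P277Z (Hol)
open Vale.Agent.P277Z.Slc (lin Snc)
open Vale.Agent.P277.HD (pull)

noncomputable section

namespace Vale.Agent.P281Z.Lf

namespace ThH

section gen
variable {n : ℕ} {X : Type} [TopologicalSpace X] [ChartedSpace (Cm n) X]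

theorem snc_opt {κ : Type} {G : κ → Set X} (h : Snc n G) (l : κ) :
    Snc n fun o : Option {l' // l' ≠ l} => o.elim (G l) fun l' => G l' := fun x => by
  obtain ⟨ζ, h1, h2⟩ := h x
  let τ : Option {l' // l' ≠ l} → κ := fun o => o.elim l Subtype.val
  have h3 : Function.Injective τ := by
    rintro (_ | a) (_ | b) e
    · rfl
    · exact (b.2 e.symm).elim
    · exact (a.2 e).elim
    · exact congrArg some (Subtype.ext e)
  have h4 : ∀ o : Option {l' // l' ≠ l}, (o.elim (G l) fun l' => G l') = G (τ o) := by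
    rintro (_ | a) <;> rfl
  exact ⟨fun o => ζ (τ o), fun o => by rcases o with _ | a <;> exact h1 _,
    h2.comp (fun o : {o : Option {l' // l' ≠ l} // x ∈ o.elim (G l) fun l' => G l'} =>
      ⟨τ o, h4 o ▸ o.2⟩) fun a b e => Subtype.ext (h3 (congrArg Subtype.val e))⟩

theorem ge_mono {L : Bd X} {k k' : ℕ} (h : Ge n L k) (hk : k' ≤ k) : Ge n L k' := by
  classical
  obtain ⟨s, h1, h2⟩ := h
  refine ⟨fun j => s (j.castLE hk), fun j => h1 _, fun c hc => funext fun j => ?_⟩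
  have := congrFun (h2 (Function.extend (Fin.castLE hk) c 0) fun i x hx => by
    rw [← hc i x hx, ← Finset.sum_subset (Finset.subset_univ (Finset.univ.map (Fin.castLEEmb hk)))
      fun j _ hj => by
        rw [Function.extend_apply' (f := Fin.castLE hk) _ _ _
          fun ⟨a, e⟩ => hj (Finset.mem_map.2 ⟨a, by simp, e⟩)]
        simp, Finset.sum_map]
    exact Finset.sum_congr rfl fun j _ => by
      rw [Fin.castLEEmb_apply, (Fin.castLE_injective hk).extend_apply]) (j.castLE hk)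
  rwa [(Fin.castLE_injective hk).extend_apply] at this

/-- bundles with the exponent zero can be dropped -/
theorem desc {α β : Type} [Fintype α] [Fintype β] {L : α → Bd X} {O : β → Bd X} {m : α → ℤ}
    (hL : ∀ a, IsLB n (L a)) (hO : ∀ b, IsLB n (O b))
    (h : Ge n (lin (Sum.elim L O) (Sum.elim m 0)) 1) :
    ∃ θ, IsSec n (lin L m) θ ∧ ∃ z, NZ (lin L m) θ z := by
  obtain ⟨s, h1, h2⟩ := h
  choose o ho using fun x b => (hO b).cover x
  let ix : (∀ a, (L a).ι) → (∀ b, (O b).ι) → ∀ a : α ⊕ β, (Sum.elim L O a).ι :=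
    fun j k a => Sum.rec (motive := fun a => (Sum.elim L O a).ι) j k a
  have h3 : ∀ (j : ∀ a, (L a).ι) k x, x ∈ (lin L m).U j → (∀ b, x ∈ (O b).U (k b)) →
      x ∈ (lin (Sum.elim L O) (Sum.elim m 0)).U (ix j k) := fun j k x a b c =>
    Sum.rec (motive := fun c => x ∈ (Sum.elim L O c).U (ix j k c)) a b c
  have h4 : ∀ j k j' k' x, (lin (Sum.elim L O) (Sum.elim m 0)).g (ix j k) (ix j' k') x =
      (lin L m).g j j' x := fun j k j' k' x => by
    simp only [lin, Fintype.prod_sum_type, Sum.elim_inr, Pi.zero_apply, zpow_zero,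
      Finset.prod_const_one, mul_one, Sum.elim_inl]
    rfl
  have hl := lb_lin hL m
  have h5 : ∀ (j : ∀ a, (L a).ι) k x, x ∈ (lin L m).U j → (∀ b, x ∈ (O b).U (k b)) →
      s 0 (ix j k) x = s 0 (ix j (o x)) x := fun j k x a b =>
    ((h1 0).change _ _ x (h3 j k x a b) (h3 j _ x a (ho x))).trans (by
      rw [h4, lb_self hl a, one_mul])
  have h6 : IsSec n (lin L m) fun j x => s 0 (ix j (o x)) x := by
    refine isSec_of (fun j x hx => (sec_hol (h1 0) (h3 j _ x hx (ho x))).congr ?_)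
      fun j j' x a b => ((h1 0).change _ _ x (h3 j _ x a (ho x)) (h3 j' _ x b (ho x))).trans
        (congrArg (· * _) (h4 j _ j' _ x))
    filter_upwards [lb_near hl hx, eventually_all.2 fun b => lb_near (hO b) (ho x b)] with y a b
      using h5 j _ y a b
  refine ⟨_, h6, ?_⟩
  by_contra k
  refine one_ne_zero (congrFun (h2 1 fun i x hx => ?_) 0)
  have k1 : i = ix (fun a => i (.inl a)) fun b => i (.inr b) := funext fun a => by cases a <;> rfl
  have k2 : x ∈ (lin L m).U fun a => i (.inl a) := fun a => hx (.inl a)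
  rw [Fin.sum_univ_one, k1, h5 _ _ x k2 fun b => hx (.inr b), Pi.one_apply, one_mul]
  exact of_not_not fun k3 => k ⟨x, (nz_iff hl (fun a b => h6.change a b x) k2).2 k3⟩

end gen

theorem arith {δ : ℝ} (hδ : 0 < δ) (N₁ s C C' p ν d : ℕ) (hp : d + 1 ≤ p + ν)
    (hν : s = 0 ∨ 1 ≤ ν) : ∃ N c : ℕ, 0 < N ∧ N₁ ≤ N ∧ N ≤ c ∧ ∀ k : ℕ,
      δ * (N : ℝ) ^ p * (c : ℝ) ^ ν ≤ k →
      s * N * (C * (N + 1) ^ p * (N + c + 1) ^ (ν - 1)) + C' * (c + 1) ^ d + 1 ≤ k := by
  obtain ⟨a, ha⟩ := exists_nat_ge (max 1 ((s * C * 2 ^ p * 3 ^ (ν - 1) : ℝ) / (δ / 2)))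
  obtain ⟨N, hN⟩ := exists_nat_ge (max (max 1 (N₁ : ℝ)) ((C' * (2 * a) ^ d + 1) / (δ / 2)))
  have a1 : (1 : ℝ) ≤ a := (le_max_left _ _).trans ha
  have a2 := (div_le_iff₀ (half_pos hδ)).1 ((le_max_right _ _).trans ha)
  have n1 : (1 : ℝ) ≤ N := ((le_max_left _ _).trans (le_max_left _ _)).trans hN
  have n2 : (N₁ : ℝ) ≤ N := ((le_max_right _ _).trans (le_max_left _ _)).trans hN
  have n3 := (div_le_iff₀ (half_pos hδ)).1 ((le_max_right _ _).trans hN)
  have c1 : (N : ℝ) ≤ a * N := le_mul_of_one_le_left (by positivity) a1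
  refine ⟨N, a * N, by exact_mod_cast n1, by exact_mod_cast n2, by exact_mod_cast c1,
    fun k hk => ?_⟩
  have h1 : (s : ℝ) * N * (C * (N + 1) ^ p * (N + a * N + 1) ^ (ν - 1)) ≤
      δ / 2 * N ^ p * (a * N) ^ ν := by
    rcases hν with rfl | hν
    · simp only [Nat.cast_zero, zero_mul]
      positivity
    obtain ⟨ν, rfl⟩ := Nat.exists_eq_add_of_le' hν
    rw [Nat.add_sub_cancel] at a2 ⊢
    calc _ ≤ (s : ℝ) * N * (C * (2 * N) ^ p * (3 * (a * N)) ^ ν) := by gcongr <;> linarith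
      _ = s * C * 2 ^ p * 3 ^ ν * (N * N ^ p * (a * N) ^ ν) := by ring
      _ ≤ a * (δ / 2) * (N * N ^ p * (a * N) ^ ν) := by gcongr
      _ = _ := by ring
  have h2 : (C' : ℝ) * (a * N + 1) ^ d + 1 ≤ δ / 2 * N ^ p * (a * N) ^ ν :=
    calc _ ≤ (C' : ℝ) * (2 * (a * N)) ^ d + N ^ d := by
          gcongr
          · linarith
          · exact one_le_pow₀ n1
      _ = (C' * (2 * a) ^ d + 1) * N ^ d := by ring
      _ ≤ N * (δ / 2) * N ^ d := by gcongr
      _ = δ / 2 * N ^ (d + 1) := by ring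
      _ ≤ δ / 2 * N ^ (p + ν) := by gcongr
      _ = δ / 2 * N ^ p * N ^ ν := by ring
      _ ≤ _ := by gcongr
  have h3 : ((s * N * (C * (N + 1) ^ p * (N + a * N + 1) ^ (ν - 1)) + C' * (a * N + 1) ^ d + 1 : ℕ) :
      ℝ) ≤ k := by
    push_cast at hk ⊢
    linarith
  exact_mod_cast h3

variable {r : ℕ} {D : Zd r}

theorem lbE (h : D.Ok) : ∀ a, IsLB r (D.E a) := by
  rintro (a | l)
  · fin_cases a
    · exact P277Z.Slc.isLB_can
    · exact lb_lin (fun l => (h.div l).lb) _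
    · exact h.lbA
  · exact (h.div l).lb

theorem zero (D : Zd 0) (h : D.Ok) : D.Theta := by
  have := h.conn
  obtain ⟨s, h1, h2⟩ := h.bpf (Classical.arbitrary _)
  refine ⟨1, 0, fun j x => (s (j 2) x)⁻¹, one_pos, isSec_of (fun j x _ e _ => ?_)
    fun j j' x a b => ?_, _, fun j a => inv_ne_zero (h2 _ (a 2))⟩
  · exact analyticAt_const.congr (.of_forall fun z => by rw [Subsingleton.elim z (e x)])
  · rw [h1.change _ _ x (a 2) (b 2)]
    simp only [lin, Fin.prod_univ_three, Bd.can, mul_inv]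
    simp

end ThH

open ThH in
/-- **THETA** -/
theorem theta_of (dich : Hm.StDich) (sncb : SNCB) (nu : NU) (low : LOW) (step : STEP)
    (pll : PULL) (slice : SLICE) (poly : POLY) (cnt : CNT) (restr : RESTR) : THETA := by
  classical
  rintro (_ | d) D h
  · exact zero D h
  obtain ⟨ν, hν⟩ := nu _ D h
  let T := Finset.univ.filter fun l => ¬ D.V.Scalar l
  obtain ⟨δ, N₁, hδ, h1⟩ := low _ D h ν hν T fun l hl => by simpa [T] using hl
  have hE := lbE h
  have h2 : ∀ l, ∃ C : ℕ, l ∈ T → 1 ≤ ν ∧ ∀ (N c : ℕ) (n : _ → ℤ), n (.inl 1) = c →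
      (∀ a, a ≠ .inl 1 → |n a| ≤ N) → ∀ k, Ge (d + 1) (lin D.E n) k →
      Ge (d + 1) (lin D.E (n - Pi.single (.inr l) 1))
        (k - C * (N + 1) ^ (d + 1 - ν) * (N + c + 1) ^ (ν - 1)) := fun l => by
    by_cases hl : l ∈ T
    swap
    · exact ⟨0, fun k => (hl k).elim⟩
    have k0 := (Finset.mem_filter.1 hl).2
    obtain ⟨k1, k2⟩ := restr d D h ν l ((dich _ _ _ _ _ D.V _ D.L h.sconn h.mod h.min _ ν h.alpha
      hν.1 l).resolve_left k0)
    have k3 := k1 (of_not_not fun k => k0 fun y hy => (k ⟨y, hy⟩).elim)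
    obtain ⟨⟨k4, k5⟩, k6⟩ := pll d D.Z _ _ _ (snc_opt (sncb _ D.Z D.S).1 l)
    obtain ⟨F, i, hi⟩ := subm _ _ _ _ k4 k5
    obtain ⟨φ, hφ⟩ := k2 F i hi
    obtain ⟨k7, -, k8⟩ := k6 F i hi
    obtain ⟨C, hC⟩ := cnt d F _ (fun b => pull i (D.E b)) (.inl 2) (.inl 1) _ _ φ _ (by simp)
      (fun b => (k8 _ (hE b)).1) ((k8 _ h.lbA).2.1 h.posA) ((k8 _ h.lbA).2.2.1 h.bpf) k7 hφ
    refine ⟨C, fun _ => ⟨k3, fun N c n a b k => step d D.Z _ D.E (.inr l) _ _ F i n k _ hE (h.div l)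
      hi fun k' e => ?_⟩⟩
    rw [show d + 1 - ν = d - (ν - 1) by omega]
    exact hC N c n a b k' e
  choose C hC using h2
  obtain ⟨H, σ, k1, k2⟩ := slice _ D.Z D.A Empty (fun l => l.elim) h.lbA h.bpf
    fun x => ⟨fun l => l.elim, fun l => l.elim, fun l => l.1.elim, fun _ _ => linearIndependent_empty_type⟩
  obtain ⟨⟨k4, k5⟩, k6⟩ := pll d D.Z _ _ _ k2
  obtain ⟨F, i, hi⟩ := subm _ _ _ _ k4 k5
  obtain ⟨-, -, k8⟩ := k6 F i hi
  obtain ⟨C', hC'⟩ := poly d F _ (fun b => pull i (D.E b)) (.inl 2)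
    (fun b => (k8 _ (hE b)).1) ((k8 _ h.lbA).2.1 h.posA) ((k8 _ h.lbA).2.2.1 h.bpf)
  obtain ⟨N, c, n1, n2, n3, h3⟩ := arith hδ N₁ T.card (∑ l, C l) C' (d + 1 - ν) ν d (by omega)
    (T.eq_empty_or_nonempty.imp Finset.card_eq_zero.2 fun ⟨l, hl⟩ => (hC l hl).1)
  obtain ⟨k, h4, h5⟩ := h1 N c n2 n3
  let nn : (Fin D.S.r → ℕ) → Fin 3 ⊕ Fin D.S.r → ℤ := fun t => Sum.elim ![N, c, 0] fun l => t l
  have h6 : ∀ t : Fin D.S.r → ℕ, (∀ l, t l ≤ N) → ∀ a, a ≠ .inl 1 → |nn t a| ≤ N := by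
    rintro t ht (a | l) ha
    · fin_cases a
      · simp [nn]
      · exact (ha rfl).elim
      · simp [nn]
    · simpa [nn] using ht l
  set K := (∑ l, C l) * (N + 1) ^ (d + 1 - ν) * (N + c + 1) ^ (ν - 1) with hK
  have h7 : ∀ (s : ℕ) (t : Fin D.S.r → ℕ), ∑ l, t l = s → (∀ l, t l ≤ N ∧ (l ∉ T → t l = 0)) →
      ∀ k, Ge (d + 1) (lin D.E (nn t)) k → Ge (d + 1) (lin D.E (nn 0)) (k - s * K) := by
    intro s
    induction s with
    | zero =>
      intro t e _ k hk
      obtain rfl : t = 0 := funext fun l => (Finset.sum_eq_zero_iff.1 e) l (Finset.mem_univ l)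
      simpa using hk
    | succ s ih =>
      intro t e ht k hk
      obtain ⟨l, -, hl⟩ := Finset.exists_ne_zero_of_sum_ne_zero (e.trans_ne s.succ_ne_zero)
      have hT : l ∈ T := of_not_not fun k => hl ((ht l).2 k)
      obtain ⟨t', rfl⟩ : ∃ t', t = t' + Pi.single l 1 :=
        ⟨t - Pi.single l 1, (tsub_add_cancel_of_le fun a => by
          by_cases e2 : a = l
          · subst e2
            simpa using Nat.one_le_iff_ne_zero.2 hl
          · simp [e2]).symm⟩
      have e1 : nn (t' + Pi.single l 1) - Pi.single (.inr l) 1 = nn t' := by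
        funext a
        rcases a with a | a
        · simp [nn]
        · by_cases e2 : a = l <;> simp [nn, e2]
      have e2 := (hC l hT).2 N c _ rfl
        (h6 _ fun l => (ht l).1) k hk
      rw [e1] at e2
      refine ge_mono (ih t' (by simpa [Finset.sum_add_distrib] using e) (fun l' => ⟨
        le_of_add_le_left (ht l').1, fun k => (Nat.add_eq_zero_iff.1 ((ht l').2 k)).1⟩) _ e2) ?_
      have e3 : C l * (N + 1) ^ (d + 1 - ν) * (N + c + 1) ^ (ν - 1) ≤ K := by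
        rw [hK]
        gcongr
        exact Finset.single_le_sum (fun _ _ => Nat.zero_le _) (Finset.mem_univ l)
      rw [add_mul, one_mul]
      omega
  have h8 := h7 (T.card * N) (fun l => if l ∈ T then N else 0)
    (by simp [Finset.sum_ite_mem]) (fun l => ⟨by split_ifs <;> simp, fun a => if_neg a⟩) k
    (by
      have e : nn (fun l => if l ∈ T then N else 0) = D.ex T N c := by
        funext a
        rcases a with a | a <;> simp [nn, Zd.ex]
      rwa [e])
  have h9 := step d D.Z _ D.E (.inl 2) σ H F i _ _ _ hE k1 hi (hC' c (nn 0) fun a => by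
    by_cases e : a = .inl 1
    · simp [e, nn]
    · exact (h6 0 (fun _ => Nat.zero_le _) a e).trans (by exact_mod_cast n3)) h8
  have h10 : nn 0 - Pi.single (.inl 2) 1 = Sum.elim ![(N : ℤ), c, -1] 0 := by
    funext a
    rcases a with a | a
    · fin_cases a <;> simp [nn]
    · simp [nn]
  rw [h10] at h9
  have h11 := h3 k h4
  obtain ⟨θ, h12⟩ := desc (fun a => hE (.inl a)) (fun l => hE (.inr l)) (ge_mono h9 (by omega))
  exact ⟨N, c, θ, n1, h12⟩

end Vale.Agent.P281Z.Lf
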