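import Vale.Agent.P281Z.Lf.Omm
import Vale.Agent.P281Z.Hm.Tens
import Vale.Agent.P281Z.Mf.Mod

/-!
# P281Z, the tensor power of the variation and the variation on the base of the leaves
-/

set_option linter.unusedSectionVars false

open scoped Manifold ContDiff Topology ComplexConjugate ComplexOrder Matrix.Norms.Operator
open Set Filter Matrix
open Vale.Agent.P272.K Vale.Agent.P285.H281.FD
open Vale.Agent.P281Z.Hm Vale.Agent.P281Z.Hm.TA

noncomputable section

namespace Vale.Agent.P281Z.Lf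

namespace TpA

section alg

variable {n : Type} {a : ℕ}

theorem tp_smul (c : ℂ) (s : n → ℂ) : tp a (c • s) = c ^ a • tp a s := by
  ext I
  simp [tp, Finset.prod_mul_distrib]

theorem tp_ne {s : n → ℂ} (h : s ≠ 0) : tp a s ≠ 0 := fun e => by
  obtain ⟨k, hk⟩ := Function.ne_iff.1 h
  exact Finset.prod_ne_zero_iff.2 (fun _ _ => hk) (congrFun e fun _ => k)

theorem eq_smul (ha : 0 < a) {s t : n → ℂ} {c : ℂ} (h : tp a t = c • tp a s) {k : n}
    (hk : s k ≠ 0) : (t k / s k) ^ a = c ∧ t = (t k / s k) • s := by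
  classical
  obtain ⟨b, rfl⟩ := Nat.exists_eq_succ_of_ne_zero ha.ne'
  have h1 : ∀ m k, t m * t k ^ b = c * (s m * s k ^ b) := fun m k => by
    simpa [tp, Fin.prod_univ_succ] using congrFun h (Fin.cons m fun _ => k)
  refine ⟨by rw [div_pow, pow_succ', pow_succ', h1, mul_div_cancel_right₀ _
    (mul_ne_zero hk (pow_ne_zero _ hk))], funext fun m => ?_⟩
  rw [Pi.smul_apply, smul_eq_mul, div_mul_eq_mul_div, eq_div_iff hk]
  by_cases h0 : t k ^ b = 0
  · have hc : c = 0 := by simpa [h0, hk] using h1 k k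
    have h2 : ∀ m, t m = 0 := fun m => pow_eq_zero_iff (n := b + 1) b.succ_ne_zero |>.1
      (by rw [pow_succ', h1, hc, zero_mul])
    simp [h2]
  · refine mul_right_cancel₀ h0 ?_
    linear_combination s k * h1 m k - s m * h1 k k

theorem cz_tens {ι : Type} [Fintype ι] (A : ι → Matrix n n ℤ) :
    cz (tens A) = tens fun i => cz (A i) := by
  ext I J
  simp [cz, tens]

variable [Fintype n]

theorem tens_tp (A : Mx n) (s : n → ℂ) : (tens fun _ : Fin a => A) *ᵥ tp a s = tp a (A *ᵥ s) :=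
  tens_pt (fun _ => A) fun _ => s

theorem tensG_mul {w : ℕ} {π π' : Gr n} {A : Mx n} (h : ∀ q, π' q * A = A * π q) (q : ℕ) :
    tensG a w π' q * tens (fun _ => A) = tens (fun _ => A) * tensG a w π q := by
  simp only [tensG, Finset.sum_mul, Finset.mul_sum, tens_mul, h]

variable [DecidableEq n]

theorem hn_tp {H : Mx n} (h : H.IsHermitian) (s : n → ℂ) :
    hn (tens fun _ : Fin a => H) (tp a s) = hn H s ^ a := by
  rw [hn, tens_tp, show star (tp a s) ⬝ᵥ tp a (H *ᵥ s) = _ from pt_dot _ _, ← hn_ofReal h,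
    Finset.prod_const, Finset.card_univ, Fintype.card_fin, ← Complex.ofReal_pow, Complex.ofReal_re]

theorem L_inj (ha : 0 < a) : Function.Injective (TB.L n a) := by
  refine (injective_iff_map_eq_zero _).2 fun A h => Matrix.ext fun c d => ?_
  have k := congrFun (congrFun h fun _ => c) (Function.update (fun _ => c) ⟨0, ha⟩ d)
  simp only [TB.L_apply, Matrix.sum_apply, TB.e_apply, TB.tens_upd, Matrix.zero_apply] at k
  rcases eq_or_ne d c with rfl | hd
  · rw [Function.update_eq_self (f := fun _ : Fin a => d)] at k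
    simpa [ha.ne'] using k
  · rw [Finset.sum_eq_single ⟨0, ha⟩, Function.update_self, Finset.prod_eq_one, mul_one] at k
    · exact k
    · intro j hj
      rw [Function.update_of_ne (Finset.ne_of_mem_erase hj), one_apply_eq]
    · intro j _ hj
      rw [Finset.prod_eq_zero (Finset.mem_erase.2 ⟨hj.symm, Finset.mem_univ _⟩), mul_zero]
      rw [Function.update_self, one_apply_ne hd.symm]
    · simp

theorem ind_L (ha : 0 < a) {ι : Type} {v : ι → Mx n} (hv : LinearIndependent ℂ v) :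
    LinearIndependent ℂ fun j => TB.L n a (v j) :=
  hv.map' (TB.L n a).toLinearMap (LinearMap.ker_eq_bot.2 (L_inj ha))

/-- the pure tensor as a multilinear map -/
def ptC (n : Type) [Fintype n] (a : ℕ) :
    ContinuousMultilinearMap ℂ (fun _ : Fin a => n → ℂ) ((Fin a → n) → ℂ) :=
  .pi fun I => (ContinuousMultilinearMap.mkPiAlgebra ℂ (Fin a) ℂ).compContinuousLinearMap
    fun j => .proj (I j)

theorem ptC_apply (u : Fin a → n → ℂ) : ptC n a u = pt u := rfl

variable {E : Type} [NormedAddCommGroup E] [NormedSpace ℝ E] [NormedSpace ℂ E]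
  [IsScalarTower ℝ ℂ E] {w : ℕ} {π : E → Gr n} {ψ : E → n → ℂ} {z : E}

theorem an_tp (h : AnalyticAt ℂ ψ z) : AnalyticAt ℂ (fun x => tp a (ψ x)) z :=
  analyticAt_pi_iff.2 fun I => Finset.analyticAt_fun_prod (f := fun j x => ψ x (I j)) _
    fun j _ => analyticAt_pi_iff.1 h (I j)

theorem fderiv_tp (h : DifferentiableAt ℂ ψ z) (v : E) : fderiv ℂ (fun x => tp a (ψ x)) z v =
    ∑ j, pt (Function.update (fun _ : Fin a => ψ z) j (fderiv ℂ ψ z v)) := by
  have h1 := ((ptC n a).hasFDerivAt (x := fun _ => ψ z)).comp z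
    (hasFDerivAt_pi.2 fun _ : Fin a => h.hasFDerivAt)
  rw [show (fun x => tp a (ψ x)) = ptC n a ∘ fun x _ => ψ x from rfl, h1.fderiv,
    ContinuousLinearMap.comp_apply, ContinuousMultilinearMap.linearDeriv_apply]
  rfl

theorem ln_congr {m : Type} [Fintype m] [DecidableEq m] {π : E → Gr m} {ψ ψ' : E → m → ℂ}
    (h : LnAt w π ψ z) (e : ψ =ᶠ[𝓝 z] ψ') : LnAt w π ψ' z where
  an := h.an.congr e
  ne := e.self_of_nhds ▸ h.ne
  top := (h.top.and e).mono fun _ k => k.2 ▸ k.1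
  one := by
    filter_upwards [h.one, e.eventuallyEq_nhds] with x k1 k2
    rwa [← k2.fderiv_eq, ← k2.self_of_nhds]

theorem ln_tp [CompleteSpace E] (h : LnAt w π ψ z) {c : E → ℂ} (hc : AnalyticAt ℂ c z)
    (h0 : c z ≠ 0) : LnAt (a * w) (fun x => tensG a w (π x)) (fun x => c x • tp a (ψ x)) z where
  an := hc.smul (an_tp h.an)
  ne := smul_ne_zero h0 (tp_ne h.ne)
  top := h.top.mono fun x k => by rw [top_tens, mulVec_smul, tens_tp, k]
  one := by
    filter_upwards [h.top, h.one, h.an.eventually_analyticAt, hc.eventually_analyticAt,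
      hc.continuousAt.eventually_ne h0] with x k1 k2 k3 k4 k5 v
    obtain ⟨b, hb⟩ := k2 v
    have e : ∀ j, (tens fun _ : Fin a => π x w) *ᵥ
        pt (Function.update (fun _ : Fin a => ψ x) j (fderiv ℂ ψ x v)) = b • tp a (ψ x) := by
      intro j
      have := (ptC n a).map_update_smul (fun _ => ψ x) j b (ψ x)
      rw [Function.update_eq_self, ptC_apply] at this
      rw [tens_pt]
      refine Eq.trans (congrArg pt (funext fun i => ?_)) this
      rcases eq_or_ne i j with rfl | hi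
      · simp [hb]
      · simp [hi, k1]
    refine ⟨a * b + fderiv ℂ c x v * (c x)⁻¹, ?_⟩
    rw [top_tens, fderiv_fun_smul k4.differentiableAt (an_tp k3).differentiableAt,
      _root_.add_apply, _root_.smul_apply,
      ContinuousLinearMap.smulRight_apply, fderiv_tp k3.differentiableAt, mulVec_add, mulVec_smul,
      mulVec_smul, mulVec_sum, tens_tp, k1, Finset.sum_congr rfl fun j _ => e j, Finset.sum_const,
      Finset.card_univ, Fintype.card_fin, ← Nat.cast_smul_eq_nsmul ℂ, smul_smul, smul_smul,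
      smul_smul, ← add_smul, add_mul, mul_assoc _ _ (c x), mul_assoc _ _ (c x), inv_mul_cancel₀ k5]
    congr 1
    ring

end alg

variable {p : ℕ} {Y : Type} [TopologicalSpace Y] [ChartedSpace (Cm p) Y] {U : Set Y} {C : Cv Y U}
  {n : Type} [Fintype n] [DecidableEq n]

/-- the tensor power -/
def pow (V : GV p C n) (a : ℕ) : GV p C (Fin a → n) where
  Q := tens fun _ => V.Q
  w := a * V.w
  gr x := tensG a V.w (V.gr x)
  ρ :=
    { toFun g := tens fun _ => V.ρ g
      map_one' := cz_inj (by rw [cz_tens, V.r_one, tens_one, cz_one])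
      map_mul' g g' := cz_inj (by simp only [cz_mul, cz_tens, tens_mul, map_mul]) }
  eqv g x q := by
    simp only [MonoidHom.coe_mk, OneHom.coe_mk, cz_tens]
    exact tensG_mul (V.eqv g x) q
  pQ g := by simp only [MonoidHom.coe_mk, OneHom.coe_mk, cz_tens, tens_conj, tens_mul, V.pQ]
  lv E _ _ _ _ f z h := TB.lv_tens (V.lv E f z h)

variable [IsManifold 𝓘(ℂ, Cm p) ω Y]

theorem th_pow (V : GV p C n) (a : ℕ) {e : Chart p Y} {σ z} (h : Sc C e σ z)
    (he : e ∈ atlas (Cm p) Y) (v : Cm p) : thS (pow V a) σ z v = TB.L n a (thS V σ z v) :=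
  TB.th_tens (h.lv V he).an_J (h.lv V he).hs v

/-- the identity theorem on the covering -/
theorem ident {F : Type} [NormedAddCommGroup F] [NormedSpace ℂ F] (P : C.X → Prop)
    (h : ∀ x, ∃ u : C.X → F, ∀ᶠ x' in 𝓝 x, (P x' ↔ u x' = 0) ∧ ∀ e ∈ atlas (Cm p) Y, ∀ σ z,
      Sc C e σ z → σ z = x' → AnalyticAt ℂ (fun s => u (σ s)) z)
    {x : C.X} (hx : ∀ᶠ x' in 𝓝 x, P x') (x' : C.X) : P x' := by
  refine Eventually.self_of_nhds (p := P) ((IsClopen.eq_univ
    ⟨isClosed_of_closure_subset fun x hx => ?_, isOpen_setOfPred_eventually_nhds⟩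
    ⟨x, hx⟩).ge trivial)
  have hs := mem_chart_source (Cm p) (C.π x)
  have he := chart_mem_atlas (Cm p) (C.π x)
  set e := chartAt (Cm p) (C.π x)
  have hz := (e.continuousAt hs).comp (Br.loc C).continuous.continuousAt
  obtain ⟨σ, k1, k2, k3⟩ := exists_sc e x hs
  obtain ⟨u, hu⟩ := h x
  obtain ⟨ρ, hρ, k4⟩ := Metric.eventually_nhds_iff_ball.1
    (k1.ev.and (k1.self_of_nhds.1.eventually (k2.symm ▸ hu :)))
  have k5 := hz.eventually_mem (Metric.ball_mem_nhds _ hρ)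
  obtain ⟨x', a, b, c⟩ := ((mem_closure_iff_frequently.1 hx).and_eventually (k3.and k5)).exists
  have k6 := AnalyticOnNhd.eqOn_zero_of_preconnected_of_eventuallyEq_zero
    (fun z hz => (k4 z hz).2.2 e he σ z (k4 z hz).1 rfl) (convex_ball _ _).isPreconnected c (by
      filter_upwards [(k4 _ c).1.self_of_nhds.1.eventually (p := P) (b.symm ▸ a :),
        Metric.isOpen_ball.mem_nhds c] with z l1 l2 using (k4 z l2).2.1.1 l1)
  filter_upwards [k3, k5] with w l1 l2
  rw [← l1]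
  exact (k4 _ l2).2.1.2 (k6 l2)

variable {V : GV p C n} {l : Bd Y} (L : Ln V l)

theorem cont_ψ {i : l.ι} {x : C.X} (hx : C.π x ∈ l.U i) : ContinuousAt (L.ψ i) x := by
  have hs := mem_chart_source (Cm p) (C.π x)
  obtain ⟨σ, k1, k2, k3⟩ := exists_sc _ x hs
  exact ((L.ln i _ σ _ (k1.lift (chart_mem_atlas _ _)) (k2.symm ▸ hx)).an.continuousAt.comp
    (f := fun x' => chartAt (Cm p) (C.π x) (C.π x')) (((chartAt _ _).continuousAt hs).comp
      (Br.loc C).continuous.continuousAt)).congr (k3.mono fun _ k => congrArg (L.ψ i) k)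

theorem ψ_ne {i : l.ι} {x : C.X} (hx : C.π x ∈ l.U i) : L.ψ i x ≠ 0 :=
  (L.ln i ℂ _ 0 (Cv.lift_const x 0) hx).ne

/-- an element which is scalar on the tensor powers near a point is scalar -/
theorem mem_Nn {a : ℕ} (ha : 0 < a) {g : C.Γ} {c : ℂ} {x : C.X} {i : l.ι} (hi : C.π x ∈ l.U i)
    (h : ∀ᶠ x' in 𝓝 x, tp a (cz (V.ρ g) *ᵥ L.ψ i x') = c • tp a (L.ψ i x')) : g ∈ L.Nn := by
  have hc := (Br.loc C).continuous
  obtain ⟨k, hk⟩ := Function.ne_iff.1 (ψ_ne L hi)
  have h1 : ContinuousAt (fun x' => L.ψ i x' k) x :=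
    (continuous_apply k).continuousAt.comp (cont_ψ L hi)
  have h2 : ContinuousAt (fun x' => (cz (V.ρ g) *ᵥ L.ψ i x') k / L.ψ i x' k) x :=
    (((continuous_apply k).comp (continuous_const.matrix_mulVec continuous_id)).continuousAt.comp
      (cont_ψ L hi)).div h1 hk
  have h3 : {b : ℂ | b ^ a = c}.Finite := (Polynomial.nthRoots a c).toFinset.finite_toSet.subset
    fun b hb => by simpa [Polynomial.mem_nthRoots ha] using hb
  set c₀ := (cz (V.ρ g) *ᵥ L.ψ i x) k / L.ψ i x k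
  have key : ∀ j x, C.π x ∈ l.U j → cz (V.ρ g) *ᵥ L.ψ j x = c₀ • L.ψ j x →
      ∀ j', C.π x ∈ l.U j' → cz (V.ρ g) *ᵥ L.ψ j' x = c₀ • L.ψ j' x := fun j x a b j' d => by
    rw [L.ch j j' x a d, mulVec_smul, b, smul_comm]
  refine ⟨c₀, fun j x' => ident (p := p) (F := n → ℂ)
    (fun x => ∀ j, C.π x ∈ l.U j → cz (V.ρ g) *ᵥ L.ψ j x = c₀ • L.ψ j x) (fun x => ?_) (x := x) ?_
    x' j⟩
  · obtain ⟨j, hj⟩ := L.lb.cover (C.π x)
    refine ⟨fun x => cz (V.ρ g) *ᵥ L.ψ j x - c₀ • L.ψ j x, ?_⟩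
    filter_upwards [hc.continuousAt.eventually_mem ((L.lb.isOpen j).mem_nhds hj)] with x' b
    refine ⟨⟨fun d => sub_eq_zero.2 (d j b), fun d => key j x' b (sub_eq_zero.1 d)⟩,
      fun e he σ z k1 k2 => ?_⟩
    have d := (L.ln j _ σ z (k1.lift he) (k2.symm ▸ b)).an
    exact (an_mulVec analyticAt_const d).sub (d.const_smul (c := c₀))
  · filter_upwards [h, h1.eventually_ne hk, hc.continuousAt.eventually_mem
      ((L.lb.isOpen i).mem_nhds hi), h2.eventually_mem
        ((h3.subset (sdiff_subset (t := {c₀}))).isClosed.isOpen_compl.mem_nhds fun b => b.2 rfl)]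
      with x' b1 b2 b3 b4
    obtain ⟨d1, d2⟩ := eq_smul ha b1 b2
    exact key i x' b3 (by rwa [not_not.1 fun d => b4 ⟨d1, d⟩] at d2)

end TpA

open TpA

theorem tp_of : OMM → TP := by
  intro _ p W S C n _ _ V l L r u a q B hl h
  choose i hi using L.lb.cover
  have hψ : ∀ j x, C.π x ∈ l.U j → C.π x ∉ B →
      q (i (C.π x)) (C.π x) • tp a (L.ψ (i (C.π x)) x) = q j (C.π x) • tp a (L.ψ j x) := by
    intro j x h1 h2
    rw [L.ch j _ x h1 (hi _), tp_smul, smul_smul, h.qchg j _ _ h1 (hi _) h2, mul_comm]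
  have hev : ∀ (e : Chart p W.X) σ z, Sc C e σ z → e.symm z ∉ B →
      (fun x => q (i (e.symm z)) (e.symm x) • tp a (L.ψ (i (e.symm z)) (σ x))) =ᶠ[𝓝 z]
      fun x => q (i (C.π (σ x))) (C.π (σ x)) • tp a (L.ψ (i (C.π (σ x))) (σ x)) := by
    intro e σ z k1 k2
    have c := e.continuousAt_symm k1.tgt
    filter_upwards [k1, c.eventually_mem (h.thin.closed.isOpen_compl.mem_nhds k2),
      c.eventually_mem ((L.lb.isOpen _).mem_nhds (hi (e.symm z)))] with x b1 b2 b3
    rw [hψ _ _ (b1.2.2.symm ▸ b3) (b1.2.2.symm ▸ b2), b1.2.2]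
  refine ⟨pow V a, fun x => q (i (C.π x)) (C.π x) • tp a (L.ψ (i (C.π x)) x),
    ⟨rfl, fun _ => rfl, fun _ => rfl, hψ, fun j x h1 h2 => ?_, fun r y k e he σ k1 => ?_⟩,
    fun g x _ => ?_, fun e he σ z k1 k2 => ?_, fun e he σ z k1 k2 k3 v k4 => ?_⟩
  · rw [hψ j x h1 h2, hn_smul, L.hY_eq h1]
    change _ * hn (gH (tens fun _ => V.Q) (a * V.w) (tensG a V.w (V.gr x))) _ = _
    rw [gH_tens, hn_tp (V.hs x).pos.1, Ln.h]
  · refine (k e he σ k1).imp fun v hv => ?_
    simp only [th_pow V a k1 he.1]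
    exact ind_L h.pos hv
  · simp only [C.inv]
    rw [L.eqv _ g x (hi _), hl, one_smul, mulVec_smul, ← tens_tp, ← cz_tens]
    rfl
  · have k3 := h.qhol _ _ (hi (e.symm z)) k2
    have k4 := k3.1 e ⟨he, e.map_target k1.tgt⟩
    rw [e.right_inv k1.tgt] at k4
    exact ln_congr (ln_tp (L.ln _ _ σ z (k1.lift he) (k1.pi.symm ▸ hi _)) k4 k3.2) (hev e σ z k1 k2)
  · obtain ⟨b1, b2⟩ := h.flat _ e he σ z k1 k2 (hi _) k3 v k4
    exact ⟨by rw [th_pow V a k1 he, b1, map_zero], by rw [← (hev e σ z k1 k2).fderiv_eq, b2]⟩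

theorem zed_of : OMM → ZED := by
  intro hO p W S C n _ _ V l L r u a q B V₁ Ψ F D h hT hM
  have hc := (Br.loc C).continuous
  have hB := F.modif.thin.closed.isOpen_compl
  obtain ⟨y₀, b1, b2⟩ := h.rk
  obtain ⟨y, ⟨c1, c2⟩, hy⟩ := ((hO p W S C _ V₁).dense r ⟨y₀, b1, hT.rk r y₀ b2⟩).exists_mem_open hB
    (@Dense.nonempty _ _ _ ⟨y₀⟩ F.modif.thin.2)
  obtain ⟨x, rfl⟩ := C.surj y c1
  have hx := hc.continuousAt.eventually_mem (hB.mem_nhds hy)
  refine ⟨fun g ⟨c, hg⟩ x' k => ?_, ?_⟩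
  · obtain ⟨i, hi⟩ := L.lb.cover (C.π x)
    have k1 := hM _ (mem_Nn L h.pos (g := D.ε g) (c := c) hi (by
      filter_upwards [hx, hc.continuousAt.eventually_mem ((L.lb.isOpen i).mem_nhds hi)]
        with x' d1 d2
      have d3 : C.π x' ∉ B := fun d => d1 (F.sub d)
      obtain ⟨j, hj⟩ := D.L'.lb.cover (D.C'.π (D.Φ x'))
      have := hg j (D.Φ x') hj
      rw [D.ψ _ _ d1, D.ρ, hT.ρ, hT.ψ i x' d2 d3, cz_tens, mulVec_smul, tens_tp, smul_comm] at this
      exact smul_right_injective _ (h.qhol i _ d2 d3).2 this))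
    obtain ⟨x'', d1, rfl⟩ := D.surj x'
    rw [D.gr _ d1, D.ρ, hT.ρ, hT.gr, cz_tens]
    exact (tensG_mul (fun q => (k1 x'' q).symm) k).symm
  obtain ⟨τ, t1, -, t3⟩ := F.modif.inv
  have hπ : ∀ x', C.π x' ∉ F.B → D.C'.π (D.Φ x') = F.γ (τ (C.π x')) := fun x' k =>
    D.π x' _ (t1 _) k
  have he := P277Z.at_chart (n := p) (C.π x)
  have he' := P277Z.at_chart (n := r) (D.C'.π (D.Φ x))
  set e := chartAt (Cm p) (C.π x)
  set e' := chartAt (Cm r) (D.C'.π (D.Φ x))
  obtain ⟨σ, k1, k2, -⟩ := exists_sc e x he.2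
  obtain ⟨σ', l1, -, l3⟩ := exists_sc e' (D.Φ x) he'.2
  obtain ⟨v, hv⟩ := c2 e he σ k1
  have ha := ((F.hol.at _).cmp (t3 _ hy).1).an he (hπ x hy ▸ he')
  have h0 : e' (F.γ (τ (e.symm (e (C.π x))))) = e' (D.C'.π (D.Φ x)) := by
    rw [e.left_inv he.2, hπ x hy]
  have hσ : Tendsto σ (𝓝 (e (C.π x))) (𝓝 x) := by
    have := k1.self_of_nhds.1
    rwa [ContinuousAt, k2] at this
  have hev : (fun s => V₁.gr (σ s)) =ᶠ[𝓝 (e (C.π x))]
      fun s => D.V'.gr (σ' (e' (F.γ (τ (e.symm s))))) := by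
    filter_upwards [k1, hσ.eventually hx,
      hσ.eventually ((D.cont.continuousAt hx).eventually l3)] with s d1 d2 d3
    rw [← d1.2.2, ← hπ _ d2, d3, D.gr _ d2]
  refine ⟨_, l1.mem, l1.rk1 D.V' he'.1
    (v := fun j => fderiv ℂ (fun s => e' (F.γ (τ (e.symm s)))) (e (C.π x)) (v j)) ?_⟩
  have k3 := fun j => LVAt.th_pull (g := fun s => e' (F.γ (τ (e.symm s))))
    (h0.symm ▸ l1.lv D.V' he'.1 :) ha (v j)
  simp only [thS, th_congr hev, ← D.w, k3, h0] at hv
  exact hv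

theorem tp_ok : TP := tp_of omm

theorem zed : ZED := zed_of omm

end Vale.Agent.P281Z.Lf
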