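import Vale.Agent.P281Z.Lf.TubeB

/-!
# P281Z, tubes around general leaves (TUBE)
-/

set_option linter.unusedSectionVars false

open scoped Topology ComplexConjugate ComplexOrder Matrix.Norms.Operator
open Set Filter Matrix
open Vale.Agent.P272.K Vale.Agent.P285.H281.FD
open Vale.Agent.P277Z.Slc (Ind)
open Vale.Agent.P284Z (levi)
open Vale.Agent.P281Z.Hm hiding Bd Fr

noncomputable section

namespace Vale.Agent.P281Z.Lf

namespace Tb

theorem li_of_ker {E F F' ι : Type} [AddCommGroup E] [Module ℂ E] [AddCommGroup F] [Module ℂ F]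
    [AddCommGroup F'] [Module ℂ F'] [Fintype ι] (T : E →ₗ[ℂ] F) (T' : E →ₗ[ℂ] F')
    (h : ∀ v, T v = 0 → T' v = 0) {v : ι → E} (hv : LinearIndependent ℂ fun j => T' (v j)) :
    LinearIndependent ℂ fun j => T (v j) :=
  Fintype.linearIndependent_iff.2 fun c hc => Fintype.linearIndependent_iff.1 hv c
    (by simpa using h (∑ j, c j • v j) (by simpa using hc))

theorem rows {p R r : ℕ} (T : Cm p →L[ℂ] Cm R) {v : Fin r → Cm p}
    (h : LinearIndependent ℂ fun j => T (v j)) : ∃ I : Fin r → Fin R,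
      LinearIndependent ℂ fun k => (ContinuousLinearMap.proj (I k) : Cm R →L[ℂ] ℂ).comp T := by
  obtain ⟨κ, a, h1, h2, h3⟩ := exists_linearIndependent' ℂ
    fun b => (ContinuousLinearMap.proj b : Cm R →L[ℂ] ℂ).comp T
  have := Fintype.ofInjective a h1
  have h4 := li_of_ker (LinearMap.pi fun k => LinearMap.proj (a k) ∘ₗ (T : Cm p →ₗ[ℂ] Cm R))
    (T : Cm p →ₗ[ℂ] Cm R) (fun u hu => funext fun b => (Submodule.span_le.2 (range_subset_iff.2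
      fun k => congrFun hu k) : _ ≤ LinearMap.ker (ContinuousLinearMap.apply ℂ ℂ u).toLinearMap)
      (h2.ge (Submodule.subset_span ⟨b, rfl⟩))) h
  obtain ⟨f⟩ := Function.Embedding.nonempty_of_card_le
    (h4.fintype_card_le_finrank.trans_eq (Module.finrank_fintype_fun_eq_card ℂ))
  exact ⟨_, h3.comp f f.injective⟩

theorem line {n : Type} [Fintype n] [DecidableEq n] (Q A : Mx n) (w : ℕ) {k : n} {d₀ : Dt n}
    (h : d₀.2 k k ≠ 0) (h' : (A *ᵥ nr k d₀.2) k ≠ 0) : ∃ B, ∀ᶠ d in 𝓝 d₀, ∀ s ≠ 0, d.2 = pj s →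
      (A *ᵥ s) k ≠ 0 ∧ hn (gH Q w d.1) s ≤ B * ‖(A *ᵥ s) k‖ ^ 2 := by
  have h1 : ContinuousAt (fun d : Dt n => nr k d.2) d₀ :=
    continuousAt_pi.2 fun a => .mul (.inv₀ (by fun_prop) h) (by fun_prop)
  have h2 : ContinuousAt (fun d : Dt n => (A *ᵥ nr k d.2) k) d₀ :=
    ((continuous_apply k).comp (continuous_const.matrix_mulVec continuous_id)).continuousAt.comp h1
  have h3 : ContinuousAt (fun d : Dt n => gH Q w d.1) d₀ := by
    unfold gH gC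
    fun_prop
  have h4 := (Cp.cont_hn.continuousAt.comp (h3.prodMk h1)).div (h2.norm.pow 2)
    (pow_ne_zero _ (norm_ne_zero_iff.2 h'))
  refine ⟨hn (gH Q w d₀.1) (nr k d₀.2) / ‖(A *ᵥ nr k d₀.2) k‖ ^ 2 + 1,
    ((h4.eventually_lt continuousAt_const (lt_add_one _)).and ((h2.eventually_ne h').and
    ((by fun_prop : ContinuousAt (fun d : Dt n => d.2 k k) d₀).eventually_ne h))).mono ?_⟩
  rintro d ⟨a, b, c⟩ s hs e
  have h5 := (pj_kk hs).1 (e ▸ c)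
  have h6 : s = s k • nr k d.2 := by rw [e, nr_pj h5, smul_inv_smul₀ h5]
  have h7 := (div_lt_iff₀ (pow_pos (norm_pos_iff.2 b) 2)).1 a
  rw [h6, mulVec_smul, hn_smul, Pi.smul_apply, norm_smul, mul_pow, mul_left_comm]
  exact ⟨mul_ne_zero h5 b, mul_le_mul_of_nonneg_left h7.le (sq_nonneg _)⟩

theorem crd (E : Type) [NormedAddCommGroup E] [NormedSpace ℂ E] [FiniteDimensional ℂ E] :
    ∃ (R : ℕ) (J : E →L[ℂ] Cm R) (K : ℝ), 0 < K ∧ ∀ v, ‖v‖ ≤ K * ‖J v‖ := by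
  obtain ⟨K, h, a⟩ := (Module.finBasis ℂ E).equivFunL.symm.toContinuousLinearMap.bound
  exact ⟨_, (Module.finBasis ℂ E).equivFunL.toContinuousLinearMap, K, h, fun v => by
    simpa using a ((Module.finBasis ℂ E).equivFunL v)⟩

variable {p : ℕ} {W : Mf p} {S : Hm.Snc p W.X} {C : Cv W.X S.U} {n : Type} [Fintype n]
  [DecidableEq n] {V : GV p C n} {l : Bd W.X} {L : Ln V l} {x₀ : C.X} {k : n}

/-- the tube on the covering -/
structure Tu (L : Ln V l) (x₀ : C.X) (M : Set C.X) (s : W.X → C.X) {R : ℕ} (β : W.X → Cm R)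
    (B ρ : ℝ) : Prop where
  opn : IsOpen M
  mem : x₀ ∈ M
  zero : β (C.π x₀) = 0
  pos : 0 < ρ
  nn : 0 ≤ B
  lift : ∀ x ∈ M, ∃ g ∈ L.Nn, s (C.π x) = g • x
  der : ∀ e ∈ atlas (Cm p) W.X, ∀ σ z, Sc C e σ z → σ z ∈ M →
    AnalyticAt ℂ (fun z => β (e.symm z)) z ∧ ∀ v,
      (fderiv ℂ (fun z => β (e.symm z)) z v = 0 → thS V σ z v = 0) ∧
      ‖fderiv ℂ (fun z => β (e.symm z)) z v‖ ^ 2 ≤ B * omH V.w (fun x => V.gr (σ x)) z v
  cls : ∀ y ∈ S.U, y ∈ closure {y | y ∈ C.π '' M ∧ ‖β y‖ ≤ ρ} → y ∈ C.π '' M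

theorem exists_tu (hO : Omm V) (hl : ∀ g, L.lam g = 1) (hm : L.Min)
    (hg : ∀ g, Rel (cz (V.ρ g)) (D L x₀) (D L x₀) → g ∈ L.Nn) (hk : (D L x₀).2 k k ≠ 0)
    {O₀ : Set (Dt n)} (h₀ : O₀ ∈ 𝓝 (D L x₀)) :
    ∃ (R : ℕ) (M : _) (s : _) (β : W.X → Cm R) (B ρ : ℝ), Tu L x₀ M s β B ρ ∧
      ∀ x ∈ M, D L x ∈ O₀ := by
  obtain ⟨O₁, h1, h2⟩ := sep V.Q V.w (D L x₀)
  obtain ⟨O, O', B, ρ, o1, o2, o3, o4, o5, o6, o7, o8⟩ :=
    shrink (V.hs x₀) (D_ls L x₀) hk (inter_mem h₀ h1)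
  obtain ⟨B', hB'⟩ := (stCpt n V.Q V.w B).1
  obtain ⟨R, J, K, hK, hJ⟩ := crd (Et V.w n)
  have hM := o1.preimage (cont_D (L := L) hO)
  choose s hs using fun y => (by
    by_cases h : y ∈ C.π '' (D L ⁻¹' O)
    exacts [h.imp fun _ a _ => a, ⟨x₀, fun a => absurd a h⟩] :
    ∃ x, y ∈ C.π '' (D L ⁻¹' O) → D L x ∈ O ∧ C.π x = y)
  have h3 : ∀ x ∈ D L ⁻¹' O, ∃ g ∈ L.Nn, s (C.π x) = g • x := fun x hx => by
    obtain ⟨a, b⟩ := hs _ ⟨x, hx, rfl⟩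
    obtain ⟨g, c⟩ := C.tr x _ b.symm
    exact ⟨g, hg g (h2 _ (o5 hx).2 _ (o5 a).2 _ (V.pQ g) (V.hs _) (V.hs _) (c ▸ rel_D hl g x)), c⟩
  have h4 : ∀ x ∈ D L ⁻¹' O, D L (s (C.π x)) = D L x := fun x hx => by
    obtain ⟨g, a, b⟩ := h3 x hx
    rw [b, D_nn hl hm a]
  have hB : 0 ≤ max B B' := le_max_of_le_left ((norm_nonneg _).trans (o7 _ o3).2.2)
  refine ⟨_, D L ⁻¹' O, s, fun y => J (co V.w (V.gr x₀) k (D L (s y)) - co V.w (V.gr x₀) k (D L x₀)),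
    (‖J‖ * (1 + max B B') ^ 3) ^ 2 * max B B', ρ / K, ⟨hM, o3, by rw [h4 _ o3, sub_self, map_zero],
    div_pos o6 hK, by positivity, h3, fun e he σ z a b => ?_, fun y hy a => image_mono
      (preimage_mono o4) (cls hO hl o2 (fun d b => (o7 d (o4 b)).2.1) hy (closure_mono ?_ a))⟩,
    fun x hx => (o5 hx).1⟩
  · obtain ⟨k1, k2⟩ := sc_D (L := L) hO he a (ix_mem L _)
    have k0 := lv hO he a
    obtain ⟨k3, k4⟩ := der k0 k1 (V.hs x₀) (o7 _ b).1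
    have k5 : (fun x => J (co V.w (V.gr x₀) k (V.gr (σ x), pj (L.ψ (ix L (σ z)) (σ x))) -
        co V.w (V.gr x₀) k (D L x₀))) =ᶠ[𝓝 z] fun x => J (co V.w (V.gr x₀) k (D L (s (e.symm x))) -
          co V.w (V.gr x₀) k (D L x₀)) := by
      filter_upwards [k2, a, a.self_of_nhds.1.eventually_mem (hM.mem_nhds b)] with x c d f
      rw [← d.2.2, h4 _ f, c]
    have k6 := ((J.hasFDerivAt.comp z (k3.differentiableAt.hasFDerivAt.sub_const
      _)).congr_of_eventuallyEq k5.symm).fderiv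
    refine ⟨((J.analyticAt _).comp (k3.sub analyticAt_const)).congr k5, fun v => ?_⟩
    rw [k6]
    refine ⟨fun c => (k4 v).2 (norm_le_zero_iff.1 ((hJ _).trans_eq
      ((congrArg (K * ‖·‖) c).trans (by simp)))), ?_⟩
    obtain ⟨c1, -, c2⟩ := hB' _ (V.hs _) (o7 _ b).2.1
    have c3 := ((c2 (thS V σ z v)).1.trans_eq (congrArg _ (Lp.omH_eq k0 v).symm)).trans
      (mul_le_mul_of_nonneg_right (le_max_right B B') (Lp.omH_nonneg k0 v))
    have c4 := dco_le (k := k) ((o7 _ b).2.2.trans (le_max_left B B'))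
      (fun q => (c1 q).trans (le_max_right _ _)) (thS V σ z v)
    calc _ ≤ (‖J‖ * ((1 + max B B') ^ 3 * ‖thS V σ z v‖)) ^ 2 := by
          gcongr
          refine (J.le_opNorm _).trans ?_
          gcongr
          exact (congrArg _ (k4 v).1).trans_le c4
      _ ≤ _ := by
          rw [← mul_assoc, mul_pow, mul_assoc]
          gcongr
  · rintro _ ⟨⟨x, hx, rfl⟩, b⟩
    refine ⟨x, o8 _ hx (V.hs _) (D_ls L x) ?_, rfl⟩
    rw [← h4 x hx]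
    exact (hJ _).trans ((le_div_iff₀' hK).1 b)

variable {M : Set C.X} {s : W.X → C.X} {R : ℕ} {β : W.X → Cm R} {B ρ : ℝ} {e : Chart p W.X}
  {y : W.X}

theorem sec (hO : Omm V) (he : At e y) (hy : y ∈ C.π '' M) :
    ∃ σ, Sc C e σ (e y) ∧ σ (e y) ∈ M := by
  obtain ⟨x, hx, rfl⟩ := hy
  obtain ⟨σ, a, b, -⟩ := hO.ex e x he
  exact ⟨σ, a, b.symm ▸ hx⟩

theorem Tu.ker (T : Tu L x₀ M s β B ρ) (hO : Omm V) (he : At e y) (hy : y ∈ C.π '' M) {σ}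
    (h : Sc C e σ (e y)) (v : Cm p) (h0 : thS V σ (e y) v = 0) : dB β e y v = 0 := by
  obtain ⟨σ', a, b⟩ := sec hO he hy
  have h1 := ((T.der e he.1 σ' _ a b).2 v).2
  rw [(Lp.omH_zero (lv hO he.1 a) v).2 (th_two hO he.1 h a h0), mul_zero] at h1
  exact norm_eq_zero.1 (pow_eq_zero_iff two_ne_zero |>.1 (h1.antisymm (sq_nonneg _)))

theorem Tu.tube (T : Tu L x₀ M s β B ρ) (hO : Omm V) {r : ℕ} (hr : RkLe V r) {h}
    (hh : ∀ (e : Chart p W.X) x, At e x → x ∈ S.U → ∀ v,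
      qd (omM V e (e x)) v ≤ qd (h e (e x)) v) : Tube p S.U h r ρ (C.π '' M) β where
  opn := (Br.loc C).isOpenMap _ T.opn
  sub := image_subset_iff.2 fun x _ => C.mem x
  hol y hy k e he := (sec hO he hy).elim fun σ a =>
    analyticAt_pi_iff.1 (T.der e he.1 σ _ a.1 a.2).1 k
  rk e y he hy := not_lt.1 fun hlt => by
    obtain ⟨σ, a, -⟩ := sec hO he hy
    obtain ⟨f, hf⟩ := exists_linearIndependent_of_le_finrank (Nat.succ_le_of_lt hlt)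
    choose v hv using fun j => (f j).2
    exact hr e he.1 σ _ a v (li_of_ker (thL V.w _ _) (dB β e y : Cm p →ₗ[ℂ] Cm R)
      (T.ker hO he hy a) ((congrArg (LinearIndependent ℂ ·) (funext hv)).mpr (hf.map' (Submodule.subtype _)
        (Submodule.ker_subtype _))))
  cls := T.cls
  met := ⟨B, fun e y he hy _ v => by
    obtain ⟨σ, a, b⟩ := sec hO he hy
    refine ((T.der e he.1 σ _ a b).2 v).2.trans (mul_le_mul_of_nonneg_left ?_ T.nn)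
    rw [← (hO.eq e he.1 σ _ a).2]
    exact hh e y he (hy.choose_spec.2 ▸ C.mem _) v⟩

theorem Tu.ind (T : Tu L x₀ M s β B ρ) (hO : Omm V) {r : ℕ} (hr : RkAt V r (C.π x₀)) :
    ∃ I : Fin r → Fin R, Ind p (fun k y => β y (I k)) (C.π x₀) := by
  have he := P277Z.Slc.at_chartAt (n := p) (C.π x₀)
  obtain ⟨σ, a, b⟩ := sec hO he ⟨x₀, T.mem, rfl⟩
  obtain ⟨v, hv⟩ := hr _ he σ a
  obtain ⟨c, d⟩ := T.der _ he.1 σ _ a b
  obtain ⟨I, hI⟩ := rows (fderiv ℂ _ _) (li_of_ker _ (thL V.w _ _) (fun v => (d v).1) hv)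
  refine ⟨I, .of_chart (fun k e he => (sec hO he ⟨x₀, T.mem, rfl⟩).elim fun σ a =>
    analyticAt_pi_iff.1 (T.der e he.1 σ _ a.1 a.2).1 _) he ?_⟩
  exact (funext fun k => (hasFDerivAt_pi'.1 c.differentiableAt.hasFDerivAt (I k)).fderiv.symm) ▸ hI

theorem Tu.frm (T : Tu L x₀ M s β B ρ) (hO : Omm V) (hL : LLB) (hl : ∀ g, L.lam g = 1) (hm : L.Min)
    {Λ φ m} (h : Lam V Λ φ m) {o c a : ℕ} (ho : ∀ g ∈ L.Nn, V.ρ g ^ o = 1) (oc : o ∣ c) (oa : o ∣ a)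
    {A : Mx n} {c₀ c₁ B₁ : ℝ} (hc : c₀ * B ≤ 4 * c) (h1 : 0 < c₁)
    (h2 : ∀ x ∈ M, ∀ j, C.π x ∈ Λ.U j → c₁ * Real.exp (-φ j (C.π x)) ≤ ‖m A j x‖ ^ 2)
    (h3 : ∀ x ∈ M, ∀ i, C.π x ∈ l.U i →
      (A *ᵥ L.ψ i x) k ≠ 0 ∧ L.h i x ≤ B₁ * ‖(A *ᵥ L.ψ i x) k‖ ^ 2) :
    ∃ P, Frm p (bw φ L c a) (C.π '' M) β ρ c₀ P ∧
      ∀ i, C.π x₀ ∈ (bun Λ l S.U c a).U i → P i (C.π x₀) ≠ 0 := by
  obtain ⟨k1, k2, k3⟩ := hL p W S C n V l L Λ φ m h hl c a
  have k2 := k2 k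
  have k4 : ∀ x ∈ M, ∀ i, C.π x ∈ (bun Λ l S.U c a).U i →
      bm m L k c a A i (s (C.π x)) = bm m L k c a A i x := fun x hx i hi => by
    obtain ⟨g, b, e⟩ := T.lift x hx
    obtain ⟨c', rfl⟩ := oc
    obtain ⟨a', rfl⟩ := oa
    obtain ⟨t, d, f⟩ := ψ_pow hl b (ho g b) hi.2.1
    simp only [e, bm, lm, pow_mul, h.dual.eqv A i.1 g x hi.1, h.fin A i.1 g x o hi.1 (ho g b)
      (hm g b x), f, mulVec_smul, Pi.smul_apply, smul_eq_mul, mul_pow, d, one_mul]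
  have k5 : ∀ x ∈ M, ∀ j, C.π x ∈ Λ.U j → m A j x ≠ 0 := fun x hx j hj e => by
    have := h2 x hx j hj
    rw [e, norm_zero, zero_pow two_ne_zero] at this
    exact absurd this (not_le.2 (by positivity))
  have k6 : ∀ x ∈ M, ∀ i, C.π x ∈ (bun Λ l S.U c a).U i → bm m L k c a A i x ≠ 0 :=
    fun x hx i hi => mul_ne_zero (pow_ne_zero _ (k5 x hx _ hi.1)) (pow_ne_zero _ (h3 x hx _ hi.2.1).1)
  have k7 : ∀ i (e : Chart p W.X) y σ, At e y → y ∈ (bun Λ l S.U c a).U i → Sc C e σ (e y) →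
      σ (e y) ∈ M → C.π (σ (e y)) = y ∧ (fun z => (bm m L k c a A i (s (e.symm z)))⁻¹) =ᶠ[𝓝 (e y)]
        fun z => (bm m L k c a A i (σ z))⁻¹ := fun i e y σ he hi b d => by
    have f : C.π (σ (e y)) = y := (Sc.π b).trans (e.left_inv he.2)
    refine ⟨f, ?_⟩
    filter_upwards [b, b.self_of_nhds.1.eventually_mem (T.opn.mem_nhds d),
      ((Br.loc C).continuous.continuousAt.comp b.self_of_nhds.1).eventually_mem
        ((k1.isOpen i).mem_nhds (f.symm ▸ hi :))] with z g1 g2 g3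
    rw [← g1.2.2, k4 _ g2 i g3]
  refine ⟨fun i y => (bm m L k c a A i (s y))⁻¹, ⟨fun i y hy hi e he => ?_, ?_,
    ⟨c₁⁻¹ ^ c * B₁ ^ a, ?_⟩, fun i e y he hy hi v h0 => ?_, fun i e y he hi v => ?_,
    fun i e y he hy hi _ v => ?_⟩, fun i hi => inv_ne_zero (k4 _ T.mem i hi ▸ k6 _ T.mem i hi)⟩
  · obtain ⟨σ, b, d⟩ := sec hO he hy
    obtain ⟨f, g⟩ := k7 i e y σ he hi b d
    exact ((k2.an A i e he.1 σ _ b ((e.left_inv he.2).symm ▸ hi)).inv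
      (k6 _ d i (f.symm ▸ hi))).congr g.symm
  · rintro i j _ ⟨x, hx, rfl⟩ hi hj
    rw [k4 x hx i hi, k4 x hx j hj, k2.chg A i j x hi hj, mul_inv, mul_inv_cancel_left₀
      (k1.ne i j _ hi hj)]
  · rintro i _ ⟨x, hx, rfl⟩ hi -
    have f1 := L.h_pos hi.2.1
    have f2 := norm_pos_iff.2 (k5 x hx _ hi.1)
    have f3 := norm_pos_iff.2 (h3 x hx _ hi.2.1).1
    have f4 : Real.exp (-φ i.1 (C.π x)) / ‖m A i.1 x‖ ^ 2 ≤ c₁⁻¹ := by
      rw [div_le_iff₀ (by positivity), le_inv_mul_iff₀ h1]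
      exact h2 x hx _ hi.1
    have f5 := (div_le_iff₀ (by positivity)).2 (h3 x hx _ hi.2.1).2
    refine le_trans (le_of_eq ?_) (mul_le_mul (pow_le_pow_left₀ (by positivity) f4 c)
      (pow_le_pow_left₀ (by positivity) f5 a) (by positivity) (by positivity))
    simp only [k4 x hx i hi, bw, lw]
    rw [L.hY_eq hi.2.1, neg_add, Real.exp_add, ← mul_neg, ← mul_neg, neg_neg,
      Real.exp_nat_mul, Real.exp_nat_mul, Real.exp_log f1]
    simp only [bm, lm, norm_inv, norm_mul, norm_pow, div_pow]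
    ring
  · obtain ⟨σ, b, d⟩ := sec hO he hy
    obtain ⟨f, g⟩ := k7 i e y σ he hi b d
    have f1 : e.symm (e y) ∈ (bun Λ l S.U c a).U i := (e.left_inv he.2).symm ▸ hi
    have f2 := k6 _ d i (f.symm ▸ hi)
    have f3 := g.self_of_nhds
    simp only [e.left_inv he.2] at f3
    have f4 : HasFDerivAt (fun z => (bm m L k c a A i (σ z))⁻¹) _ _ := (hasDerivAt_inv
      f2).comp_hasFDerivAt (e y) (k2.an A i e he.1 σ _ b f1).differentiableAt.hasFDerivAt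
    rw [g.fderiv_eq, f3, f4.fderiv, _root_.smul_apply,
      k2.flat A i e he.1 σ _ b f1 v (((T.der e he.1 σ _ b d).2 v).1 h0), smul_eq_mul]
    field_simp
  · obtain ⟨x, rfl⟩ := C.surj y (k1.sub i hi)
    obtain ⟨σ, b, -⟩ := hO.ex e x he
    exact le_trans (mul_nonneg (by positivity) (Lp.omH_nonneg (lv hO he.1 b) v))
      (k3 i e he.1 σ _ b ((e.left_inv he.2).symm ▸ hi) v)
  · obtain ⟨σ, b, d⟩ := sec hO he hy
    refine le_trans ?_ (k3 i e he.1 σ _ b ((e.left_inv he.2).symm ▸ hi) v)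
    have f1 := ((T.der e he.1 σ _ b d).2 v).2
    have f2 := Lp.omH_nonneg (lv hO he.1 b) v
    rcases le_total 0 c₀ with f3 | f3
    · exact (mul_le_mul_of_nonneg_left f1 f3).trans
        ((mul_assoc _ _ _).symm.trans_le (mul_le_mul_of_nonneg_right hc f2))
    · exact (mul_nonpos_of_nonpos_of_nonneg f3 (sq_nonneg _)).trans (by positivity)

end Tb

open Tb MvPolynomial in
/-- **TUBE** -/
theorem tube_of (hO : OMM) (hL : LLB) : TUBE := by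
  intro p W S C n _ _ V l L Λ φ m h r hΛ hl hm hr hy hh
  have hO := hO p W S C n V
  obtain ⟨x₀, h1, h2⟩ := gen (L := L) hO hy
  obtain ⟨o, h3, h4⟩ := ord hm
  obtain ⟨k, hk⟩ := Function.ne_iff.1 (ψ_ne L (ix_mem L x₀))
  have hk' : (D L x₀).2 k k ≠ 0 := (pj_kk (ψ_ne L (ix_mem L x₀))).2 hk
  obtain ⟨j, hj⟩ := hΛ.lb.cover _ (C.mem x₀)
  obtain ⟨d, hd⟩ := hΛ.dual.poly
  obtain ⟨P, a1, -, a2⟩ := hd j x₀ hj
  have a3 : ∀ t : n × n → ℂ, eval t (∑ b, X (k, b) * MvPolynomial.C (nr k (D L x₀).2 b)) =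
      ((of fun a b => t (a, b)) *ᵥ nr k (D L x₀).2) k := fun t => by simp [mulVec, dotProduct]
  obtain ⟨t, ht⟩ : ∃ t, eval t (P * ∑ b, X (k, b) * MvPolynomial.C (nr k (D L x₀).2 b)) ≠ 0 := by
    refine not_forall.1 fun a => mul_ne_zero a1 (fun b => ?_) (MvPolynomial.funext a)
    have := a3 fun ab => (1 : Mx n) ab.1 ab.2
    rw [b, map_zero, show (of fun a b => (1 : Mx n) a b) = 1 from rfl, one_mulVec, nr,
      inv_mul_cancel₀ hk'] at this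
    exact zero_ne_one this
  rw [map_mul, a3, mul_ne_zero_iff] at ht
  obtain ⟨δ, c₁, b1, b2, b3⟩ := hΛ.low (of fun a b => t (a, b)) j x₀ hj (a2 _ ▸ ht.1)
  obtain ⟨B₁, b4⟩ := line V.Q _ V.w hk' ht.2
  have b5 : ∀ᶠ d in 𝓝 (D L x₀), ∀ q ∈ Finset.range (V.w + 1), ‖d.1 q - V.gr x₀ q‖ < δ :=
    (eventually_all_finset _).2 fun q _ => ContinuousAt.eventually_lt (by fun_prop)
      continuousAt_const (by simpa [D] using b1)
  obtain ⟨R, M, s, β, B, ρ, T, b6⟩ := exists_tu hO hl hm h2 hk' (b4.and b5)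
  obtain ⟨I, hI⟩ := T.ind hO h1
  refine ⟨R, ρ, _, β, _, I, T.pos, T.tube hO hr hh, ⟨x₀, T.mem, rfl⟩, T.zero, h1, hI,
    fun e σ x he hx a => T.ker hO he hx a, fun c₀ => ⟨o * (⌈c₀ * B⌉₊ + 1), o, by positivity, h3,
      fun a' ha => T.frm (k := k) (B₁ := B₁) hO hL hl hm hΛ h4 (dvd_mul_right _ _) ?_ ?_ b2
        (fun x hx i hi => b3 i x hi fun q => ?_) fun x hx i hi =>
        (b6 x hx).1 _ (ψ_ne L hi) (congrArg Prod.snd (D_eq L hi))⟩⟩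
  · rcases ha with rfl | rfl
    exacts [dvd_zero _, dvd_rfl]
  · have a4 : (1 : ℝ) ≤ o := Nat.one_le_cast.2 h3
    have a5 := Nat.le_ceil (c₀ * B)
    have a6 : (0 : ℝ) ≤ ⌈c₀ * B⌉₊ := Nat.cast_nonneg _
    push_cast
    nlinarith
  · by_cases hq : q ≤ V.w
    · exact ((b6 x hx).2 q (Finset.mem_range.2 (by omega))).le
    · rw [(V.hs x).top q (by omega), (V.hs x₀).top q (by omega), sub_zero, norm_zero]
      exact b1.le

end Vale.Agent.P281Z.Lf
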