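import Vale.Agent.P281Z.Lf.Sk
import Vale.Agent.P281Z.Sc.Bd
import Vale.Agent.P277Z.Slc.Div
import Vale.Agent.P284Y.Lib.GlC
import Vale.Agent.P277.H619.T3.Met

/-!
# P281Z, the base of the variation: vanishing of sections by the maximum principle
-/

open scoped Manifold ContDiff Topology ComplexOrder
open Set Filter Real
open Vale.Agent.P272.K Vale.Agent.P285.H281.FD
open Vale.Agent.P277Z.Slc (lin LEq stDiv at_chartAt tendsto_symm)
open Vale.Agent.P284Z (levi cHess_quad diff_fderiv)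
open Vale.Agent.P284Y.Lib

noncomputable section

namespace Vale.Agent.P281Z.Lf

namespace Vn

variable {d : ℕ}

theorem levi_log {F : Cm d → ℂ} {z : Cm d} (h : ContDiffAt ℂ ω F z) (h0 : F z ≠ 0) :
    ContDiffAt ℝ 2 (fun y => log (‖F y‖ ^ 2)) z ∧ ∀ v, levi (fun y => log (‖F y‖ ^ 2)) z v = 0 := by
  have h1 : ContDiffAt ℝ 2 (fun y => log (‖F y‖ ^ 2)) z :=
    ((((h.of_le le_top).restrict_scalars ℝ).norm ℝ h0).pow 2).log (by positivity)
  refine ⟨h1, fun v => ?_⟩
  have h2 := cHess_quad h1 (star v)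
  rw [cHess_log_norm_sq h h0, star_star, Matrix.zero_mulVec, dotProduct_zero] at h2
  have h3 : (levi (fun y => log (‖F y‖ ^ 2)) z v / 4 : ℝ) = 0 := by exact_mod_cast h2.symm
  linarith

theorem levi_max {u : Cm d → ℝ} {z : Cm d} (hu : ContDiffAt ℝ 2 u z) (h : IsLocalMax u z)
    (v : Cm d) : levi u z v ≤ 0 :=
  have k := N.second_deriv_nonpos ((hu.eventually (by simp)).mono fun _ h =>
    h.differentiableAt two_ne_zero) (diff_fderiv hu) h
  add_nonpos (k _) (k _)

variable {X : Type} [TopologicalSpace X] [ChartedSpace (Cm d) X] {e : Chart d X} {x : X}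

theorem cont_of {u : X → ℝ} {k : WithTop ℕ∞} (he : At e x)
    (h : ContDiffAt ℝ k (fun z => u (e.symm z)) (e x)) : ContinuousAt u x :=
  (h.continuousAt.comp (e.continuousAt he.2)).congr
    ((e.open_source.eventually_mem he.2).mono fun _ hy => congrArg u (e.left_inv hy))

theorem maxp [CompactSpace X] {L : Bd X} (hL : IsLB d L) {t : L.ι → X → ℂ} (ht : IsSec d L t)
    {Ψ : L.ι → X → ℝ} {D : Set X} (hD : IsOpen D)
    (chg : ∀ i j, ∀ x ∈ D, x ∈ L.U i → x ∈ L.U j → Ψ i x = Ψ j x + log (‖L.g i j x‖ ^ 2))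
    (sm : ∀ i (e : Chart d X) x, At e x → x ∈ L.U i → x ∈ D →
      ContDiffAt ℝ 2 (fun z => Ψ i (e.symm z)) (e x))
    (neg : ∀ x ∈ D, ∃ (e : Chart d X) (i : L.ι) (v : Cm d), At e x ∧ x ∈ L.U i ∧
      levi (fun z => Ψ i (e.symm z)) (e x) v < 0)
    (bd : ∀ x ∉ D, ∃ i, x ∈ L.U i ∧
      Tendsto (fun y => ‖t i y‖ ^ 2 * exp (-Ψ i y)) (𝓝[D] x) (𝓝 0)) :
    ∀ i, ∀ x ∈ L.U i, x ∈ D → t i x = 0 := by
  choose c hc using hL.cover
  let f : X → ℝ := D.indicator fun y => ‖t (c y) y‖ ^ 2 * exp (-Ψ (c y) y)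
  have inv : ∀ i, ∀ x ∈ D, x ∈ L.U i → f x = ‖t i x‖ ^ 2 * exp (-Ψ i x) := fun i x hx hi => by
    have h0 := norm_pos_iff.2 (hL.ne_zero _ i x (hc x) hi)
    simp only [f, indicator_of_mem hx]
    rw [ht.change _ i x (hc x) hi, chg _ i x hx (hc x) hi, neg_add, exp_add, exp_neg (log _),
      exp_log (by positivity), norm_mul]
    field_simp
  have ev : ∀ i, ∀ x ∈ D, x ∈ L.U i → ∀ᶠ y in 𝓝 x, f y = ‖t i y‖ ^ 2 * exp (-Ψ i y) :=
    fun i x hx hi => ((hD.eventually_mem hx).and (lb_near hL hi)).mono fun y h => inv i y h.1 h.2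
  have hf : Continuous f := continuous_iff_continuousAt.2 fun x => by
    by_cases hx : x ∈ D
    · exact (((sec_hol ht (hc x)).continuousAt'.norm.pow 2).mul (cont_of (at_chartAt x)
        (sm _ _ x (at_chartAt x) (hc x) hx)).neg.rexp).congr (EventuallyEq.symm (ev _ x hx (hc x)))
    obtain ⟨i, hi, h⟩ := bd x hx
    rw [ContinuousAt, show f x = 0 from indicator_of_notMem hx _, ← nhdsWithin_univ,
      ← union_compl_self D, nhdsWithin_union, tendsto_sup]
    refine ⟨h.congr' ?_, tendsto_const_nhds.congr' ?_⟩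
    · filter_upwards [self_mem_nhdsWithin, mem_nhdsWithin_of_mem_nhds (lb_near hL hi)] with y a b
        using (inv i y a b).symm
    · filter_upwards [self_mem_nhdsWithin] with y a using (indicator_of_notMem a _).symm
  intro i x hi hx
  by_contra h0
  obtain ⟨y, -, hy⟩ := isCompact_univ.exists_isMaxOn ⟨x, trivial⟩ hf.continuousOn
  have h1 : 0 < f y := lt_of_lt_of_le (by rw [inv i x hx hi]; positivity) (hy (mem_univ x))
  have h2 : y ∈ D := by_contra fun h => h1.ne' (indicator_of_notMem h _)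
  obtain ⟨e, j, v, he, hj, h3⟩ := neg y h2
  have h4 : t j y ≠ 0 := fun h => by simp [inv j y h2 hj, h] at h1
  have h5 := levi_log (ht.holo j e y he hj) (by rwa [e.left_inv he.2])
  have h6 := sm j e y he hj h2
  have h7 : ∀ y, t j y ≠ 0 → log (‖t j y‖ ^ 2) - Ψ j y = log (‖t j y‖ ^ 2 * exp (-Ψ j y)) :=
    fun y h => by rw [log_mul (by positivity) (exp_ne_zero _), log_exp, sub_eq_add_neg]
  have h8 := levi_max (h5.1.sub h6) (by
    filter_upwards [(tendsto_symm he).eventually ((ev j y h2 hj).and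
      ((sec_hol ht hj).continuousAt'.eventually_ne h4))] with z hz
    rw [e.left_inv he.2, h7 _ hz.2, h7 _ h4, ← inv j y h2 hj]
    exact log_le_log (by have := hz.2; positivity) (hz.1 ▸ hy (mem_univ _))) v
  rw [levi_sub h5.1 h6, h5.2] at h8
  linarith

theorem two {u : Cm d → ℝ} {z : Cm d} (h : ContDiffAt ℝ ∞ u z) : ContDiffAt ℝ 2 u z :=
  h.of_le (by norm_cast)

theorem dom [CompactSpace X] {β : Type} [Fintype β] {L : β → Bd X} (hL : ∀ b, IsLB d (L b))
    {ψ : ∀ b, (L b).ι → X → ℝ} (p : β → Prop) (hψ : ∀ b, p b → IsMet d (L b) (ψ b)) {b₀ : β}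
    (h₀ : p b₀) (hp : ∀ i (e : Chart d X) x, At e x → x ∈ (L b₀).U i → ∀ v, v ≠ 0 →
      0 < levi (fun z => ψ b₀ i (e.symm z)) (e x) v) :
    ∃ M : ℕ, ∀ x, ∃ (e : Chart d X) (i : ∀ b, (L b).ι), At e x ∧ (∀ b, x ∈ (L b).U (i b)) ∧
      ∀ b, p b → ∀ v, v ≠ 0 → |levi (fun z => ψ b (i b) (e.symm z)) (e x) v| ≤
        M * levi (fun z => ψ b₀ (i b₀) (e.symm z)) (e x) v := by
  classical
  let P : ℕ → X → Prop := fun M x => ∃ (e : Chart d X) (i : ∀ b, (L b).ι), At e x ∧
    (∀ b, x ∈ (L b).U (i b)) ∧ ∀ b, p b → ∀ v, v ≠ 0 →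
      |levi (fun z => ψ b (i b) (e.symm z)) (e x) v| ≤
        M * levi (fun z => ψ b₀ (i b₀) (e.symm z)) (e x) v
  have loc : ∀ y, ∃ M, ∀ᶠ x in 𝓝 y, P M x := fun y => by
    choose i hi using fun b => (hL b).cover y
    have he := at_chartAt (n := d) y
    set e := chartAt (Cm d) y
    obtain ⟨K, k1, k2, k3⟩ := local_compact_nhds (((tendsto_symm he).eventually
      ((at_near he).and (eventually_all.2 fun b => lb_near (hL b) (hi b)))).and
        (e.open_target.eventually_mem (e.map_source he.2)))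
    have sm : ∀ b, p b → ∀ z ∈ K, ContDiffAt ℝ 2 (fun z => ψ b (i b) (e.symm z)) z :=
      fun b hb z hz => by
        have := two ((hψ b hb).smooth _ e _ (k2 hz).1.1 ((k2 hz).1.2 b))
        rwa [e.right_inv (k2 hz).2] at this
    have ps : ∀ z ∈ K, ∀ v, v ≠ 0 → 0 < levi (fun z => ψ b₀ (i b₀) (e.symm z)) z v :=
      fun z hz => by
        have := hp _ e _ (k2 hz).1.1 ((k2 hz).1.2 b₀)
        rwa [e.right_inv (k2 hz).2] at this
    choose! M _ hM using fun b hb => exists_levi_bound k3 (fun z hz => ⟨sm b₀ h₀ z hz, ps z hz⟩)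
      (sm b hb)
    refine ⟨Finset.univ.sup fun b => ⌈M b⌉₊, ?_⟩
    filter_upwards [(e.continuousAt he.2).eventually_mem k1, at_near he,
      eventually_all.2 fun b => lb_near (hL b) (hi b)] with x a1 a2 a3
    refine ⟨e, i, a2, a3, fun b hb v hv => ((le_add_of_nonneg_left (gsq_nonneg ..)).trans
      (hM b hb _ a1 v)).trans (mul_le_mul_of_nonneg_right ((Nat.le_ceil _).trans
        (Nat.cast_le.2 (Finset.le_sup (f := fun b => ⌈M b⌉₊) (Finset.mem_univ b))))
          (ps _ a1 v hv).le)⟩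
  choose M hM using loc
  obtain ⟨t, -, ht⟩ := isCompact_univ.elim_nhds_subcover (fun y => {x | P (M y) x})
    fun y _ => hM y
  refine ⟨t.sup M, fun x => ?_⟩
  obtain ⟨y, hy, e, i, a1, a2, a3⟩ := mem_iUnion₂.1 (ht (mem_univ x))
  exact ⟨e, i, a1, a2, fun b hb v hv => (a3 b hb v hv).trans (mul_le_mul_of_nonneg_right
    (Nat.cast_le.2 (Finset.le_sup hy)) (hp _ e x a1 (a2 b₀) v hv).le)⟩

end Vn

open Vn in
theorem van : VAN := by
  intro d X α _ E a₀ a₁ κ _ G φ μ h01 hE ⟨ψ₀, hψ₀, hp₀⟩ hG hN hμ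
  classical
  have hG' : ∀ l x, ∃ ζ, LEq d (G l) x ζ := fun l x => (hG x).elim fun ζ h => ⟨ζ l, h.1 l⟩
  choose O σ hO using fun l => stDiv d X.X (G l) (hG' l)
  let L : α ⊕ κ → Bd X.X := Sum.elim E O
  have hL : ∀ b, IsLB d (L b) := Sum.rec hE fun l => (hO l).lb
  choose ψ h1 h2 h3 using show ∀ b, ∃ ψ : (L b).ι → X.X → ℝ, (b ≠ .inl a₁ → IsMet d (L b) ψ) ∧
      (b = .inl a₀ → ∀ i (e : Chart d X.X) x, At e x → x ∈ (L b).U i →
        (cHess (fun z => ψ i (e.symm z)) (e x)).PosDef) ∧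
      (b = .inl a₁ → NullW d G (L b) ψ μ) from fun b => by
    by_cases hb : b = .inl a₁
    · subst hb
      exact ⟨φ, fun h => (h rfl).elim, fun h => (h01 (Sum.inl.inj h).symm).elim, fun _ => hN⟩
    by_cases hb' : b = .inl a₀
    · subst hb'
      exact ⟨ψ₀, fun _ => hψ₀, fun _ => hp₀, fun h => (hb h).elim⟩
    · exact (P277.T3.exists_isMet (hL b)).imp fun _ h =>
        ⟨fun _ => h, fun k => (hb' k).elim, fun k => (hb k).elim⟩
  replace h3 := h3 _ rfl
  have h0 : Sum.inl a₀ ≠ (.inl a₁ : α ⊕ κ) := fun h => h01 (Sum.inl.inj h)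
  have hp : ∀ i (e : Chart d X.X) x, At e x → x ∈ (L (.inl a₀)).U i → ∀ v, v ≠ 0 →
      0 < levi (fun z => ψ _ i (e.symm z)) (e x) v := fun i e x he hi v hv => by
    have := (h2 _ rfl i e x he hi).dotProduct_mulVec_pos (star_ne_zero.2 hv)
    rw [cHess_quad (two ((h1 _ h0).smooth i e x he hi)), star_star, Complex.zero_lt_real] at this
    linarith
  obtain ⟨M, hM⟩ := dom hL (· ≠ .inl a₁) h1 h0 hp
  refine ⟨M * Fintype.card (α ⊕ κ) + 1, fun N n n1 n2 n0 s hs => ?_⟩
  let m : α ⊕ κ → ℤ := Sum.elim n 1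
  have sm : ∀ b i (e : Chart d X.X) x, At e x → x ∈ (L b).U i → x ∈ off G →
      ContDiffAt ℝ 2 (fun z => ψ b i (e.symm z)) (e x) := fun b i e x he hi hx => by
    by_cases hb : b = .inl a₁
    · subst hb
      exact h3.sm i e x he hi hx
    · exact two ((h1 b hb).smooth i e x he hi)
  have nz : ∀ l j, ∀ y ∈ (O l).U j, y ∈ off G → σ l j y ≠ 0 := fun l j y hj hy h =>
    hy l (((hO l).leq j y hj).mem.1 h)
  have key := maxp (lb_lin hL m)
    (t := fun i y => s (fun a => i (.inl a)) y * ∏ l, σ l (i (.inr l)) y)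
    (isSec_of (fun i x hi => (sec_hol hs fun a => hi (.inl a)).mul
      (P277Z.Hol.prod _ fun l _ => sec_hol (hO l).sec (hi (.inr l)))) fun i j x hi hj => by
        rw [hs.change _ (fun a => j (.inl a)) x (fun a => hi (.inl a)) fun a => hj (.inl a),
          Finset.prod_congr rfl fun l _ => (hO l).sec.change _ _ x (hi (.inr l)) (hj (.inr l)),
          Finset.prod_mul_distrib, mul_mul_mul_comm]
        congr 1
        simp only [lin, Fintype.prod_sum_type, m, Sum.elim_inr, Pi.one_apply, zpow_one]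
        rfl)
    (Ψ := fun i y => ∑ b, m b * ψ b (i b) y) (Hyp.of_snc hG).isOpen
    (fun i j x hx hi hj => by
      have k : ∀ b, (L b).g (i b) (j b) x ≠ 0 := fun b => (hL b).ne_zero _ _ x (hi b) (hj b)
      have k' : ∀ b, ψ b (i b) x = ψ b (j b) x + log (‖(L b).g (i b) (j b) x‖ ^ 2) := fun b => by
        by_cases hb : b = .inl a₁
        · subst hb
          exact h3.chg _ _ x (hi _) (hj _) hx
        · exact (h1 b hb).change _ _ x (hi b) (hj b)
      simp only [lin, norm_prod, norm_zpow, log_pow, k', mul_add, Finset.sum_add_distrib]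
      rw [log_prod fun b _ => zpow_ne_zero _ (norm_ne_zero_iff.2 (k b)), Finset.mul_sum]
      simp only [log_zpow, mul_left_comm])
    (fun i e x he hi hx => ContDiffAt.sum fun b _ => contDiffAt_const.mul (sm b _ e x he (hi b) hx))
    (fun x hx => by
      obtain ⟨e, i, he, hi, H⟩ := hM x
      obtain ⟨W, w1, w2⟩ := h3.nul _ e x he (hi _) hx
      obtain ⟨⟨v, hv⟩, v0⟩ := (Module.finrank_pos_iff_exists_ne_zero (R := ℂ) (M := W)).1 (by omega)
      replace v0 : v ≠ 0 := fun h => v0 (Subtype.ext h)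
      refine ⟨e, i, v, he, hi, ?_⟩
      have k := hp _ e x he (hi _) v v0
      rw [levi_sum _ fun b _ => contDiffAt_const.mul (sm b _ e x he (hi b) hx),
        Finset.sum_congr rfl fun b _ => levi_const_mul (sm b _ e x he (hi b) hx) _,
        ← Finset.add_sum_erase _ _ (Finset.mem_univ (.inl a₀))]
      set l₀ := levi (fun z => ψ _ (i (.inl a₀)) (e.symm z)) (e x) v
      have k1 := Finset.sum_le_card_nsmul (Finset.univ.erase (.inl a₀))
        (fun b => m b * levi (fun z => ψ b (i b) (e.symm z)) (e x) v) ((N + 1) * (M * l₀))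
        fun b hb => by
          by_cases hb' : b = .inl a₁
          · subst hb'
            exact (mul_nonpos_of_nonneg_of_nonpos (Int.cast_nonneg n1) (w2 v hv)).trans
              (by positivity)
          refine (le_abs_self _).trans ?_
          rw [abs_mul]
          refine mul_le_mul ?_ (H b hb' v v0) (abs_nonneg _) (by positivity)
          rcases b with a | l
          · have := n2 a (fun h => Finset.ne_of_mem_erase hb (congrArg _ h))
              fun h => hb' (congrArg _ h)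
            exact_mod_cast this.trans (le_add_of_nonneg_right zero_le_one)
          · simp [m]
      have k2 : (m (.inl a₀) : ℝ) ≤ -((M * Fintype.card (α ⊕ κ) + 1) * (N + 1)) := by
        exact_mod_cast n0
      have k3 : ((Finset.univ.erase (.inl a₀ : α ⊕ κ)).card : ℝ) ≤ Fintype.card (α ⊕ κ) :=
        Nat.cast_le.2 (Finset.card_le_univ _)
      rw [nsmul_eq_mul] at k1
      have k4 := mul_le_mul_of_nonneg_right k3 (show 0 ≤ (N + 1) * (M * l₀) by positivity)
      have k5 := mul_le_mul_of_nonneg_right k2 k.le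
      have k6 : 0 < (N + 1) * l₀ := by positivity
      linarith)
    fun x hx => by
      obtain ⟨i, hi⟩ := (lb_lin hL m).cover x
      refine ⟨i, hi, ?_⟩
      obtain ⟨c, hc⟩ := Int.eq_ofNat_of_zero_le n1
      obtain ⟨C, hC⟩ := h3.bd _ x (hi _) (fun l => σ l (i (.inr l)))
        (fun l => (hO l).leq _ x (hi (.inr l))) (c + 1)⁻¹ (by positivity)
      have k : 0 < 2 - (c + 1 : ℝ)⁻¹ * c := by
        have : (c + 1 : ℝ)⁻¹ * c ≤ 1 := by
          rw [inv_mul_le_iff₀ (by positivity)]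
          linarith
        linarith
      have k1 : ContinuousAt (fun y => ‖s (fun a => i (.inl a)) y‖ ^ 2 *
          ‖∏ l, σ l (i (.inr l)) y‖ ^ (2 - (c + 1 : ℝ)⁻¹ * c) *
          exp (-∑ b ∈ Finset.univ.erase (.inl a₁), m b * ψ b (i b) y) * C ^ c) x :=
        ((((sec_hol hs fun a => hi (.inl a)).continuousAt'.norm.pow 2).mul
          ((P277Z.Hol.prod _ fun l _ => sec_hol (hO l).sec
            (hi (.inr l))).continuousAt'.norm.rpow_const (.inr k.le))).mul
          (tendsto_finsetSum _ fun b hb => (cont_of (at_chartAt x) ((h1 b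
            (Finset.ne_of_mem_erase hb)).smooth _ _ x (at_chartAt x) (hi b))).const_mul
              _ : ContinuousAt _ x).neg.rexp).mul continuousAt_const
      obtain ⟨l, hl⟩ := not_forall.1 hx
      rw [ContinuousAt, Finset.prod_eq_zero (Finset.mem_univ l)
        (((hO l).leq _ x (hi (.inr l))).mem.2 (not_not.1 hl)), norm_zero, zero_rpow k.ne', mul_zero,
        zero_mul, zero_mul] at k1
      refine squeeze_zero' (.of_forall fun _ => by positivity) ?_ (k1.mono_left nhdsWithin_le_nhds)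
      filter_upwards [self_mem_nhdsWithin, mem_nhdsWithin_of_mem_nhds hC,
        mem_nhdsWithin_of_mem_nhds (lb_near (lb_lin hL m) hi)] with y a1 a2 a3
      have a4 := norm_pos_iff.2 (Finset.prod_ne_zero_iff.2 fun l (_ : l ∈ Finset.univ) =>
        nz l _ y (a3 (.inr l)) a1)
      replace a2 := pow_le_pow_left₀ (by positivity) (a2 a1) c
      rw [finsetProd_rpow _ _ fun _ _ => norm_nonneg _, ← norm_prod, mul_pow, ← rpow_mul_natCast
        a4.le, ← exp_nat_mul] at a2
      refine le_of_eq_of_le ?_ (mul_le_mul_of_nonneg_left a2 (by positivity))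
      rw [← Finset.add_sum_erase _ _ (Finset.mem_univ (.inl a₁)), neg_add, exp_add, norm_mul,
        rpow_sub a4, show m (.inl a₁) = c from hc, mul_neg, rpow_two, Int.cast_natCast]
      have := rpow_pos_of_pos a4 ((c + 1 : ℝ)⁻¹ * c)
      field_simp
  intro i x hi
  refine P277Z.Slc.Dv.eq_of_dense (D := off G) (b := fun _ => 0) ((dense_iInter_of_isOpen
    (fun l => ((Hyp.of_snc hG).closed l).isOpen_compl) fun l =>
      P277Z.Slc.Dv.dense_compl (hG' l)).mono fun y hy => mem_iInter.1 hy)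
    (sec_hol hs hi).continuousAt' continuousAt_const ?_
  filter_upwards [lb_near (lb_lin hE n) hi] with y a1 a2
  choose j hj using fun l => (hO l).lb.cover y
  exact (mul_eq_zero.1 (key (Sum.rec i j) y (Sum.rec a1 hj) a2)).resolve_right
    (Finset.prod_ne_zero_iff.2 fun l _ => nz l _ y (hj l) a2)

end Vale.Agent.P281Z.Lf
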