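import Vale.Agent.P281Z.Lf.Main
import Vale.Agent.P281Z.Lf.Leaf
import Vale.Agent.P281Z.Lf.Atb
import Vale.Agent.P281Z.Lf.Low
import Vale.Agent.P281Z.Lf.Rech
import Vale.Agent.P281Z.Lf.Polar
import Vale.Agent.P281Z.Lf.Pot
import Vale.Agent.P281Z.Lf.Lam
import Vale.Agent.P281Z.Lf.Llb
import Vale.Agent.P281Z.Lf.Flx
import Vale.Agent.P281Z.Lf.Tube
import Vale.Agent.P281Z.Lf.Par
import Vale.Agent.P281Z.Lf.Grow
import Vale.Agent.P281Z.Lf.Merq
import Vale.Agent.P281Z.Lf.Rat
import Vale.Agent.P281Z.Lf.R0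
import Vale.Agent.P281Z.Lf.Tp
import Vale.Agent.P281Z.Lf.Germ
import Vale.Agent.P281Z.Lf.Ms
import Vale.Agent.P281Z.Lf.Modz
import Vale.Agent.P281Z.Lf.Out
import Vale.Agent.P281Z.Lf.Nu
import Vale.Agent.P281Z.Lf.Nef
import Vale.Agent.P281Z.Lf.Step1
import Vale.Agent.P281Z.Lf.Slice
import Vale.Agent.P281Z.Lf.Pull
import Vale.Agent.P281Z.Lf.Van
import Vale.Agent.P281Z.Lf.Cnt
import Vale.Agent.P281Z.Lf.Restr
import Vale.Agent.P281Z.Lf.Theta
import Vale.Agent.P281Z.Fi.Fib
import Vale.Agent.P281Z.An.All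
import Vale.Agent.P281Z.Hm.All3
import Vale.Agent.P281Z.Pb.Kode

/-!
# P281Z, the base of the variation: all rows
-/

namespace Vale.Agent.P281Z.Lf

open Hm

theorem hl_all (hR : RES) (hS : START) : HL :=
  hl_of All.min All.alpha omm sncb r0 (leaf_of All.poin omm sncb polar (pot_of sncb) atb
    (lam_of stGram omm) llb (flx_of omm) (tube_of omm llb) par
    (rat_of All.grow All.bd (grow_of All.grow) merq llb)) (Fi.fib_of hR hS (gen_of_res hR))
    tp_ok germ zed (modz_of (ms_of sncb) mon sncb All.modG) (bpf_of Pb.kode) (nef_of omm sncb)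
    (theta_of All.dich sncb nu (low_of omm sncb stGram All.poin) step pll slice
      (poly_of subm slice pll step van) (cnt_of subm slice pll step van) (restr_of sncb pll)) (out_of omm mon sncb)

end Vale.Agent.P281Z.Lf
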