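import Vale.Agent.P281Z.Lf.Sk
import Vale.Agent.P281Z.Hm.Calc
import Vale.Agent.P284.H752.K8.D1
import Vale.Agent.P284.H136.K8.Ch
import Vale.Agent.P284.H366.K.Alg
import Vale.Agent.P284.H752.K1
import Vale.Agent.P284.H731.S2

/-!
# P281Z, ATB: pointwise algebra and calculus
-/

open scoped ContDiff Topology ComplexConjugate ComplexOrder ENNReal
open Set Filter Matrix
open Vale.Agent.P272.K Vale.Agent.P284 Vale.Agent.P284.H608.K Vale.Agent.P284.H205.K
open Vale.Agent.P284Z (levi cHess_quad diff_fderiv hess_symm)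
open Vale.Agent.P284.H619.K (tL pv pv_tL mass_le hn_mono_re sq_posSemidef)

noncomputable section

namespace Vale.Agent.P281Z.Lf.Atb

variable {n R p : ℕ} {A B : Matrix (Fin n) (Fin n) ℂ}

theorem qd_eq (A : Matrix (Fin n) (Fin n) ℂ) (x : Cm n) :
    qd A (star x) = (star x ⬝ᵥ A *ᵥ x).re := by
  unfold qd
  congr 1
  simp only [dotProduct, mulVec, Finset.mul_sum, Pi.star_apply, RCLike.star_def, Complex.conj_conj]
  exact Finset.sum_congr rfl fun j _ => Finset.sum_congr rfl fun k _ => by ring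

theorem qd_sub (A B : Matrix (Fin n) (Fin n) ℂ) (v : Cm n) : qd (A - B) v = qd A v - qd B v := by
  simp only [qd, Matrix.sub_apply, sub_mul, Finset.sum_sub_distrib, Complex.sub_re]

theorem qd_smul (c : ℝ) (A : Matrix (Fin n) (Fin n) ℂ) (v : Cm n) :
    qd ((c : ℂ) • A) v = c * qd A v := by
  rw [qd, qd, ← Complex.re_ofReal_mul]
  simp only [Matrix.smul_apply, smul_eq_mul, Finset.mul_sum, mul_assoc]

theorem herm_smul (c : ℝ) (h : A.IsHermitian) : ((c : ℂ) • A).IsHermitian := by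
  rw [Matrix.IsHermitian, conjTranspose_smul, h.eq, RCLike.star_def, Complex.conj_ofReal]

theorem psd_sub (hA : A.IsHermitian) (hB : B.IsHermitian) (h : ∀ v, qd A v ≤ qd B v) :
    (B - A).PosSemidef := by
  refine .of_dotProduct_mulVec_nonneg (hB.sub hA) fun x => Complex.nonneg_iff.2 ⟨?_, ?_⟩
  · rw [← qd_eq, qd_sub]
    exact sub_nonneg.2 (h _)
  · exact ((hB.sub hA).im_star_dotProduct_mulVec_self x).symm

theorem qd_nonneg (h : A.PosSemidef) (v : Cm n) : 0 ≤ qd A v := by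
  have := (Complex.nonneg_iff.1 (h.dotProduct_mulVec_nonneg (star v))).1
  rwa [← qd_eq, star_star] at this

theorem qd_cHess {u : Cm n → ℝ} {z : Cm n} (hu : ContDiffAt ℝ 2 u z) (v : Cm n) :
    qd (cHess u z) v = levi u z v / 4 := by
  have := congrArg Complex.re (cHess_quad hu (star v))
  rwa [← qd_eq, star_star, Complex.ofReal_re] at this

theorem herm_cHess {u : Cm n → ℝ} {z : Cm n} (hu : ContDiffAt ℝ 2 u z) :
    (cHess u z).IsHermitian := by
  rw [N.cHess_eq_lev (diff_fderiv hu)]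
  exact N.lev_isHermitian (hess_symm hu)

theorem sum_le (v : Cm n) : ∑ l, ‖v l‖ ^ 2 ≤ n * ‖v‖ ^ 2 := by
  refine (Finset.sum_le_card_nsmul _ _ (‖v‖ ^ 2) fun l _ =>
    pow_le_pow_left₀ (norm_nonneg _) (norm_le_pi_norm v l) 2).trans_eq ?_
  simp

theorem qd_sq (L : Cm n →L[ℂ] Cm R) (v : Cm n) :
    qd (H619.K.sq (tL L)) v = ∑ l, ‖L v l‖ ^ 2 := by
  have e : ∑ j, ∑ k, H619.K.sq (tL L) j k * v j * conj (v k) =
      ∑ l, pv (tL L l) v * conj (pv (tL L l) v) := by
    simp only [H619.K.sq, pv, of_apply, map_sum, map_mul, Finset.sum_mul, Finset.mul_sum]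
    rw [Finset.sum_comm (γ := Fin R), Finset.sum_comm]
    refine Finset.sum_congr rfl fun k _ => ?_
    rw [Finset.sum_comm (γ := Fin R)]
    exact Finset.sum_congr rfl fun j _ => Finset.sum_congr rfl fun l _ => by ring
  rw [qd, e, Complex.re_sum]
  exact Finset.sum_congr rfl fun l _ => by
    rw [pv_tL, Complex.mul_conj', ← Complex.ofReal_pow, Complex.ofReal_re]

theorem qd_one (v : Cm n) : qd 1 v = ∑ l, ‖v l‖ ^ 2 := by
  rw [qd, Complex.re_sum]
  refine Finset.sum_congr rfl fun l _ => ?_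
  simp only [one_apply, ite_mul, one_mul, zero_mul, Finset.sum_ite_eq, Finset.mem_univ, if_true]
  rw [Complex.mul_conj', ← Complex.ofReal_pow, Complex.ofReal_re]

/-- the norm of a form is bounded by `|A|² dV` -/
theorem low_bd (n p : ℕ) {c : ℝ} (hc : 0 < c) : ∃ C : ℝ, 0 ≤ C ∧
    ∀ w : Matrix (Fin n) (Fin n) ℂ, w.PosDef → (∀ v, c * ‖v‖ ^ 2 ≤ qd w v) → ∀ A : Af n p,
      ‖A‖ ^ 2 ≤ C * ((hn w A A).re * w.det.re) := by
  set w₀ : Matrix (Fin n) (Fin n) ℂ := ((c / (n + 1) : ℝ) : ℂ) • 1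
  have h0 : w₀.PosDef := PosDef.one.smul (Complex.zero_lt_real.2 (by positivity))
  obtain ⟨a, _, ha, -, h1⟩ := H366.K.hn_bounds (S := {0}) (w := fun _ => w₀) H752.k1Stmt
    isCompact_singleton (fun _ _ _ _ => contDiffAt_const) (fun _ _ => h0) p
  have h2 : 0 < w₀.det.re := (Complex.lt_def.1 h0.det_pos).1
  refine ⟨(a * w₀.det.re)⁻¹, by positivity, fun w hw h A => ?_⟩
  have h3 := hn_mono_re h0 hw (psd_sub h0.1 hw.1 fun v => le_trans ?_ (h v)) A
  · rw [inv_mul_eq_div, le_div_iff₀ (by positivity)]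
    nlinarith [mul_le_mul_of_nonneg_right (h1 0 rfl A).1 h2.le]
  · rw [qd_smul, qd_one, div_mul_eq_mul_div, div_le_iff₀ (by positivity)]
    nlinarith [mul_le_mul_of_nonneg_left (sum_le v) hc.le, mul_nonneg hc.le (sq_nonneg ‖v‖)]

/-- the projection on the coordinates `I` -/
def prI (I : Fin p → Fin R) : Cm R →L[ℂ] Cm p :=
  ContinuousLinearMap.pi fun k => ContinuousLinearMap.proj (I k)

/-- `db_I` -/
def DI (I : Fin p → Fin R) : Af R p := (detF p).compContinuousLinearMap (prI I)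

theorem dX_eq (I : Fin p → Fin R) {b : Cm n → Cm R} {z : Cm n} (hb : DifferentiableAt ℂ b z) :
    dX (fun z k => b z (I k)) z = (DI I).compContinuousLinearMap (fderiv ℂ b z) := by
  rw [dX, show fderiv ℂ (fun z k => b z (I k)) z = _ from
    ((prI I).hasFDerivAt.comp z hb.hasFDerivAt).fderiv]
  rfl

/-- the norm of `db_I` -/
theorem hn_DI (I : Fin p → Fin R) {C : ℝ} (hA : A.PosDef) (L : Cm n →L[ℂ] Cm R)
    (h : ∀ v, ‖L v‖ ^ 2 ≤ C * qd A v) :
    (hn A ((DI I).compContinuousLinearMap L) ((DI I).compContinuousLinearMap L)).re ≤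
      (p * C + 1) ^ n := by
  have h1 := mass_le (ρ := ((p * C : ℝ) : ℂ) • A) (L := (prI I).comp L) (c := 1)
    (D := (DI I).compContinuousLinearMap L) hA (fun ξ => (det_transpose _).symm) one_pos
    (psd_sub (herm_smul _ (sq_posSemidef _).1) (herm_smul _ hA.1) fun v => ?_)
  · have h2 : ((p * C : ℝ) : ℂ) • A + A = ((p * C + 1 : ℝ) : ℂ) • A := by
      rw [Complex.ofReal_add, add_smul, Complex.ofReal_one, one_smul]
    rw [h2, det_smul, Fintype.card_fin, ← Complex.ofReal_pow, Complex.re_ofReal_mul, one_pow,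
      inv_one, one_mul] at h1
    exact le_of_mul_le_mul_right h1 (Complex.lt_def.1 hA.det_pos).1
  · rw [qd_smul, qd_smul, qd_sq, one_mul, mul_assoc]
    refine le_trans ?_ (mul_le_mul_of_nonneg_left (h v) p.cast_nonneg)
    refine (Finset.sum_le_card_nsmul _ _ (‖L v‖ ^ 2) fun l _ =>
      pow_le_pow_left₀ (norm_nonneg _) (norm_le_pi_norm (L v) (I l)) 2).trans_eq ?_
    simp

open ContinuousAlternatingMap in
theorem alt_zero {L : Cm n →L[ℂ] Cm R}
    (hr : Module.finrank ℂ (LinearMap.range (L : Cm n →ₗ[ℂ] Cm R)) ≤ p) (θ : Cm n →L[ℂ] ℂ)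
    (hθ : ∀ v, L v = 0 → θ v = 0) (D : Af R p) :
    alternatizeUncurryFin (θ.smulRight (D.compContinuousLinearMap L)) = 0 := by
  have h1 : (θ : Cm n →ₗ[ℂ] ℂ) ∈ LinearMap.range (L : Cm n →ₗ[ℂ] Cm R).dualMap := by
    rw [LinearMap.range_dualMap_eq_dualAnnihilator_ker, Submodule.mem_dualAnnihilator]
    exact hθ
  obtain ⟨τ, hτ⟩ := h1
  have h2 : θ.smulRight (D.compContinuousLinearMap L) = compContinuousLinearMapCLM L ∘L
      (LinearMap.toContinuousLinearMap τ).smulRight D ∘L L := by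
    ext v ξ
    exact congrArg (· * _) (DFunLike.congr_fun hτ v).symm
  rw [h2, H136.K8.alt_comp']
  ext v
  refine AlternatingMap.map_linearDependent (alternatizeUncurryFin _).toAlternatingMap _ fun h => ?_
  have h3 : LinearIndependent ℂ fun i => (L : Cm n →ₗ[ℂ] Cm R).rangeRestrict (v i) :=
    LinearIndependent.of_comp (LinearMap.range (L : Cm n →ₗ[ℂ] Cm R)).subtype h
  have h4 := h3.fintype_card_le_finrank.trans hr
  simp at h4

theorem dv_eq (φ : Cm n → ℝ) (z v : Cm n) : dv φ z v = pL (fun y => (φ y : ℂ)) z v := by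
  rw [pL_apply, dv]
  exact Finset.sum_congr rfl fun a _ => by rw [dz_eq_dzV, smul_eq_mul, mul_comm]

theorem dv_add {φ ψ : Cm n → ℝ} {z : Cm n} (h1 : DifferentiableAt ℝ φ z)
    (h2 : DifferentiableAt ℝ ψ z) (v : Cm n) :
    dv (fun y => φ y + ψ y) z v = dv φ z v + dv ψ z v := by
  have a1 : HasW (fun y => (φ y : ℂ)) _ _ z :=
    hasW_of_diff (Complex.ofRealCLM.differentiableAt.comp z h1)
  have a2 : HasW (fun y => (ψ y : ℂ)) _ _ z :=
    hasW_of_diff (Complex.ofRealCLM.differentiableAt.comp z h2)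
  simp only [dv_eq, Complex.ofReal_add]
  rw [(a1.add a2).pL_eq]
  rfl

theorem dv_comp {G : Cm R → ℝ} {b : Cm n → Cm R} {z v : Cm n} (hG : DifferentiableAt ℝ G (b z))
    (hb : DifferentiableAt ℂ b z) (h : fderiv ℂ b z v = 0) : dv (fun y => G (b y)) z v = 0 := by
  rw [dv_eq, (H752.K8.hasW_f (f := fun y => (G y : ℂ))
    (Complex.ofRealCLM.differentiableAt.comp _ hG) hb).pL_eq, ContinuousLinearMap.comp_apply, h,
    map_zero]

theorem dv_congr {φ ψ : Cm n → ℝ} {z : Cm n} (h : φ =ᶠ[𝓝 z] ψ) (v : Cm n) :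
    dv φ z v = dv ψ z v := by
  have : (fun y => (φ y : ℂ)) =ᶠ[𝓝 z] fun y => (ψ y : ℂ) := h.mono fun _ hy => congrArg _ hy
  simp only [dv, dz, this.fderiv_eq]

theorem an_pull {b : Cm n → Cm R} {z : Cm n} (hb : AnalyticAt ℂ b z) (D : Af R p) :
    AnalyticAt ℂ (fun y => D.compContinuousLinearMap (fderiv ℂ b y)) z := by
  exact P281.MF.analyticAt_of_differentiableOn (isOpen_analyticAt ℂ b) (fun y hy =>
    ((hasFDerivAt_const D y).continuousAlternatingMapCompContinuousLinearMap (AnalyticAt.fderiv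
      hy).differentiableAt.hasFDerivAt).differentiableAt.differentiableWithinAt) hb

open ContinuousAlternatingMap in
/-- `∂_h (F(b) P b^* D) = 0` -/
theorem dhL_fl {b : Cm n → Cm R} {F : Cm R → ℂ} {P : Cm n → ℂ} {φ : Cm n → ℝ} {z : Cm n}
    (hb : AnalyticAt ℂ b z) (hP : DifferentiableAt ℂ P z) (hF : DifferentiableAt ℝ F (b z))
    (hr : Module.finrank ℂ (LinearMap.range (fderiv ℂ b z : Cm n →ₗ[ℂ] Cm R)) ≤ p)
    (fl : ∀ v, fderiv ℂ b z v = 0 → fderiv ℂ P z v = P z * dv φ z v) (D : Af R p) :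
    dhL φ (fun y => (F (b y) * P y) • D.compContinuousLinearMap (fderiv ℂ b y)) z = 0 := by
  have h1 := H136.K8.compCLM' (HasW.of_holo (hasFDerivAt_const D z))
    hb.fderiv.differentiableAt.hasFDerivAt
  have h2 := (H752.K8.hasW_f hF hb.differentiableAt).smul (HasW.of_holo hP.hasFDerivAt)
  have h3 : HasW (fun y => (F (b y) * P y) • D.compContinuousLinearMap (fderiv ℂ b y)) _ _ z :=
    h2.smul h1
  have hsym : ∀ x y, fderiv ℂ (fderiv ℂ b) z x y = fderiv ℂ (fderiv ℂ b) z y x :=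
    (hb.contDiffAt (n := ω)).isSymmSndFDerivAt (by simp)
  have h4 := alt_zero hr (((pL F (b z)).comp (fderiv ℂ b z)).smulRight (P z) +
    F (b z) • fderiv ℂ P z - (F (b z) * P z) • pL (fun y => (φ y : ℂ)) z) (fun v hv => by
      simp only [_root_.sub_apply, _root_.add_apply, _root_.smul_apply, hv, fl v hv, dv_eq,
        ContinuousLinearMap.smulRight_apply, ContinuousLinearMap.comp_apply, _root_.map_zero,
        smul_eq_mul]
      ring) D
  have h5 := alternatizeUncurryFin_fderivCompContinuousLinearMap_eq_zero D (fderiv ℂ b z) hsym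
  have h6 := (congrArg₂ (fun x y => x + (F (b z) * P z) • y) h4 h5).trans
    ((zero_add _).trans (H366.K.smz _))
  rw [dhL_eq, h3.pL_eq, ← h6, ← alternatizeUncurryFin_smul, ← alternatizeUncurryFin_add]
  congr 1
  ext v ξ
  simp only [_root_.sub_apply, _root_.add_apply, _root_.smul_apply, smul_eq_mul,
    ContinuousLinearMap.smulRight_apply, ContinuousLinearMap.comp_apply, _root_.zero_apply,
    _root_.map_zero, ContinuousAlternatingMap.add_apply, ContinuousAlternatingMap.sub_apply,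
    ContinuousAlternatingMap.smul_apply, zero_add]
  ring

end Vale.Agent.P281Z.Lf.Atb
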