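import Vale.Agent.P281Z.Lf.AtbA
import Vale.Agent.P284.H608.K.Eng

/-!
# P281Z, ATB: the engine on a manifold with framed charts
-/

open scoped ContDiff Topology ComplexConjugate ComplexOrder ENNReal
open Set Filter Metric MeasureTheory
open Vale.Agent.P272.K Vale.Agent.P284 Vale.Agent.P284.H608.K Vale.Agent.P284.H205.K
open Vale.Agent.P284.H619.K (tL wd hn_wd hn_cs hn_self_nonneg Ad_nonneg)
open Vale.Agent.P284.H752 (k1Stmt)
open Vale.Agent.P284.H752.K8 (tht dbV_s wd_le int_cs)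
open Vale.Agent.P284.H286.K (cm test_cm cut_one mem_ix smooth_of_hol nl_eq dn_nonneg dA_nonneg
  continuous_dn nl_young form_sub smooth_sub nq_nonneg)

noncomputable section

namespace Vale.Agent.P281Z.Lf.Atb

variable {n R p : ℕ} {M : Type} [TopologicalSpace M] [T2Space M] [MeasurableSpace M] [BorelSpace M]
  {K : KA n M}

omit [T2Space M] [BorelSpace M] in
theorem dT_cm (χ : K.Cut) {s : K.Fm p} (h : K.Hol s) (ν : ℕ) (x : M) :
    K.dT (cm χ s ν) x ≤ |χ.ε ν| * (K.dn s s x).re := by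
  have hz := (K.e _).map_source (mem_ix K x)
  have hw := K.wpos _ _ hz
  have h1 := (χ.sm ν _ _ hz).differentiableAt (by simp)
  have h2 := (h _ _ hz).differentiableAt
  have h3 := H419.K.mn_le hw _ (χ.grad ν _ _ hz)
  unfold KA.dT KA.dn
  generalize K.e (K.ix x) x = z at *
  generalize K.ix x = i at *
  set μ := fun b => dz b (fun z => (χ.χ ν ((K.e i).symm z) : ℂ)) z with hμ
  have e : (fun b => dbV b (cm χ s ν i) z) = fun b => conj (μ b) • s i z := funext fun b => by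
    have := H419.K.dbV_mul (c := fun z => (χ.χ ν ((K.e i).symm z) : ℂ))
      (Complex.ofRealCLM.differentiableAt.comp z h1) (h2.restrictScalars ℝ) b
    rw [(HasW.of_holo h2.hasFDerivAt).dbV, H419.K.dzb_real h1, _root_.zero_apply, H366.K.smz,
      zero_add] at this
    exact this
  have e2 : Tn (K.w i z) (fun b => conj (μ b) • s i z) =
      H419.K.mn (K.w i z) μ * hn (K.w i z) (s i z) (s i z) := by
    simp only [Tn, H419.K.mn, hn_smul_left, hn_smul_right, Complex.conj_conj, Finset.sum_mul]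
    exact Finset.sum_congr rfl fun b _ => Finset.sum_congr rfl fun b' _ => by ring
  obtain ⟨h4, h5⟩ := Complex.nonneg_iff.1 (hn_self_nonneg hw (s i z))
  rw [e, e2, Complex.re_ofReal_mul, mul_left_comm, Complex.mul_re, ← h5, mul_zero, sub_zero]
  exact mul_le_mul_of_nonneg_left (mul_le_mul_of_nonneg_right h3 h4) (Real.exp_pos _).le

/-- **Bochner**: holomorphic forms in the kernel of the curvature are closed -/
theorem boch (χ : K.Cut) {s : K.Fm (p + 1)} (hf : K.IsForm s) (h : K.Hol s) (hn : K.nl s < ⊤)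
    (h0 : ∀ i, ∀ z ∈ (K.e i).target, Ad (K.w i z) (cHess (K.φ i) z) (s i z) = 0) (i : K.I)
    {z : Cm n} (hz : z ∈ (K.e i).target) : dhL (K.φ i) (s i) z = 0 := by
  have k := k3 n M K
  have hs := smooth_of_hol h
  have ht := test_cm χ hf hs
  have hi : Integrable (fun x => (K.dn s s x).re) K.μ :=
    ⟨(Complex.continuous_re.comp (continuous_dn k hf hs hf hs)).aestronglyMeasurable,
      (hasFiniteIntegral_iff_ofReal (Eventually.of_forall (dn_nonneg k1Stmt s))).2 hn⟩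
  have h1 : ∀ ν, K.nq (K.dh (cm χ s ν)) ≤ |χ.ε ν| * ∫ x, (K.dn s s x).re ∂K.μ := fun ν => by
    have a1 := k.bk p _ (ht ν)
    have a2 : ∫ x, K.dA (cm χ s ν) x ∂K.μ = 0 := by
      refine integral_eq_zero_of_ae (Eventually.of_forall fun x => ?_)
      change _ * (Ad _ _ (_ • _)).re = 0
      rw [H366.K.Ad_smul, h0 _ _ ((K.e _).map_source (mem_ix K x)), Complex.zero_re, mul_zero,
        mul_zero]
    have a3 := integral_mono (k.intT _ _ (ht ν)).1 (hi.const_mul _) (dT_cm χ h ν)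
    rw [integral_const_mul] at a3
    linarith [nq_nonneg k1Stmt k (k.S_test _ _ (ht ν))]
  obtain ⟨r, hr, hb⟩ := nhds_basis_closedBall.mem_iff.1 ((K.e i).open_target.mem_nhds hz)
  obtain ⟨c, hc, hl⟩ := H366.K.lower_dn k1Stmt k i hb (p + 2)
  have hsub := ball_subset_closedBall.trans hb
  have h2 : ∫⁻ y in ball z r, ENNReal.ofReal (‖K.dh s i y‖ ^ 2) = 0 := by
    have a1 : Tendsto (fun ν => ENNReal.ofReal (c * (|χ.ε ν| * ∫ x, (K.dn s s x).re ∂K.μ))) atTop
        (𝓝 0) := by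
      simpa using ENNReal.tendsto_ofReal ((χ.tend.abs.mul_const _).const_mul c)
    refine le_antisymm (ge_of_tendsto a1 ?_) (zero_le)
    filter_upwards [cut_one χ ((isCompact_closedBall z r).image_of_continuousOn
      ((K.e i).continuousOn_symm.mono hb))] with ν hν
    have t := k.dh_test _ _ (ht ν)
    refine le_of_eq_of_le (setLIntegral_congr_fun measurableSet_ball fun y hy => ?_)
      ((hl _ t.form t.smooth).trans ?_)
    · have : s i =ᶠ[𝓝 y] cm χ s ν i := mem_of_superset (isOpen_ball.mem_nhds hy) fun w hw => by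
        change s i w = _ • _
        rw [hν _ (mem_image_of_mem _ (ball_subset_closedBall hw)), Complex.ofReal_one, one_smul]
      simp only [KA.dh, if_pos (hsub hy), dhL_congr this]
    · rw [nl_eq k1Stmt k t, ← ENNReal.ofReal_mul hc.le]
      exact ENNReal.ofReal_le_ofReal (mul_le_mul_of_nonneg_left (h1 ν) hc.le)
  have h3 : ContinuousOn (K.dh s i) (ball z r) := fun y hy =>
    ((k.dh_form _ s hf hs).2 i y (hsub hy)).continuousAt.continuousWithinAt
  have h5 := (lintegral_eq_zero_iff'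
    (((h3.norm.pow 2).aemeasurable measurableSet_ball).ennreal_ofReal)).1 h2
  have h4 := Measure.eqOn_open_of_ae_eq (g := fun _ => 0) (h5.mono fun y hy =>
    norm_eq_zero.1 (pow_eq_zero_iff two_ne_zero |>.1 (le_antisymm (ENNReal.ofReal_eq_zero.1 hy)
      (sq_nonneg _)))) isOpen_ball h3 continuousOn_const (mem_ball_self hr)
  rwa [KA.dh, if_pos hz] at h4

/-- the tube in framed charts -/
structure Tb (K : KA n M) (p : ℕ) (ρ : ℝ) (N : Set M) (β : M → Cm R) (b : K.I → Cm n → Cm R)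
    (P : K.I → Cm n → ℂ) : Prop where
  opn : IsOpen N
  eq : ∀ i, ∀ x ∈ (K.e i).source, b i (K.e i x) = β x
  an : ∀ i, ∀ x ∈ (K.e i).source, x ∈ N →
    AnalyticAt ℂ (b i) (K.e i x) ∧ AnalyticAt ℂ (P i) (K.e i x)
  rk : ∀ i, ∀ x ∈ (K.e i).source, x ∈ N →
    Module.finrank ℂ (LinearMap.range (fderiv ℂ (b i) (K.e i x) : Cm n →ₗ[ℂ] Cm R)) ≤ p
  cls : closure {y | y ∈ N ∧ ‖β y‖ ≤ ρ} ⊆ N
  chg : ∀ i j x, x ∈ (K.e i).source → x ∈ (K.e j).source → x ∈ N →
    P i (K.e i x) = K.a i j (K.e i x) * P j (K.e j x)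
  flat : ∀ i, ∀ x ∈ (K.e i).source, x ∈ N → ∀ v, fderiv ℂ (b i) (K.e i x) v = 0 →
    fderiv ℂ (P i) (K.e i x) v = P i (K.e i x) * dv (K.φ i) (K.e i x) v

open Classical in
/-- the form `F(β) P β^* D` -/
def s0 (K : KA n M) (N : Set M) (b : K.I → Cm n → Cm R) (P : K.I → Cm n → ℂ) (F : Cm R → ℂ)
    (D : Af R p) : K.Fm p := fun i z =>
  if z ∈ (K.e i).target ∧ (K.e i).symm z ∈ N then
    (F (b i z) * P i z) • D.compContinuousLinearMap (fderiv ℂ (b i) z) else 0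

/-- the norm of `P β^* D` -/
def nP (K : KA n M) (b : K.I → Cm n → Cm R) (P : K.I → Cm n → ℂ) (D : Af R p) (i : K.I)
    (z : Cm n) : ℝ :=
  Real.exp (-K.φ i z) * ‖P i z‖ ^ 2 * (hn (K.w i z) (D.compContinuousLinearMap (fderiv ℂ (b i) z))
    (D.compContinuousLinearMap (fderiv ℂ (b i) z))).re

variable {ρ : ℝ} {N : Set M} {β : M → Cm R} {b : K.I → Cm n → Cm R} {P : K.I → Cm n → ℂ}
  {F : Cm R → ℂ} {i : K.I} {x : M}

section
omit [T2Space M] [BorelSpace M]

theorem ev_e (hx : x ∈ (K.e i).source) {U : Set M} (hU : U ∈ 𝓝 x) :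
    ∀ᶠ z in 𝓝 (K.e i x), z ∈ (K.e i).target ∧ (K.e i).symm z ∈ U :=
  Eventually.and ((K.e i).open_target.mem_nhds ((K.e i).map_source hx))
    (((K.e i).tendsto_symm hx).eventually hU)

theorem Tb.inn (T : Tb K p ρ N β b P) (D : Af R p) (hx : x ∈ (K.e i).source) (hN : x ∈ N) :
    s0 K N b P F D i =ᶠ[𝓝 (K.e i x)]
      fun z => (F (b i z) * P i z) • D.compContinuousLinearMap (fderiv ℂ (b i) z) :=
  (ev_e hx (T.opn.mem_nhds hN)).mono fun _ hz => if_pos hz

theorem Tb.out (T : Tb K p ρ N β b P) (D : Af R p) (hF : ∀ y, ρ < ‖y‖ → F y = 0)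
    (hx : x ∈ (K.e i).source) (hN : x ∉ N) : s0 K N b P F D i =ᶠ[𝓝 (K.e i x)] fun _ => 0 := by
  refine (ev_e hx (isClosed_closure.isOpen_compl.mem_nhds fun h => hN (T.cls h))).mono
    fun z hz => ?_
  unfold s0
  split_ifs with h
  · have := T.eq i _ ((K.e i).map_target hz.1)
    rw [(K.e i).right_inv hz.1] at this
    rw [this, hF _ (not_le.1 fun h' => hz.2 (subset_closure ⟨h.2, h'⟩)), zero_mul, H366.K.zsm]
  · rfl

theorem Tb.form (T : Tb K p ρ N β b P) (D : Af R p) : K.IsForm (s0 K N b P F D) := by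
  refine ⟨fun i j x hi hj => ?_, fun i z hz => if_neg fun h => hz h.1⟩
  by_cases hN : x ∈ N
  · have h1 : b i =ᶠ[𝓝 (K.e i x)] fun z => b j (K.e j ((K.e i).symm z)) :=
      (ev_e hi ((K.e j).open_source.mem_nhds hj)).mono fun z hz => by
        have := T.eq i _ ((K.e i).map_target hz.1)
        rw [(K.e i).right_inv hz.1] at this
        exact this.trans (T.eq j _ hz.2).symm
    have h2 := fderiv_comp (𝕜 := ℂ) (g := b j) (f := fun z => K.e j ((K.e i).symm z)) (K.e i x)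
      (by rw [(K.e i).left_inv hi]; exact (T.an j x hj hN).1.differentiableAt)
      (tr_an hi hj).differentiableAt
    rw [(K.e i).left_inv hi] at h2
    rw [(T.inn D hi hN).self_of_nhds, (T.inn D hj hN).self_of_nhds]
    beta_reduce
    rw [T.eq i x hi, T.eq j x hj, T.chg i j x hi hj hN, h1.fderiv_eq.trans h2]
    ext ξ
    change _ * D _ = _ * (_ * D _)
    rw [mul_left_comm, mul_assoc]
    rfl
  · unfold s0
    rw [if_neg fun h => hN ((K.e i).left_inv hi ▸ h.2),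
      if_neg fun h => hN ((K.e j).left_inv hj ▸ h.2)]
    ext ξ
    exact (mul_zero _).symm

theorem tgt' {Q : Cm n → Prop} (h : ∀ x ∈ (K.e i).source, Q (K.e i x)) :
    ∀ z ∈ (K.e i).target, Q z := fun _ hz =>
  (K.e i).right_inv hz ▸ h _ ((K.e i).map_target hz)

theorem Tb.smooth (T : Tb K p ρ N β b P) (D : Af R p) (hF : ∀ y, ρ < ‖y‖ → F y = 0)
    (hs : ContDiff ℝ ∞ F) : K.Smooth (s0 K N b P F D) := fun i => tgt' fun x hx => by
  by_cases hN : x ∈ N
  · obtain ⟨h1, h2⟩ := T.an i x hx hN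
    exact (((hs.contDiffAt.comp _ h1.restrictScalars.contDiffAt).mul
      h2.restrictScalars.contDiffAt).smul
      (an_pull h1 D).restrictScalars.contDiffAt).congr_of_eventuallyEq (T.inn D hx hN)
  · exact contDiffAt_const.congr_of_eventuallyEq (T.out D hF hx hN)

theorem Tb.dh (T : Tb K p ρ N β b P) (D : Af R p) (hF : ∀ y, ρ < ‖y‖ → F y = 0)
    (hs : ContDiff ℝ ∞ F) : K.dh (s0 K N b P F D) = 0 := by
  funext i z
  unfold KA.dh
  split_ifs with hz
  · refine tgt' (Q := fun z => dhL (K.φ i) (s0 K N b P F D i) z = 0) (fun x hx => ?_) z hz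
    by_cases hN : x ∈ N
    · obtain ⟨h1, h2⟩ := T.an i x hx hN
      rw [dhL_congr (T.inn D hx hN)]
      exact dhL_fl h1 h2.differentiableAt (hs.differentiable (by simp) _) (T.rk i x hx hN)
        (T.flat i x hx hN) D
    · rw [dhL_congr (T.out D hF hx hN), dhL_zero]
  · rfl

theorem Tb.dn_le (T : Tb K p ρ N β b P) (D : Af R p) (hF : ∀ y, ρ < ‖y‖ → F y = 0) {A B : ℝ}
    (hA : ∀ y, ‖F y‖ ≤ A) (hB0 : 0 ≤ B)
    (hB : ∀ i, ∀ x ∈ (K.e i).source, x ∈ N → ‖β x‖ ≤ ρ → nP K b P D i (K.e i x) ≤ B) (x : M) :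
    (K.dn (s0 K N b P F D) (s0 K N b P F D) x).re ≤ A ^ 2 * B := by
  have hx := mem_ix K x
  unfold KA.dn
  rw [Complex.re_ofReal_mul]
  by_cases hN : x ∈ N
  · rw [(T.inn D hx hN).self_of_nhds, H366.K.hn_smul_self, T.eq _ x hx]
    rcases le_or_gt ‖β x‖ ρ with h | h
    · have h1 := hB _ x hx hN h
      have h0 : 0 ≤ nP K b P D (K.ix x) (K.e (K.ix x) x) := mul_nonneg (by positivity)
        (H366.K.hn_self_nonneg k1Stmt (wp hx) _)
      refine le_of_eq_of_le ?_ (mul_le_mul (pow_le_pow_left₀ (norm_nonneg _) (hA (β x)) 2) h1 h0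
        (sq_nonneg _))
      rw [nP, norm_mul]
      ring
    · rw [hF _ h, zero_mul, norm_zero, zero_pow two_ne_zero, zero_mul, mul_zero]
      positivity
  · rw [(T.out D hF hx hN).self_of_nhds, hn_zero_left, Complex.zero_re, mul_zero]
    positivity

theorem Lam_zero (w : Matrix (Fin n) (Fin n) ℂ) :
    H608.K.Lam w (fun _ => (0 : Af n (p + 1))) = 0 := by
  have := H286.K.Lam_smul w 0 (fun _ => (0 : Af n (p + 1)))
  simpa only [H366.K.zsm] using this

/-- the pointwise estimate of the pairing -/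
theorem Tb.pt_le (T : Tb K (p + 1) ρ N β b P) (D : Af R (p + 1)) (hF : ∀ y, ρ < ‖y‖ → F y = 0)
    (hs : ContDiff ℝ ∞ F) (psd : ∀ i, ∀ z ∈ (K.e i).target, (cHess (K.φ i) z).PosSemidef)
    {S : Set (Cm R)} {E Q : ℝ} (hE0 : 0 ≤ E) (hQ0 : 0 ≤ Q) (hS : ∀ y ∉ S, ∀ l, dzb l F y = 0)
    (hE : ∀ y ∈ S, ∑ l, ‖dzb l F y‖ ^ 2 ≤ E)
    (hQ : ∀ i, ∀ x ∈ (K.e i).source, x ∈ N → β x ∈ S → nP K b P D i (K.e i x) ≤ Q ∧
      (cHess (K.φ i) (K.e i x) - ((1 : ℝ) : ℂ) •
        H619.K.sq (tL (fderiv ℂ (b i) (K.e i x)))).PosSemidef) (τ : K.Fm p) (x : M) :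
    ‖K.dn τ (K.S (s0 K N b P F D)) x‖ ^ 2 ≤ E * K.dA τ x * Q := by
  have hx := mem_ix K x
  have h0 : 0 ≤ E * K.dA τ x * Q := mul_nonneg (mul_nonneg hE0 (dA_nonneg k1Stmt psd τ x)) hQ0
  have hz : (fun c => dbV c (s0 K N b P F D (K.ix x)) (K.e (K.ix x) x)) = (fun _ => 0) →
      ‖K.dn τ (K.S (s0 K N b P F D)) x‖ ^ 2 ≤ E * K.dA τ x * Q := fun h => by
    rw [KA.dn, KA.S, if_pos ((K.e _).map_source hx), SL, h, Lam_zero, neg_zero, hn_zero_right,
      mul_zero, norm_zero, zero_pow two_ne_zero]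
    exact h0
  by_cases hN : x ∈ N
  swap
  · exact hz (funext fun c => by rw [dbV_congr (T.out D hF hx hN), dbV_zero])
  obtain ⟨h1, h2⟩ := T.an _ x hx hN
  have h3 : (fun c => dbV c (s0 K N b P F D (K.ix x)) (K.e (K.ix x) x)) = fun c => _ :=
    funext fun c => (dbV_congr (T.inn D hx hN) c).trans (dbV_s (hs.differentiable (by simp) _)
      h1.differentiableAt h2.differentiableAt (an_pull h1 D).differentiableAt c)
  by_cases hb : β x ∈ S
  swap
  · refine hz (h3.trans (funext fun c => ?_))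
    simp only [tht, T.eq _ x hx, hS _ hb, map_zero, zero_mul, Finset.sum_const_zero, H366.K.zsm]
  obtain ⟨h4, h5⟩ := hQ _ x hx hN hb
  have hw := wp hx
  have h6 := wd_le hw one_pos h5 (((T.eq _ x hx).symm ▸ hE _ hb :)) (τ (K.ix x) (K.e (K.ix x) x))
  rw [KA.dn, KA.S, if_pos ((K.e _).map_source hx), SL, h3, ← neg_one_smul ℂ (H608.K.Lam _ _),
    hn_smul_right,
    hn_wd hw, norm_mul, norm_mul, RCLike.norm_conj, norm_neg, norm_one, one_mul, mul_pow,
    Complex.norm_real, Real.norm_of_nonneg (Real.exp_pos _).le, KA.dA]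
  refine (mul_le_mul_of_nonneg_left (hn_cs hw _ _) (sq_nonneg _)).trans ?_
  rw [H366.K.hn_smul_self, div_one] at *
  unfold nP at h4
  have h7 := mul_le_mul (mul_le_mul_of_nonneg_left h6 (Real.exp_pos
    (-K.φ (K.ix x) (K.e (K.ix x) x))).le) h4 (mul_nonneg (by positivity)
      (H366.K.hn_self_nonneg k1Stmt hw _)) (mul_nonneg (Real.exp_pos _).le
      ((H366.K.hn_self_nonneg k1Stmt hw _).trans h6))
  refine le_of_eq_of_le ?_ (h7.trans_eq ?_) <;> ring

end

/-- **the engine** -/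
theorem Tb.core (T : Tb K (p + 1) ρ N β b P) (χ : K.Cut) (hμ : K.μ univ ≠ ⊤) (D : Af R (p + 1))
    (hF : ∀ y, ρ < ‖y‖ → F y = 0) (hs : ContDiff ℝ ∞ F)
    (psd : ∀ i, ∀ z ∈ (K.e i).target, (cHess (K.φ i) z).PosSemidef) {A B : ℝ}
    (hA : ∀ y, ‖F y‖ ≤ A) (hB0 : 0 ≤ B)
    (hB : ∀ i, ∀ x ∈ (K.e i).source, x ∈ N → ‖β x‖ ≤ ρ → nP K b P D i (K.e i x) ≤ B)
    {S : Set (Cm R)} {E Q : ℝ} (hE0 : 0 ≤ E) (hQ0 : 0 ≤ Q) (hS : ∀ y ∉ S, ∀ l, dzb l F y = 0)
    (hE : ∀ y ∈ S, ∑ l, ‖dzb l F y‖ ^ 2 ≤ E)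
    (hQ : ∀ i, ∀ x ∈ (K.e i).source, x ∈ N → β x ∈ S → nP K b P D i (K.e i x) ≤ Q ∧
      (cHess (K.φ i) (K.e i x) - ((1 : ℝ) : ℂ) •
        H619.K.sq (tL (fderiv ℂ (b i) (K.e i x)))).PosSemidef) :
    ∃ s : K.Fm (p + 1), K.IsForm s ∧ K.Hol s ∧ (∀ i, ∀ z ∈ (K.e i).target,
      Ad (K.w i z) (cHess (K.φ i) z) (s i z) = 0 ∧ dhL (K.φ i) (s i) z = 0) ∧ K.nl s < ⊤ ∧
      K.nl (s - s0 K N b P F D) ≤ ENNReal.ofReal (E * (Q * (K.μ univ).toReal)) := by
  have k := k3 n M K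
  have f0 := T.form (F := F) D
  have f1 := T.smooth D hF hs
  have f2 : K.nl (s0 K N b P F D) < ⊤ := by
    refine (lintegral_mono fun x => ENNReal.ofReal_le_ofReal (T.dn_le D hF hA hB0 hB x)).trans_lt ?_
    rw [lintegral_const]
    exact ENNReal.mul_lt_top ENNReal.ofReal_lt_top hμ.lt_top
  obtain ⟨s, h1, h2, h3, h4⟩ := eng n M K χ psd p _ f0 f1 f2 (T.dh D hF hs)
    (E * (Q * (K.μ univ).toReal)) fun τ hτ => by
      refine (int_cs (S := univ) (A := fun x => E * K.dA τ x) (B := fun _ => Q)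
        (Q := Q * (K.μ univ).toReal) ((k.intT p τ hτ).2.const_mul E)
        (fun x => mul_nonneg hE0 (dA_nonneg k1Stmt psd τ x)) (fun x => ?_) (fun _ _ => hQ0)
        (by positivity) ?_).trans_eq ?_
      · rw [indicator_univ]
        exact T.pt_le D hF hs psd hE0 hQ0 hS hE hQ τ x
      · rw [Measure.restrict_univ, lintegral_const, ENNReal.ofReal_mul hQ0,
          ENNReal.ofReal_toReal hμ]
      · rw [integral_const_mul]
        ring
  have h5 : K.nl s < ⊤ := by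
    have := nl_young k1Stmt k (form_sub h1 f0) (smooth_sub (smooth_of_hol h2) f1) f0 f1 one_pos
    rw [sub_add_cancel] at this
    exact this.trans_lt (ENNReal.add_lt_top.2 ⟨ENNReal.mul_lt_top ENNReal.ofReal_lt_top
      (h4.trans_lt ENNReal.ofReal_lt_top), ENNReal.mul_lt_top ENNReal.ofReal_lt_top f2⟩)
  exact ⟨s, h1, h2, fun i z hz => ⟨h3 i z hz, boch χ h1 h2 h5 h3 i hz⟩, h5, h4⟩

end Vale.Agent.P281Z.Lf.Atb
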