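import Vale.Agent.P281Z.Lf.AtbB
import Vale.Agent.P277Z.Van.Ka
import Vale.Agent.P284.H286.K.Meas

/-!
# P281Z, ATB: the framed charts of `Ω`
-/

open scoped Manifold ContDiff Topology ComplexConjugate ComplexOrder ENNReal
open Set Filter Metric MeasureTheory
open Vale.Agent.P272.K Vale.Agent.P284 Vale.Agent.P284.H608.K Vale.Agent.P285.H281.FD
open Vale.Agent.P277Z.Van.Ka (sub sub_symm sub_near tr_near jac_sub det_tr det_pos tgt)
open Vale.Agent.P284.H752 (k1Stmt)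

set_option linter.unusedSectionVars false

noncomputable section

namespace Vale.Agent.P281Z.Lf.Atb

variable {n : ℕ} {X : Type} [TopologicalSpace X] [ChartedSpace (Cm n) X] {Ω : Set X}
  {h : Chart n X → Cm n → Matrix (Fin n) (Fin n) ℂ} [MeasurableSpace Ω] [BorelSpace Ω]
  {μ : Measure Ω} {x₀ : Ω} {e : Chart n X} {L : Bd X} {φ : L.ι → X → ℝ} {Ψ : X → ℝ}

/-- the volume measure -/
structure Vol (h : Chart n X → Cm n → Matrix (Fin n) (Fin n) ℂ) (x₀ : Ω) (μ : Measure Ω) : Prop where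
  ck : CK n Ω h
  eq : ∀ e ∈ atlas (Cm n) X, ∀ f : Ω → ℝ≥0∞, Measurable f →
    (∀ x, x ∉ (sub e isOpen_univ ck.opn x₀).source → f x = 0) →
    ∫⁻ x, f x ∂μ = ∫⁻ z in (sub e isOpen_univ ck.opn x₀).target,
      f ((sub e isOpen_univ ck.opn x₀).symm z) * ENNReal.ofReal (h e z).det.re

theorem Vol.le (V : Vol h x₀ μ) (he : e ∈ atlas (Cm n) X) {f : Ω → ℝ≥0∞} (hf : Measurable f) :
    ∫⁻ z in (sub e isOpen_univ V.ck.opn x₀).target, f ((sub e isOpen_univ V.ck.opn x₀).symm z) *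
      ENNReal.ofReal (h e z).det.re ≤ ∫⁻ x, f x ∂μ := by
  set c := sub e isOpen_univ V.ck.opn x₀
  refine le_of_eq_of_le ?_ (lintegral_mono fun x => indicator_le_self c.source f x)
  rw [V.eq e he _ (hf.indicator c.open_source.measurableSet) fun x hx => indicator_of_notMem hx _]
  exact setLIntegral_congr_fun c.open_target.measurableSet fun z hz => by
    simp only [c, indicator_of_mem (c.map_target hz)]

theorem Vol.fin [CompactSpace X] (V : Vol h x₀ μ) : μ univ ≠ ⊤ := by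
  refine (isCompact_univ.induction_on (p := fun S : Set X => μ (Subtype.val ⁻¹' S) < ⊤)
    (by simp) (fun s t hst ht => (measure_mono (preimage_mono hst)).trans_lt ht)
    (fun s t hs ht => (measure_union_le _ _).trans_lt (ENNReal.add_lt_top.2 ⟨hs, ht⟩))
    fun x _ => ?_).ne
  have he : At (chartAt (Cm n) x) x := ⟨chart_mem_atlas _ _, mem_chart_source _ _⟩
  generalize chartAt (Cm n) x = e at he
  obtain ⟨O, hO, hf⟩ := V.ck.vol e x he
  obtain ⟨O', h1, h2, h3⟩ := _root_.mem_nhds_iff.1 hO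
  have h4 := e.isOpen_inter_preimage h2
  have h5 := (h4.preimage (continuous_subtype_val (p := (· ∈ Ω)))).measurableSet
  refine ⟨_, nhdsWithin_le_nhds (h4.mem_nhds ⟨he.2, h3⟩), lt_of_le_of_lt ?_ hf⟩
  rw [← lintegral_indicator_one h5, V.eq e he.1 _ (measurable_one.indicator h5) fun y hy =>
    indicator_of_notMem (fun h' => hy ⟨h'.1, trivial⟩) _]
  set c := sub e isOpen_univ V.ck.opn x₀
  have h6 := (h2.inter c.open_target).measurableSet
  refine le_trans ?_ (lintegral_mono_set (s := O' ∩ c.target) fun z hz => ⟨h1 hz.1, hz.2.2.2⟩)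
  rw [← lintegral_indicator h6, ← lintegral_indicator c.open_target.measurableSet]
  refine lintegral_mono (indicator_le fun z hz => ?_)
  by_cases h7 : z ∈ O'
  · rw [indicator_of_mem (show z ∈ O' ∩ c.target from ⟨h7, hz⟩)]
    exact mul_le_of_le_one_left' (indicator_le_self' (fun _ _ => zero_le_one) _)
  · rw [indicator_of_notMem fun h' => h7 ?_, zero_mul]
    · exact zero_le
    · have h8 : e (c.symm z).1 ∈ O' := h'.2
      rwa [sub_symm hz, e.right_inv hz.1] at h8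

/-- the data of the engine -/
structure Dt (h : Chart n X → Cm n → Matrix (Fin n) (Fin n) ℂ) (x₀ : Ω) (μ : Measure Ω) (L : Bd X)
    (φ : L.ι → X → ℝ) (Ψ : X → ℝ) : Prop where
  vol : Vol h x₀ μ
  lb : LBOn n Ω L φ
  sm : ∀ (e : Chart n X) x, At e x → x ∈ Ω → ContDiffAt ℝ ∞ (fun z => Ψ (e.symm z)) (e x)

variable [IsManifold 𝓘(ℂ, Cm n) ω X]

theorem exists_vol [T2Space X] [CompactSpace X] (ck : CK n Ω h) (x₀ : Ω) : ∃ μ, Vol h x₀ μ := by
  have := ChartedSpace.secondCountable_of_sigmaCompact (Cm n) X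
  have := ck.opn.locallyCompactSpace
  obtain ⟨μ, hμ⟩ := H286.K.measStmt n Ω {e : Chart n X // e ∈ atlas (Cm n) X}
    (fun e => sub e.1 isOpen_univ ck.opn x₀) (fun e z => (h e.1 z).det.re)
    (fun x => ⟨⟨chartAt (Cm n) x.1, chart_mem_atlas _ _⟩, mem_chart_source _ _, trivial⟩)
    (fun i j z hz hj => (tgt hz.1 (transition (At.of_target i.2 hz.1)
      ⟨j.2, sub_symm hz ▸ hj.1⟩).analyticAt).congr (tr_near hz).symm)
    (fun i z hz => (tgt (P := ContinuousAt fun z => (h i.1 z).det.re) hz.1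
      (Complex.continuous_re.continuousAt.comp (INT.contDiffAt_det (k := ∞) (ck.kah.smooth _ _
        (At.of_target i.2 hz.1) (not_not.2 hz.2.2))).continuousAt)).continuousWithinAt)
    (fun i z hz => det_pos (tgt (P := fun z => (h i.1 z).PosDef) hz.1
      (ck.kah.posDef _ _ (At.of_target i.2 hz.1) (not_not.2 hz.2.2))))
    fun i j x hi hj => by
      rw [jac_sub hi, ← det_tr]
      exact congrArg (fun A => (Matrix.det A).re)
        (ck.kah.change _ _ _ ⟨i.2, hi.1⟩ ⟨j.2, hj.1⟩ (not_not.2 x.2))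
  exact ⟨μ, ck, fun e he => hμ ⟨e, he⟩⟩

/-- the framed charts -/
def ka (D : Dt h x₀ μ L φ Ψ) : KA n Ω where
  I := {p : Chart n X × L.ι // p.1 ∈ atlas (Cm n) X}
  e i := sub i.1.1 (D.lb.isOpen i.1.2) D.vol.ck.opn x₀
  w i := h i.1.1
  φ i z := φ i.1.2 (i.1.1.symm z) + Ψ (i.1.1.symm z)
  a i j z := L.g i.1.2 j.1.2 (i.1.1.symm z)
  μ := μ
  cover x := by
    obtain ⟨i, hi⟩ := D.lb.cover x.1 x.2
    exact ⟨⟨(chartAt (Cm n) x.1, i), chart_mem_atlas _ _⟩, mem_chart_source _ _, hi⟩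
  wsm i z hz j k :=
    tgt hz.1 (D.vol.ck.kah.smooth _ _ (At.of_target i.2 hz.1) (not_not.2 hz.2.2) j k)
  wpos i z hz := tgt (P := fun z => (h i.1.1 z).PosDef) hz.1
    (D.vol.ck.kah.posDef _ _ (At.of_target i.2 hz.1) (not_not.2 hz.2.2))
  wcl i z hz j k l := tgt (P := fun z => dz l _ z = dz j _ z) hz.1
    (D.vol.ck.kah.closed _ _ (At.of_target i.2 hz.1) (not_not.2 hz.2.2) j k l)
  φsm i z hz := tgt hz.1 ((D.lb.sm _ _ _ (At.of_target i.2 hz.1) hz.2.1).add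
    (D.sm _ _ (At.of_target i.2 hz.1) hz.2.2))
  hol i j z hz hj := (tgt hz.1 (transition (At.of_target i.2 hz.1)
    ⟨j.2, sub_symm hz ▸ hj.1⟩).analyticAt).congr (tr_near hz).symm
  wch i j x hi hj := by
    rw [jac_sub hi]
    exact D.vol.ck.kah.change _ _ _ ⟨i.2, hi.1⟩ ⟨j.2, hj.1⟩ (not_not.2 x.2)
  ahol i j z hz hj :=
    tgt hz.1 (D.lb.hol _ _ _ hz.2.1 (sub_symm hz ▸ hj.2) _ (At.of_target i.2 hz.1))
  coc i j l x hi hj hl := by
    change L.g _ _ (i.1.1.symm (i.1.1 x.1)) =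
      L.g _ _ (i.1.1.symm (i.1.1 x.1)) * L.g _ _ (j.1.1.symm (j.1.1 x.1))
    rw [i.1.1.left_inv hi.1, j.1.1.left_inv hj.1, D.lb.coc _ _ _ _ hi.2 hj.2 hl.2]
  aself i x hi := by
    change L.g _ _ (i.1.1.symm (i.1.1 x.1)) = 1
    rw [i.1.1.left_inv hi.1]
    exact mul_left_cancel₀ (D.lb.ne _ _ _ hi.2 hi.2)
      ((D.lb.coc _ _ _ _ hi.2 hi.2 hi.2).trans (mul_one _).symm)
  φch i j x hi hj := by
    have h2 := norm_pos_iff.2 (D.lb.ne _ _ _ hi.2 hj.2)
    change Real.exp (-(φ _ (i.1.1.symm (i.1.1 x.1)) + Ψ (i.1.1.symm (i.1.1 x.1)))) *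
      ‖L.g _ _ (i.1.1.symm (i.1.1 x.1))‖ ^ 2 =
        Real.exp (-(φ _ (j.1.1.symm (j.1.1 x.1)) + Ψ (j.1.1.symm (j.1.1 x.1))))
    rw [i.1.1.left_inv hi.1, j.1.1.left_inv hj.1, D.lb.chg _ _ _ hi.2 hj.2, add_right_comm,
      neg_add, Real.exp_add, Real.exp_neg (Real.log _), Real.exp_log (by positivity), mul_assoc,
      inv_mul_cancel₀ (by positivity), mul_one]
  hμ i f hf h0 := by
    rw [D.vol.eq _ i.2 f hf fun x hx => h0 x fun h' => hx ⟨h'.1, trivial⟩,
      ← lintegral_indicator (OpenPartialHomeomorph.open_target _).measurableSet,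
      ← lintegral_indicator (OpenPartialHomeomorph.open_target _).measurableSet]
    refine lintegral_congr fun z => ?_
    by_cases hz : z ∈ (sub i.1.1 (D.lb.isOpen i.1.2) D.vol.ck.opn x₀).target
    · rw [indicator_of_mem hz, indicator_of_mem
        (show z ∈ (sub i.1.1 isOpen_univ D.vol.ck.opn x₀).target from ⟨hz.1, trivial, hz.2.2⟩)]
      rfl
    · rw [indicator_of_notMem hz, indicator_apply_eq_zero]
      intro h1
      rw [h0 _ fun h2 => hz ⟨h1.1, sub_symm h1 ▸ h2.2, h1.2.2⟩, zero_mul]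

/-- completeness -/
def cut (D : Dt h x₀ μ L φ Ψ) (c : CutOff Ωᶜ h) : (ka D).Cut where
  χ ν x := c.χ ν x.1
  ε := c.ε
  sm ν i z hz := (tgt hz.1 (c.sm ν _ _ (At.of_target i.2 hz.1)
    (not_not.2 hz.2.2))).congr_of_eventuallyEq ((sub_near (hU := D.lb.isOpen i.1.2)
      (hΩ := D.vol.ck.opn) hz).mono fun _ hy => congrArg (c.χ ν) hy)
  supp ν := by
    obtain ⟨C, hC, hCZ, h0⟩ := c.supp ν
    refine ⟨Subtype.val ⁻¹' C, Topology.IsInducing.subtypeVal.isCompact_preimage' hC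
      fun x hx => ?_, fun x hx => h0 _ hx⟩
    by_contra h1
    exact (hCZ ▸ ⟨hx, fun h2 => h1 ⟨⟨x, h2⟩, rfl⟩⟩ : x ∈ (∅ : Set X))
  nonneg ν x := c.nonneg ν _
  mono ν x := c.mono ν _
  le_one ν x := c.le_one ν _
  lim x := (c.lim x.1 (not_not.2 x.2)).mono fun _ hν =>
    continuous_subtype_val.continuousAt.eventually hν
  grad ν i z hz := by
    have h2 : (fun z => (c.χ ν (((ka D).e i).symm z).1 : ℂ)) =ᶠ[𝓝 z]
        fun z => (c.χ ν (i.1.1.symm z) : ℂ) :=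
      (sub_near (hU := D.lb.isOpen i.1.2) (hΩ := D.vol.ck.opn) hz).mono fun _ hy =>
        congrArg (fun y => (c.χ ν y : ℂ)) hy
    have h3 := c.grad ν _ _ (At.of_target i.2 hz.1) (not_not.2 hz.2.2)
    rw [i.1.1.right_inv hz.1] at h3
    simp only [dz, h2.fderiv_eq]
    exact h3
  tend := c.tend

/-- local `L²` estimates near every point of `X` -/
theorem Vol.loc [T2Space X] (V : Vol h x₀ μ) (p : ℕ) {x : X} (he : At e x) :
    ∃ C : ℝ, ∃ O ∈ 𝓝 (e x), 0 ≤ C ∧ O ⊆ e.target ∧ ∀ (L : Bd X) (φ : L.ι → X → ℝ) (Ψ : X → ℝ)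
      (D : Dt h x₀ μ L φ Ψ) (η : (ka D).Fm p), (ka D).IsForm η → (ka D).Smooth η →
      ∃ ν : Cm n → ℝ≥0∞, ∫⁻ z, ν z ≤ ENNReal.ofReal C * (ka D).nl η ∧ ∀ z ∈ O, ∀ i,
        e.symm z ∈ L.U i → ENNReal.ofReal (Real.exp (-(φ i (e.symm z) + Ψ (e.symm z))) *
          ‖η ⟨(e, i), he.1⟩ z‖ ^ 2) ≤ ν z := by
  obtain ⟨c, hc, h1⟩ := V.ck.low e x he
  obtain ⟨C, hC, h2⟩ := low_bd n p hc
  refine ⟨C, _, inter_mem (e.open_target.mem_nhds (e.map_source he.2))
    ((e.tendsto_symm he.2).eventually h1), hC, inter_subset_left, fun L φ Ψ D η hf hs => ?_⟩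
  have k := k3 n Ω (ka D)
  set c := sub e isOpen_univ V.ck.opn x₀
  refine ⟨c.target.indicator fun z => ENNReal.ofReal C * (ENNReal.ofReal ((ka D).dn η η
    (c.symm z)).re * ENNReal.ofReal (h e z).det.re), ?_, fun z hz i hi => ?_⟩
  · rw [lintegral_indicator c.open_target.measurableSet,
      lintegral_const_mul' _ _ ENNReal.ofReal_ne_top]
    exact mul_le_mul_right (V.le he.1 (Complex.continuous_re.comp
      (H286.K.continuous_dn k hf hs hf hs)).measurable.ennreal_ofReal) _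
  · have h3 : z ∈ ((ka D).e ⟨(e, i), he.1⟩).target := ⟨hz.1, hi, D.lb.sub i hi⟩
    have h4 := hz.2 h3.2.2
    rw [e.right_inv hz.1] at h4
    have h5 := H366.K.dn_symm k hf _ h3
    rw [indicator_of_mem (show z ∈ c.target from ⟨hz.1, trivial, h3.2.2⟩),
      ← ENNReal.ofReal_mul (H286.K.dn_nonneg k1Stmt _ _), ← ENNReal.ofReal_mul hC]
    refine ENNReal.ofReal_le_ofReal ((mul_le_mul_of_nonneg_left (h2 _ ((ka D).wpos _ z h3) h4 _)
      (Real.exp_pos _).le).trans_eq ?_)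
    rw [show ((ka D).dn η η (c.symm z)).re = _ from h5, mul_left_comm, mul_assoc]
    rfl

end Vale.Agent.P281Z.Lf.Atb
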