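import Vale.Agent.P281Z.Spec
import Vale.Agent.P281Z.Hm.Sk
import Vale.Agent.P284.H608.K.App
import Vale.Agent.P284.H608.K.Spec
import Vale.Agent.P277Z.Slc.Basic

/-!
# P281Z, the base of the variation: leaves, descent, and the bigness of `K_Z + c M` (definitions)
-/

open scoped Manifold ContDiff Topology ComplexConjugate ComplexOrder ENNReal Matrix.Norms.Operator
open Set Filter MeasureTheory Matrix
open Vale.Agent.P272.K Vale.Agent.P285.H281.FD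
open Vale.Agent.P277Z (Hol Mer gen)
open Vale.Agent.P277Z.Slc (lin Ind LEq IsDiv triv)
open Vale.Agent.P277.HD (pull)
open Vale.Agent.P284.H608.K (Af ev Ad dhL KOff CutOff)
open Vale.Agent.P284Z (levi)
open Vale.Agent.P281Z.Hm (Cv GV Ln Mx Gr cz th omB omH hn gH tens tensG LnAt kerL)

noncomputable section

namespace Vale.Agent.P281Z.Lf

/-- `Θ (v, v)` -/
def qd {n : ℕ} (Θ : Matrix (Fin n) (Fin n) ℂ) (v : Cm n) : ℝ :=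
  (∑ j, ∑ k, Θ j k * v j * conj (v k)).re

/-- the determinant as a form -/
def detF (R : ℕ) : Af R R :=
  { Matrix.detRowAlternating (n := Fin R) (R := ℂ) with
    cont := Continuous.matrix_det continuous_id }

/-- `db_1 ∧ … ∧ db_R` -/
def dX {n R : ℕ} (b : Cm n → Cm R) (z : Cm n) : Af n R :=
  (detF R).compContinuousLinearMap (fderiv ℂ b z)

/-- `Σ v_a ∂φ/∂z_a` -/
def dv {n : ℕ} (φ : Cm n → ℝ) (z v : Cm n) : ℂ := ∑ a, dz a (fun y => (φ y : ℂ)) z * v a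

/-- the tensor power of a vector -/
def tp {n : Type} (a : ℕ) (s : n → ℂ) : (Fin a → n) → ℂ := fun I => ∏ j, s (I j)

/-- the jets of order one of `a` and `b` at `z` are close -/
def Jet {n : ℕ} {F : Type} [NormedAddCommGroup F] [NormedSpace ℂ F] (a b : Cm n → F) (z : Cm n)
    (ε : ℝ) : Prop := ‖b z - a z‖ ≤ ε ∧ ‖fderiv ℂ b z - fderiv ℂ a z‖ ≤ ε

section eng

variable (n : ℕ) {X : Type} [TopologicalSpace X] [ChartedSpace (Cm n) X]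

/-- a line bundle on the open set `Ω`, with a smooth metric -/
structure LBOn (Ω : Set X) (L : Bd X) (φ : L.ι → X → ℝ) : Prop where
  isOpen : ∀ i, IsOpen (L.U i)
  sub : ∀ i, L.U i ⊆ Ω
  cover : ∀ x ∈ Ω, ∃ i, x ∈ L.U i
  hol : ∀ i j, ∀ x ∈ L.U i, x ∈ L.U j → Hol n (L.g i j) x
  ne : ∀ i j, ∀ x ∈ L.U i, x ∈ L.U j → L.g i j x ≠ 0
  coc : ∀ i j k, ∀ x ∈ L.U i, x ∈ L.U j → x ∈ L.U k → L.g i j x * L.g j k x = L.g i k x
  sm : ∀ i (e : Chart n X) x, At e x → x ∈ L.U i → ContDiffAt ℝ ∞ (fun z => φ i (e.symm z)) (e x)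
  chg : ∀ i j, ∀ x ∈ L.U i, x ∈ L.U j → φ i x = φ j x + Real.log (‖L.g i j x‖ ^ 2)

/-- a complete Kähler metric of finite volume on `Ω` -/
structure CK (Ω : Set X) (h : Chart n X → Cm n → Matrix (Fin n) (Fin n) ℂ) : Prop where
  opn : IsOpen Ω
  kah : KOff Ωᶜ h
  cut : Nonempty (CutOff Ωᶜ h)
  vol : ∀ (e : Chart n X) x, At e x → ∃ O ∈ 𝓝 (e x),
    ∫⁻ z in O ∩ e.symm ⁻¹' Ω, ENNReal.ofReal (h e z).det.re < ⊤
  low : ∀ (e : Chart n X) x, At e x → ∃ c : ℝ, 0 < c ∧ ∀ᶠ y in 𝓝 x, y ∈ Ω →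
    ∀ v, c * ‖v‖ ^ 2 ≤ qd (h e (e y)) v

/-- forms of type `(k, 0)` with values in `L` -/
abbrev Fr (L : Bd X) (k : ℕ) : Type := L.ι → Chart n X → Cm n → Af n k

/-- holomorphic forms -/
structure HolF {L : Bd X} {k : ℕ} (b : Fr n L k) : Prop where
  an : ∀ i e x, At e x → x ∈ L.U i → AnalyticAt ℂ (b i e) (e x)
  chg : ∀ i j e e' x, At e x → At e' x → x ∈ L.U i → x ∈ L.U j → b i e (e x) =
    L.g i j x • (b j e' (e' x)).compContinuousLinearMap (fderiv ℂ (fun z => e' (e.symm z)) (e x))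

/-- square integrable near every point of `X` -/
def L2F {L : Bd X} (φ : L.ι → X → ℝ) {k : ℕ} (b : Fr n L k) : Prop :=
  ∀ (e : Chart n X) x, At e x → ∃ O ∈ 𝓝 (e x), O ⊆ e.target ∧ ∃ ν : Cm n → ℝ≥0∞,
    ∫⁻ z in O, ν z < ⊤ ∧ ∀ z ∈ O, ∀ i, e.symm z ∈ L.U i →
      ENNReal.ofReal (Real.exp (-φ i (e.symm z)) * ‖b i e z‖ ^ 2) ≤ ν z

variable {n} in
/-- the differential of `β` in the chart `e` -/
def dB {R : ℕ} (β : X → Cm R) (e : Chart n X) (x : X) : Cm n →L[ℂ] Cm R :=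
  fderiv ℂ (fun z => β (e.symm z)) (e x)

/-- a tube: `β : N → ℂ^R` is holomorphic of rank `≤ r`, and `{‖β‖ ≤ ρ}` is closed in `Ω` -/
structure Tube (Ω : Set X) (h : Chart n X → Cm n → Matrix (Fin n) (Fin n) ℂ) {R : ℕ} (r : ℕ)
    (ρ : ℝ) (N : Set X) (β : X → Cm R) : Prop where
  opn : IsOpen N
  sub : N ⊆ Ω
  hol : ∀ x ∈ N, ∀ k, Hol n (fun y => β y k) x
  rk : ∀ (e : Chart n X) x, At e x → x ∈ N →
    Module.finrank ℂ (LinearMap.range (dB β e x : Cm n →ₗ[ℂ] Cm R)) ≤ r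
  cls : ∀ x ∈ Ω, x ∈ closure {y | y ∈ N ∧ ‖β y‖ ≤ ρ} → x ∈ N
  met : ∃ C : ℝ, ∀ (e : Chart n X) x, At e x → x ∈ N → ‖β x‖ ≤ ρ →
    ∀ v, ‖dB β e x v‖ ^ 2 ≤ C * qd (h e (e x)) v

/-- a section `P` on the tube which is flat along `ker dβ`; the curvature is `≥ c |dβ|²` -/
structure Frm {L : Bd X} (φ : L.ι → X → ℝ) {R : ℕ} (N : Set X) (β : X → Cm R) (ρ c : ℝ)
    (P : L.ι → X → ℂ) : Prop where
  hol : ∀ i, ∀ x ∈ N, x ∈ L.U i → Hol n (P i) x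
  chg : ∀ i j, ∀ x ∈ N, x ∈ L.U i → x ∈ L.U j → P i x = L.g i j x * P j x
  bd : ∃ C : ℝ, ∀ i, ∀ x ∈ N, x ∈ L.U i → ‖β x‖ ≤ ρ → Real.exp (-φ i x) * ‖P i x‖ ^ 2 ≤ C
  flat : ∀ i (e : Chart n X) x, At e x → x ∈ N → x ∈ L.U i → ∀ v, dB β e x v = 0 →
    fderiv ℂ (fun z => P i (e.symm z)) (e x) v = P i x * dv (fun z => φ i (e.symm z)) (e x) v
  psd : ∀ i (e : Chart n X) x, At e x → x ∈ L.U i → ∀ v,
    0 ≤ levi (fun z => φ i (e.symm z)) (e x) v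
  pos : ∀ i (e : Chart n X) x, At e x → x ∈ N → x ∈ L.U i → ‖β x‖ ≤ ρ → ∀ v,
    c * ‖dB β e x v‖ ^ 2 ≤ levi (fun z => φ i (e.symm z)) (e x) v

/-- a weight which is a function of `β` -/
structure Wt (Ω : Set X) {R : ℕ} (N : Set X) (β : X → Cm R) (Ψ : X → ℝ) : Prop where
  sm : ∀ (e : Chart n X) x, At e x → x ∈ Ω → ContDiffAt ℝ ∞ (fun z => Ψ (e.symm z)) (e x)
  ker : ∀ (e : Chart n X) x, At e x → x ∈ Ω → ∀ v, (x ∈ N → dB β e x v = 0) →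
    dv (fun z => Ψ (e.symm z)) (e x) v = 0

/-- a closed holomorphic form in the kernel of the curvature -/
structure Sol (h : Chart n X → Cm n → Matrix (Fin n) (Fin n) ℂ) {L : Bd X} (φ : L.ι → X → ℝ)
    (Ψ : X → ℝ) {k : ℕ} (b : Fr n L k) : Prop where
  hol : HolF n b
  ad : ∀ i (e : Chart n X) x, At e x → x ∈ L.U i →
    Ad (h e (e x)) (cHess (fun z => φ i (e.symm z)) (e x)) (b i e (e x)) = 0
  cl : ∀ i (e : Chart n X) x, At e x → x ∈ L.U i →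
    dhL (fun z => φ i (e.symm z) + Ψ (e.symm z)) (b i e) (e x) = 0
  l2 : L2F n φ b

/-- `h⁰(L) ≥ k` -/
def Ge (L : Bd X) (k : ℕ) : Prop :=
  ∃ s : Fin k → L.ι → X → ℂ, (∀ j, IsSec n L (s j)) ∧
    ∀ c : Fin k → ℂ, (∀ i, ∀ x ∈ L.U i, ∑ j, c j * s j i x = 0) → c = 0

/-- a metric on `D` off the divisor `G`, of slow growth, whose curvature is `≤ 0` on a space of
codimension `≤ μ` -/
structure NullW {κ : Type} [Fintype κ] (G : κ → Set X) (D : Bd X) (φ : D.ι → X → ℝ) (μ : ℕ) :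
    Prop where
  sm : ∀ i (e : Chart n X) x, At e x → x ∈ D.U i → x ∈ off G →
    ContDiffAt ℝ 2 (fun z => φ i (e.symm z)) (e x)
  chg : ∀ i j, ∀ x ∈ D.U i, x ∈ D.U j → x ∈ off G → φ i x = φ j x + Real.log (‖D.g i j x‖ ^ 2)
  nul : ∀ i (e : Chart n X) x, At e x → x ∈ D.U i → x ∈ off G → ∃ W : Submodule ℂ (Cm n),
    n ≤ Module.finrank ℂ W + μ ∧ ∀ v ∈ W, levi (fun z => φ i (e.symm z)) (e x) v ≤ 0
  bd : ∀ i, ∀ x ∈ D.U i, ∀ ζ : κ → X → ℂ, (∀ l, LEq n (G l) x (ζ l)) → ∀ ε : ℝ, 0 < ε →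
    ∃ C : ℝ, ∀ᶠ y in 𝓝 x, y ∈ off G → Real.exp (-φ i y) * ∏ l, ‖ζ l y‖ ^ ε ≤ C

/-- the restriction to `Ω` -/
def res (L : Bd X) (Ω : Set X) : Bd X where
  ι := L.ι
  U i := L.U i ∩ Ω
  g := L.g

end eng

section vhs

variable {p : ℕ} {Y : Type} [TopologicalSpace Y] [ChartedSpace (Cm p) Y] {U : Set Y}

/-- a local section of the covering in the chart `e` -/
def Sc (C : Cv Y U) (e : Chart p Y) (σ : Cm p → C.X) (z : Cm p) : Prop :=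
  ∀ᶠ x in 𝓝 z, ContinuousAt σ x ∧ x ∈ e.target ∧ C.π (σ x) = e.symm x

variable {C : Cv Y U} {n : Type} [Fintype n] [DecidableEq n]

open Classical in
/-- the Hodge metric in the chart `e` -/
def omM (V : GV p C n) (e : Chart p Y) (z : Cm p) : Matrix (Fin p) (Fin p) ℂ :=
  if h : ∃ σ, Sc C e σ z then
    of fun j k => omB V.w (fun x => V.gr (h.choose x)) z (Pi.single j 1) (Pi.single k 1) else 0

/-- the Higgs field along the local section `σ` -/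
abbrev thS (V : GV p C n) (σ : Cm p → C.X) (z v : Cm p) : Mx n := th V.w (fun x => V.gr (σ x)) z v

/-- the elements with a fixed point act trivially -/
def Free (V : GV p C n) : Prop := ∀ (g : C.Γ) (x : C.X), g • x = x → V.ρ g = 1

/-- the rank of the period map is `≤ r` everywhere -/
def RkLe (V : GV p C n) (r : ℕ) : Prop := ∀ e ∈ atlas (Cm p) Y, ∀ σ z, Sc C e σ z →
  ∀ v : Fin (r + 1) → Cm p, ¬ LinearIndependent ℂ fun j => thS V σ z (v j)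

/-- the rank of the period map is `≥ r` at `y` -/
def RkAt (V : GV p C n) (r : ℕ) (y : Y) : Prop := ∀ e, At e y → ∀ σ, Sc C e σ (e y) →
  ∃ v : Fin r → Cm p, LinearIndependent ℂ fun j => thS V σ (e y) (v j)

/-- coordinates `m A` of the frames of `L` in the flat frame; `A` is a change of the flat frame -/
structure Dual (V : GV p C n) (L : Bd Y) (φ : L.ι → Y → ℝ) (m : Mx n → L.ι → C.X → ℂ) : Prop where
  an : ∀ A i, ∀ e ∈ atlas (Cm p) Y, ∀ σ z, Sc C e σ z → e.symm z ∈ L.U i →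
    AnalyticAt ℂ (fun x => m A i (σ x)) z
  chg : ∀ A i j x, C.π x ∈ L.U i → C.π x ∈ L.U j → m A j x = L.g i j (C.π x) * m A i x
  eqv : ∀ A i (g : C.Γ) x, C.π x ∈ L.U i → m A i (g • x) = m (A * cz (V.ρ g)) i x
  poly : ∃ d : ℕ, ∀ i x, C.π x ∈ L.U i → ∃ P : MvPolynomial (n × n) ℂ, P ≠ 0 ∧
    P.totalDegree ≤ d ∧ ∀ A, m A i x = MvPolynomial.eval (fun ab => A ab.1 ab.2) P
  bd : ∀ A, ∃ (B : ℝ) (d : ℕ), ∀ i x (b : ℝ), C.π x ∈ L.U i → 1 ≤ b →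
    (∀ s, ‖s‖ ^ 2 ≤ b * hn (gH V.Q V.w (V.gr x)) s) →
      ‖m A i x‖ ^ 2 ≤ B * b ^ d * Real.exp (-φ i (C.π x))
  flat : ∀ A i, ∀ e ∈ atlas (Cm p) Y, ∀ σ z, Sc C e σ z → e.symm z ∈ L.U i → ∀ v,
    thS V σ z v = 0 →
    fderiv ℂ (fun x => m A i (σ x)) z v = -m A i (σ z) * dv (fun x => φ i (e.symm x)) z v

/-- the bundle `⊗ det F^k` -/
structure Lam (V : GV p C n) (L : Bd Y) (φ : L.ι → Y → ℝ) (m : Mx n → L.ι → C.X → ℂ) : Prop where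
  lb : LBOn p U L φ
  dual : Dual V L φ m
  curv : ∀ i, ∀ e ∈ atlas (Cm p) Y, ∀ σ z, Sc C e σ z → e.symm z ∈ L.U i → ∀ v,
    levi (fun x => φ i (e.symm x)) z v = 4 * omH V.w (fun x => V.gr (σ x)) z v
  low : ∀ A i x, C.π x ∈ L.U i → m A i x ≠ 0 → ∃ δ c : ℝ, 0 < δ ∧ 0 < c ∧ ∀ j x', C.π x' ∈ L.U j →
    (∀ q, ‖V.gr x' q - V.gr x q‖ ≤ δ) → c * Real.exp (-φ j (C.π x')) ≤ ‖m A j x'‖ ^ 2
  fin : ∀ A i (g : C.Γ) x (o : ℕ), C.π x ∈ L.U i → V.ρ g ^ o = 1 →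
    (∀ q, Commute (cz (V.ρ g)) (V.gr x q)) → m (A * cz (V.ρ g)) i x ^ o = m A i x ^ o

variable {V : GV p C n} {l : Bd Y}

/-- the weight of the line -/
def lw (L : Ln V l) : (res l U).ι → Y → ℝ := fun i y => -Real.log (L.hY i y)

/-- the coordinates of the line -/
def lm (L : Ln V l) (k : n) : Mx n → (res l U).ι → C.X → ℂ := fun A i x => (A *ᵥ L.ψ i x) k

/-- first integrals `u`, and a section `q` of `a l` which is flat along the leaves -/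
structure Leaf (L : Ln V l) (r : ℕ) (u : Fin r → Y → ℂ) (a : ℕ) (q : l.ι → Y → ℂ) (B : Set Y) :
    Prop where
  pos : 0 < a
  thin : Thin p B
  sub : Bᶜ ⊆ U
  mer : ∀ j x, Mer p (u j) x
  hol : ∀ j, ∀ x ∉ B, Hol p (u j) x
  ind : ∃ x ∉ B, Ind p u x
  qmer : ∀ i, ∀ x ∈ l.U i, Mer p (q i) x
  qhol : ∀ i, ∀ x ∈ l.U i, x ∉ B → Hol p (q i) x ∧ q i x ≠ 0
  qchg : ∀ i j, ∀ x ∈ l.U i, x ∈ l.U j → x ∉ B → q i x = l.g i j x ^ a * q j x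
  flat : ∀ i, ∀ e ∈ atlas (Cm p) Y, ∀ σ z, Sc C e σ z → e.symm z ∉ B → e.symm z ∈ l.U i →
    Ind p u (e.symm z) → ∀ v, (∀ j, fderiv ℂ (fun x => u j (e.symm x)) z v = 0) →
      thS V σ z v = 0 ∧ fderiv ℂ (fun x => q i (e.symm x) • tp a (L.ψ i (σ x))) z v = 0
  rk : ∃ y ∈ U, RkAt V r y

/-- `Ψ` is a frame of a line over the complement of `B`, flat along the fibres of `u` -/
structure Fl (V : GV p C n) (Ψ : C.X → n → ℂ) {r : ℕ} (u : Fin r → Y → ℂ) (B : Set Y) : Prop where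
  eqv : ∀ (g : C.Γ) x, C.π x ∉ B → Ψ (g • x) = cz (V.ρ g) *ᵥ Ψ x
  ln : ∀ e ∈ atlas (Cm p) Y, ∀ σ z, Sc C e σ z → e.symm z ∉ B →
    LnAt V.w (fun x => V.gr (σ x)) (fun x => Ψ (σ x)) z
  flat : ∀ e ∈ atlas (Cm p) Y, ∀ σ z, Sc C e σ z → e.symm z ∉ B → Ind p u (e.symm z) →
    ∀ v, (∀ j, fderiv ℂ (fun x => u j (e.symm x)) z v = 0) →
      thS V σ z v = 0 ∧ fderiv ℂ (fun x => Ψ (σ x)) z v = 0

/-- the tensor power of the variation, with the frame `q ψ^a` -/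
structure Tp (L : Ln V l) (a : ℕ) (q : l.ι → Y → ℂ) (B : Set Y) (V₁ : GV p C (Fin a → n))
    (Ψ : C.X → (Fin a → n) → ℂ) : Prop where
  w : V₁.w = a * V.w
  gr : ∀ x, V₁.gr x = tensG a V.w (V.gr x)
  ρ : ∀ g, V₁.ρ g = tens fun _ => V.ρ g
  ψ : ∀ i x, C.π x ∈ l.U i → C.π x ∉ B → Ψ x = q i (C.π x) • tp a (L.ψ i x)
  nrm : ∀ i x, C.π x ∈ l.U i → C.π x ∉ B →
    hn (gH V₁.Q V₁.w (V₁.gr x)) (Ψ x) = ‖q i (C.π x)‖ ^ 2 * L.hY i (C.π x) ^ a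
  rk : ∀ r y, RkAt V r y → RkAt V₁ r y

end vhs

/-- a model of the fibration which is given by `u` -/
structure Fo {p : ℕ} (W : Mf p) {r : ℕ} (u : Fin r → W.X → ℂ) (B₀ : Set W.X) : Type 1 where
  W' : Mf p
  μ : W'.X → W.X
  B : Set W.X
  k : ℕ
  G : Fin k → Set W'.X
  Z : Mf r
  γ : W'.X → Z.X
  S : Hm.Snc r Z.X
  A : Bd Z.X
  modif : Modif p μ B
  sub : B₀ ⊆ B
  snc : P277Z.Slc.Snc p G
  bad : ∀ y, μ y ∈ B ↔ ∃ l, y ∈ G l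
  kah : W'.Kah
  connZ : ConnectedSpace Z.X
  kahZ : Z.Kah
  lbA : IsLB r A
  posA : Pos r A
  hol : HolM p r γ
  surj : Function.Surjective γ
  sconn : S.Conn
  pre : ∀ y ∈ off G, γ y ∈ S.U
  sbm : ∀ y ∈ off G, Sbm p r γ y
  ind : ∀ y ∈ off G, Ind p u (μ y)
  fac : ∀ y ∈ off G, ∀ y' ∈ off G, γ y = γ y' → ∀ j, u j (μ y) = u j (μ y')
  fib : ∀ z ∈ S.U, IsConnected (γ ⁻¹' {z} ∩ off G)

/-- the variation on `Z` -/
structure Desc {p : ℕ} {W : Mf p} {r : ℕ} {u : Fin r → W.X → ℂ} {B₀ : Set W.X} (F : Fo W u B₀)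
    {U : Set W.X} {C : Cv W.X U} {n : Type} [Fintype n] [DecidableEq n] (V : GV p C n)
    (Ψ : C.X → n → ℂ) : Type 1 where
  C' : Cv F.Z.X F.S.U
  V' : GV r C' n
  L' : Ln V' (triv F.Z.X)
  Φ : C.X → C'.X
  ε : C'.Γ → C.Γ
  Q : V'.Q = V.Q
  w : V'.w = V.w
  ρ : ∀ g, V'.ρ g = V.ρ (ε g)
  cont : ContinuousOn Φ (C.π ⁻¹' F.Bᶜ)
  π : ∀ x y, F.μ y = C.π x → C.π x ∉ F.B → C'.π (Φ x) = F.γ y
  gr : ∀ x, C.π x ∉ F.B → V'.gr (Φ x) = V.gr x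
  ψ : ∀ i x, C.π x ∉ F.B → L'.ψ i (Φ x) = Ψ x
  surj : ∀ x', ∃ x, C.π x ∉ F.B ∧ Φ x = x'

/-- the data on `Z` -/
structure Zd (r : ℕ) : Type 1 where
  Z : Mf r
  S : Hm.Snc r Z.X
  C : Cv Z.X S.U
  n : Type
  [fin : Fintype n]
  [dec : DecidableEq n]
  V : GV r C n
  L : Ln V (triv Z.X)
  α : Fin S.r → ℚ
  a : ℕ
  m : Fin S.r → ℤ
  O : Fin S.r → Bd Z.X
  σ : ∀ l, (O l).ι → Z.X → ℂ
  A : Bd Z.X

attribute [instance] Zd.fin Zd.dec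

namespace Zd

variable {r : ℕ} (D : Zd r)

/-- the hypotheses -/
structure Ok : Prop where
  conn : ConnectedSpace D.Z.X
  kah : D.Z.Kah
  sconn : D.S.Conn
  mod : D.L.Mod
  min : D.L.Min
  imm : ∃ y ∈ D.S.U, RkAt D.V r y
  alpha : D.L.Alpha D.α
  pos : 0 < D.a
  int : ∀ l, (D.m l : ℚ) = D.a * D.α l
  div : ∀ l, IsDiv r (D.S.G l) (D.O l) (D.σ l)
  lbA : IsLB r D.A
  posA : Pos r D.A
  bpf : Bpf r D.A

/-- the moduli part -/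
def M : Bd D.Z.X := lin D.O D.m

/-- the line bundles -/
def E : Fin 3 ⊕ Fin D.S.r → Bd D.Z.X := Sum.elim ![Bd.can r D.Z.X, D.M, D.A] D.O

/-- the exponents -/
def ex (T : Finset (Fin D.S.r)) (N c : ℕ) : Fin 3 ⊕ Fin D.S.r → ℤ :=
  Sum.elim ![N, c, 0] fun l => if l ∈ T then N else 0

/-- `ν` is the rank of `[ψ]`, at a point where the period map is an immersion -/
def Nu (ν : ℕ) : Prop := D.L.RkLe ν ∧ ∃ y ∈ D.S.U, RkAt D.V r y ∧ ∀ i (e : Chart r D.Z.X), At e y → ∀ σ,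
  Sc D.C e σ (e y) → Module.finrank ℂ (kerL (fun x => D.L.ψ i (σ x)) (e y)) + ν = r

/-- `M` is nef -/
def Nef : Prop := ∀ q, 0 < q → ∃ k, 0 < k ∧ Bpf r ((D.M.pow (q * k)).mul (D.A.pow k))

/-- `K + c M` is big -/
def Theta : Prop :=
  ∃ (N₀ c₀ : ℕ) (θ : (lin ![Bd.can r D.Z.X, D.M, D.A] ![N₀, c₀, -1]).ι → D.Z.X → ℂ),
    0 < N₀ ∧ IsSec r _ θ ∧ ∃ z, NZ _ θ z

end Zd

/-- the output -/
structure Out {p : ℕ} (W : Mf p) (U : Set W.X) (l : Bd W.X) (h : l.ι → W.X → ℝ) : Type 1 where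
  W' : Mf p
  μ : W'.X → W.X
  B : Set W.X
  r : ℕ
  Z : Mf r
  γ : W'.X → Z.X
  M : Bd Z.X
  A : Bd Z.X
  a : ℕ
  Q : Set W'.X
  q : l.ι → M.ι → W'.X → ℂ
  modif : Modif p μ B
  kah : W'.Kah
  hol : HolM p r γ
  surj : Function.Surjective γ
  lbM : IsLB r M
  lbA : IsLB r A
  posA : Pos r A
  nef : ∀ q, 0 < q → ∃ k, 0 < k ∧ Bpf r ((M.pow (q * k)).mul (A.pow k))
  theta : ∃ (N₀ c₀ : ℕ) (θ : (lin ![Bd.can r Z.X, M, A] ![N₀, c₀, -1]).ι → Z.X → ℂ),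
    0 < N₀ ∧ IsSec r _ θ ∧ ∃ z, NZ _ θ z
  pos : 0 < a
  thin : Thin p Q
  sub : ∀ y ∉ Q, μ y ∈ U
  qhol : ∀ i j y, μ y ∈ l.U i → γ y ∈ M.U j → y ∉ Q → Hol p (q i j) y ∧ q i j y ≠ 0
  qmer : ∀ i j y, μ y ∈ l.U i → γ y ∈ M.U j → Mer p (q i j) y
  qchg : ∀ i i' j j' y, μ y ∈ l.U i → μ y ∈ l.U i' → γ y ∈ M.U j → γ y ∈ M.U j' → y ∉ Q →
    q i j y * M.g j j' (γ y) = l.g i i' (μ y) ^ a * q i' j' y
  nrm : ∀ i j y, μ y ∈ l.U i → γ y ∈ M.U j → ∃ (c : ℝ) (g : W'.X → ℂ), 0 < c ∧ Hol p g y ∧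
    (¬ ∀ᶠ x in 𝓝 y, g x = 0) ∧ (∀ᶠ x in 𝓝 y, x ∉ Q → c ≤ ‖q i j x‖ ^ 2 * h i (μ x) ^ a) ∧
    ∀ ε : ℝ, 0 < ε → ∃ C : ℝ, ∀ᶠ x in 𝓝 y, x ∉ Q →
      ‖q i j x‖ ^ 2 * h i (μ x) ^ a * ‖g x‖ ^ ε ≤ C

/-- **HL** -/
def HL : Prop :=
  ∀ (p : ℕ) (W : Mf p) (S : Hm.Snc p W.X) (C : Cv W.X S.U) (n : Type) [Fintype n] [DecidableEq n]
    (V : GV p C n) (l : Bd W.X) (L : Ln V l), ConnectedSpace W.X → W.Kah → Free V →
    (∀ g, L.lam g = 1) → L.Mod → Nonempty (Out W S.U l L.hY)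

end Vale.Agent.P281Z.Lf
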