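import Vale.Agent.P281Z.Hm.Defs

/-!
# P281Z, the space of germs along a fibration: topology
-/

open scoped Topology
open Set Filter Function
open Vale.Agent.P281Z.Hm (Cv)

noncomputable section

namespace Vale.Agent.P281Z.Lf

/-- `D` is locally a function of `γ ∘ a`, where `a` is a quotient by `Γ` -/
structure GEt (X T Z M Γ : Type) [TopologicalSpace X] [TopologicalSpace T] [TopologicalSpace Z]
    [Group Γ] [MulAction Γ X] where
  a : X → T
  γ : T → Z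
  D : X → M
  cb : Continuous fun x => γ (a x)
  csm : ∀ g : Γ, Continuous fun x : X => g • x
  inv : ∀ (g : Γ) x, a (g • x) = a x
  tr : ∀ x x', a x = a x' → ∃ g : Γ, x' = g • x
  opn : ∀ x, ∀ N ∈ 𝓝 x, a '' N ∈ 𝓝 (a x)
  fib : ∀ x x', γ (a x) = γ (a x') → ∃ K, IsPreconnected K ∧ a x ∈ K ∧ a x' ∈ K ∧
    ∀ t ∈ K, γ t = γ (a x) ∧ ∃ y, a y = t
  eqv : ∀ (g : Γ) x x', D x = D x' → D (g • x) = D (g • x')
  loc : ∀ x, ∀ᶠ q in 𝓝 (x, x), γ (a q.1) = γ (a q.2) → D q.1 = D q.2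
  sec : ∀ x, ∃ (O : Set Z) (τ : Z → X), IsOpen O ∧ γ (a x) ∈ O ∧ τ (γ (a x)) = x ∧
    ContinuousOn τ O ∧ (∀ z ∈ O, γ (a (τ z)) = z) ∧ ∀ g g' : Γ, ∀ z ∈ O,
      (∀ᶠ z' in 𝓝 z, D (g • τ z') = D (g' • τ z')) → ∀ z' ∈ O, D (g • τ z') = D (g' • τ z')

namespace GEt

variable {X T Z M Γ : Type} [TopologicalSpace X] [TopologicalSpace T] [TopologicalSpace Z]
  [Group Γ] [MulAction Γ X] (E : GEt X T Z M Γ)

abbrev b (x : X) : Z := E.γ (E.a x)

/-- the same germ -/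
def R (x x' : X) : Prop :=
  E.b x = E.b x' ∧ ∀ᶠ q in 𝓝 (x, x'), E.b q.1 = E.b q.2 → E.D q.1 = E.D q.2

/-- a local section through `x` -/
def S (τ : Z → X) (x : X) : Prop :=
  τ (E.b x) = x ∧ ContinuousAt τ (E.b x) ∧ ∀ᶠ z in 𝓝 (E.b x), E.b (τ z) = z

theorem b_smul (g : Γ) (x : X) : E.b (g • x) = E.b x := congrArg E.γ (E.inv g x)

theorem rfl' (x : X) : E.R x x := ⟨rfl, E.loc x⟩

theorem exS (x : X) : ∃ τ, E.S τ x :=
  let ⟨_, τ, h1, h2, h3, h4, h5, _⟩ := E.sec x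
  ⟨τ, h3, h4.continuousAt (h1.mem_nhds h2), mem_of_superset (h1.mem_nhds h2) h5⟩

variable {E} {x x' x'' : X} {τ : Z → X}

theorem R.near (h : E.R x x') : ∀ᶠ q in 𝓝 (x, x'), E.b q.1 = E.b q.2 → E.R q.1 q.2 :=
  h.2.eventually_nhds.mono fun _ k e => ⟨e, k⟩

theorem R.eq (h : E.R x x') : E.D x = E.D x' := h.2.self_of_nhds h.1

theorem R.symm (h : E.R x x') : E.R x' x :=
  ⟨h.1.symm, ((continuous_swap.tendsto (x', x)).eventually h.2).mono fun _ k e => (k e.symm).symm⟩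

theorem S.tend (s : E.S τ x') (h : E.b x = E.b x') :
    Tendsto (fun y => τ (E.b y)) (𝓝 x) (𝓝 x') := by
  have k : Tendsto τ (𝓝 (E.b x)) (𝓝 x') := by simpa only [ContinuousAt, s.1, h] using s.2.1
  exact k.comp (E.cb.tendsto x)

theorem R.sec (h : E.R x x') (s : E.S τ x') : ∀ᶠ y in 𝓝 x, E.R y (τ (E.b y)) := by
  filter_upwards [(tendsto_id.prodMk_nhds (s.tend h.1)).eventually h.near,
    (E.cb.tendsto x).eventually (p := fun z => E.b (τ z) = z) (h.1 ▸ s.2.2 :)] with y k1 k2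
  exact k1 k2.symm

theorem R.trans (h : E.R x x') (h' : E.R x' x'') : E.R x x'' := by
  obtain ⟨τ, s⟩ := E.exS x'
  refine ⟨h.1.trans h'.1, ?_⟩
  filter_upwards [(continuous_fst.tendsto (x, x'')).eventually (h.sec s),
    (continuous_snd.tendsto (x, x'')).eventually (h'.symm.sec s)] with q k1 k2 e
  rw [k1.eq, k2.eq, e]

theorem R.smul (h : E.R x x') (g : Γ) : E.R (g • x) (g • x') := by
  refine ⟨by rw [b_smul, b_smul, h.1], ?_⟩
  have k := ((E.csm g⁻¹).prodMap (E.csm g⁻¹)).tendsto (g • x, g • x')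
  simp only [Prod.map, inv_smul_smul] at k
  filter_upwards [k.eventually h.2] with q k1 e
  simpa using E.eqv g _ _ (k1 (by simpa only [Prod.map, b_smul] using e))

theorem R.orb (h : E.b x = E.b x') : ∃ g : Γ, E.R x' (g • x) := by
  obtain ⟨K, h1, h2, h3, h4⟩ := E.fib x x' h
  obtain ⟨y, y', k1, k2, k3⟩ := h1.induction₂ (fun t t' => ∃ y y', E.a y = t ∧ E.a y' = t' ∧ E.R y y')
    (fun t ht => by
      obtain ⟨y, rfl⟩ := (h4 t ht).2
      filter_upwards [mem_nhdsWithin_of_mem_nhds (E.opn y _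
        ((tendsto_const_nhds.prodMk_nhds tendsto_id).eventually (E.rfl' y).near)),
        self_mem_nhdsWithin]
      rintro _ ⟨y', l1, rfl⟩ l2
      exact ⟨y, y', rfl, rfl, l1 ((h4 _ ht).1.trans (h4 _ l2).1.symm)⟩)
    (by
      rintro _ _ _ - - - ⟨y, y', rfl, rfl, l1⟩ ⟨u, u', l2, rfl, l3⟩
      obtain ⟨g, rfl⟩ := E.tr _ _ l2.symm
      exact ⟨g • y, u', E.inv g y, rfl, (l1.smul g).trans l3⟩)
    (fun _ _ _ _ ⟨y, y', l1, l2, l3⟩ => ⟨y', y, l2, l1, l3.symm⟩) h2 h3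
  obtain ⟨g, rfl⟩ := E.tr _ _ k1.symm
  obtain ⟨g', rfl⟩ := E.tr _ _ k2
  exact ⟨g' * g, by rw [mul_smul]; exact k3.symm.smul g'⟩

variable (E)

def st : Setoid X := ⟨E.R, E.rfl', R.symm, R.trans⟩

/-- the space of germs -/
def Q : Type := Quotient E.st

instance : TopologicalSpace E.Q := inferInstanceAs (TopologicalSpace (Quotient E.st))

def gm (x : X) : E.Q := Quotient.mk E.st x

def pr : E.Q → Z := Quotient.lift E.b fun _ _ h => h.1

def val : E.Q → M := Quotient.lift E.D fun _ _ h => R.eq h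

instance : MulAction Γ E.Q where
  smul g := Quotient.map (g • ·) fun _ _ h => R.smul h g
  one_smul q := Quotient.inductionOn q fun x => congrArg E.gm (one_smul Γ x)
  mul_smul g g' q := Quotient.inductionOn q fun x => congrArg E.gm (mul_smul g g' x)

theorem gm_surj : Surjective E.gm := Quotient.mk_surjective

theorem gm_cont : Continuous E.gm := continuous_quotient_mk' (s := E.st)

theorem gm_eq : E.gm x = E.gm x' ↔ E.R x x' := Quotient.eq

theorem gm_quot : Topology.IsQuotientMap E.gm := isQuotientMap_quotient_mk' (s := E.st)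

theorem pr_cont : Continuous E.pr := E.gm_quot.continuous_iff.2 E.cb

theorem gm_open : IsOpenMap E.gm := fun N hN => E.gm_quot.isOpen_preimage.1 <|
  isOpen_iff_mem_nhds.2 fun x ⟨x', h1, h2⟩ => by
    obtain ⟨τ, s⟩ := E.exS x'
    have h := (E.gm_eq.1 h2).symm
    filter_upwards [h.sec s, (s.tend h.1).eventually (hN.mem_nhds h1)] with y k1 k2
    exact ⟨_, k2, E.gm_eq.2 k1.symm⟩

variable {E} in
theorem S.ev (s : E.S τ x) : ∀ᶠ q in 𝓝 (E.gm x), q = E.gm (τ (E.pr q)) := by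
  filter_upwards [E.gm_open.image_mem_nhds ((E.rfl' x).sec s)]
  rintro _ ⟨y, h, rfl⟩
  exact E.gm_eq.2 h

theorem even (x : X) : IsEvenlyCovered E.pr (E.b x) (E.pr ⁻¹' {E.b x}) := by
  obtain ⟨O, τ, h1, h2, -, h4, h5, h6⟩ := E.sec x
  have hb : ∀ (g : Γ), ∀ z ∈ O, E.b (g • τ z) = z := fun g z hz => (E.b_smul g _).trans (h5 z hz)
  have hc : ∀ (g : Γ), ∀ z ∈ O, ContinuousAt (fun z => g • τ z) z := fun g z hz =>
    (E.csm g).continuousAt.comp (h4.continuousAt (h1.mem_nhds hz))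
  have hs : ∀ (g : Γ), ∀ z ∈ O, E.S (fun z => g • τ z) (g • τ z) := fun g z hz => by
    unfold S
    rw [hb g z hz]
    exact ⟨rfl, hc g z hz, mem_of_superset (h1.mem_nhds hz) (hb g)⟩
  let U : Γ → Set E.Q := fun g => {q | E.pr q ∈ O ∧ q = E.gm (g • τ (E.pr q))}
  have hm : ∀ (g : Γ), ∀ z ∈ O, E.gm (g • τ z) ∈ U g := fun g z hz => by
    change E.b _ ∈ O ∧ _ = E.gm (g • τ (E.b _))
    rw [hb g z hz]
    exact ⟨hz, rfl⟩
  have ho : ∀ g, IsOpen (U g) := fun g => isOpen_iff_mem_nhds.2 fun q hq => by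
    filter_upwards [E.pr_cont.continuousAt.eventually_mem (h1.mem_nhds hq.1),
      (hq.2.symm ▸ (hs g _ hq.1).ev :)] with q' k1 k2 using ⟨k1, k2⟩
  have hd : ∀ g g' q, q ∈ U g → q ∈ U g' → U g ⊆ U g' := fun g g' q k k' q' l => by
    have e := E.gm_eq.1 (k.2.symm.trans k'.2)
    have e1 := h6 g g' _ k.1 (by
      filter_upwards [((hc g _ k.1).prodMk (hc g' _ k.1)).eventually e.2, h1.mem_nhds k.1]
        with z m1 m2 using m1 ((hb g z m2).trans (hb g' z m2).symm))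
    refine ⟨l.1, l.2.trans (E.gm_eq.2 ⟨(hb g _ l.1).trans (hb g' _ l.1).symm, ?_⟩)⟩
    filter_upwards [(continuous_fst.tendsto (_, _)).eventually ((E.rfl' _).sec (hs g _ l.1)),
      (continuous_snd.tendsto (_, _)).eventually ((E.rfl' _).sec (hs g' _ l.1)),
      (E.cb.comp continuous_snd).continuousAt.eventually_mem
        (h1.mem_nhds ((hb g' _ l.1).symm ▸ l.1 :))] with y m1 m2 m3 m4
    rw [m1.eq, m2.eq, m4]
    exact e1 _ m3
  let _ : TopologicalSpace (range U) := ⊥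
  have : DiscreteTopology (range U) := ⟨rfl⟩
  have : Nonempty (Z → E.Q) := ⟨fun _ => E.gm x⟩
  refine (IsEvenlyCovered.of_trivialization (t := h1.trivializationDiscrete
    (fun i : range U => i.1) O ?_ ?_ ?_ ?_ ?_) h2).to_isEvenlyCovered_preimage
  · rintro ⟨_, g, rfl⟩ W hW
    refine ⟨fun k => (k.preimage E.pr_cont).inter (ho g), fun k => isOpen_iff_mem_nhds.2
      fun z hz => ?_⟩
    filter_upwards [(E.gm_cont.continuousAt.comp (hc g z (hW hz))).eventually_mem (k.mem_nhds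
      ⟨mem_of_eq_of_mem (s := W) (hb g z (hW hz)) hz, hm g z (hW hz)⟩), h1.mem_nhds (hW hz)] with z' l1 l2
    exact mem_of_eq_of_mem (hb g z' l2).symm l1.1
  · rintro ⟨_, g, rfl⟩ q k q' k' e
    rw [k.2, k'.2, e]
  · rintro ⟨_, g, rfl⟩ z hz
    exact ⟨_, hm g z hz, hb g z hz⟩
  · rintro ⟨_, g, rfl⟩ ⟨_, g', rfl⟩ k
    exact disjoint_left.2 fun q l l' =>
      k (Subtype.ext ((hd g g' q l l').antisymm (hd g' g q l' l)))
  · intro q hq
    obtain ⟨y, rfl⟩ := E.gm_surj q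
    obtain ⟨g, k⟩ := R.orb (h5 _ hq)
    exact mem_iUnion.2 ⟨⟨_, g, rfl⟩, hq, E.gm_eq.2 k⟩

/-- the covering -/
def cv [ConnectedSpace X] {U : Set Z} (hU : range E.b = U) : Cv Z U where
  X := E.Q
  conn := E.gm_surj.connectedSpace E.gm_cont
  π := E.pr
  cov z hz := by
    obtain ⟨x, rfl⟩ := hU.ge hz
    exact E.even x
  mem q := Quotient.inductionOn q fun x => hU.le ⟨x, rfl⟩
  surj z hz := let ⟨x, h⟩ := hU.ge hz; ⟨E.gm x, h⟩
  Γ := Γ
  csm g := E.gm_quot.continuous_iff.2 (E.gm_cont.comp (E.csm g))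
  inv g q := Quotient.inductionOn q fun x => E.b_smul g x
  tr q q' := Quotient.inductionOn₂ q q' fun _ _ h => let ⟨g, k⟩ := R.orb h; ⟨g, E.gm_eq.2 k⟩

end GEt

end Vale.Agent.P281Z.Lf
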