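import Vale.Agent.P281Z.Lf.Sk
import Vale.Agent.P281Z.Lf.GermA
import Vale.Agent.P281Z.Mf.Mod
import Vale.Agent.P281Z.Hm.Br
import Vale.Agent.P281Z.Hm.Pull
import Vale.Agent.P281Z.Hm.Snc

/-!
# P281Z, the space of germs along a fibration: lifts
-/

open scoped Manifold ContDiff Topology Matrix.Norms.Operator
open Set Filter Matrix
open Vale.Agent.P272.K Vale.Agent.P285.H281.FD
open Vale.Agent.P277Z (at_chart)
open Vale.Agent.P277Z.Slc (Ind)
open Vale.Agent.P281Z.Hm (Cv GV Mx Gr LnAt LVAt)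

set_option linter.unusedSectionVars false

noncomputable section

namespace Vale.Agent.P281Z.Lf

variable {E : Type} [NormedAddCommGroup E] [NormedSpace ℝ E] [NormedSpace ℂ E]
  [IsScalarTower ℝ ℂ E] {n : Type} [Fintype n] [DecidableEq n]

theorem ln_congr2 {w : ℕ} {π π' : E → Gr n} {ψ ψ' : E → n → ℂ} {z : E} (h : LnAt w π ψ z)
    (e : π =ᶠ[𝓝 z] π') (e' : ψ =ᶠ[𝓝 z] ψ') : LnAt w π' ψ' z where
  an := h.an.congr e'
  ne := e'.self_of_nhds ▸ h.ne
  top := by filter_upwards [h.top, e, e'] with x a b c using b ▸ c ▸ a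
  one := by
    filter_upwards [h.one, e, e'.eventually_nhds] with x a b c v
    rw [← b, ← c.self_of_nhds, ← EventuallyEq.fderiv_eq c]
    exact a v

variable {p q : ℕ} {Y T : Type} [TopologicalSpace Y] [ChartedSpace (Cm p) Y]
  [IsManifold 𝓘(ℂ, Cm p) ω Y] [TopologicalSpace T] [ChartedSpace (Cm q) T]
  [IsManifold 𝓘(ℂ, Cm q) ω T] {U : Set Y} {C : Cv Y U}

variable (q) in
/-- a holomorphic map to `T` -/
def HE (β : E → T) (z : E) : Prop :=
  (∀ᶠ x in 𝓝 z, ContinuousAt β x) ∧ AnalyticAt ℂ (fun x => chartAt (Cm q) (β z) (β x)) z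

theorem he_lift {f : E → C.X} {z : E} (h : C.Lift p f z) : HE p (fun x => C.π (f x)) z :=
  ⟨h.1.mono fun _ k => (Hm.Br.loc C).continuous.continuousAt.comp k, h.2⟩

theorem he_co {E' : Type} [NormedAddCommGroup E'] [NormedSpace ℂ E']
    {Θ : OpenPartialHomeomorph T E'} (h : Co q Θ) {k : E → E'} {z : E} (hc : Continuous k)
    (hk : AnalyticAt ℂ k z) (hz : k z ∈ Θ.target) : HE q (fun x => Θ.symm (k x)) z :=
  ⟨(hc.continuousAt.eventually_mem (Θ.open_target.mem_nhds hz)).mono fun _ a =>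
    (Θ.continuousAt_symm a).comp hc.continuousAt, (h.inv _ hz _ (at_chart _)).fun_comp hk⟩

theorem HE.lift {β : E → T} {z : E} (h : HE q β z) {τ : T → C.X}
    (h1 : ∀ᶠ t in 𝓝 (β z), ContinuousAt τ t) (h2 : HolA q p (fun t => C.π (τ t)) (β z)) :
    C.Lift p (fun x => τ (β x)) z := by
  refine ⟨(h.1.and (h.1.self_of_nhds.eventually h1)).mono fun _ k => k.2.comp k.1, ?_⟩
  refine ((h2.an (at_chart _) (at_chart _)).fun_comp
    (f := fun x => chartAt (Cm q) (β z) (β x)) h.2).congr ?_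
  filter_upwards [h.1.self_of_nhds.eventually (at_near (at_chart (n := q) (β z)))] with x hx
  rw [hx.left_inv]

variable {V : GV p C n} {Ψ : C.X → n → ℂ} {r : ℕ} {u : Fin r → Y → ℂ} {B : Set Y}
  {f : E → C.X} {z : E}

theorem lift_rep (h : C.Lift p f z) : ∃ σ, C.Br (C.π (f z)) σ (chartAt (Cm p) (C.π (f z)) (C.π (f z))) ∧
    ∀ᶠ s in 𝓝 z, σ (chartAt (Cm p) (C.π (f z)) (C.π (f s))) = f s :=
  let ⟨σ, h1, _, h3⟩ := Hm.Br.sec C _ (f z) (mem_chart_source (Cm p) _)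
  ⟨σ, h1, h.1.self_of_nhds.eventually h3⟩

theorem Fl.lnL (H : Fl V Ψ u B) (h : C.Lift p f z) (hz : C.π (f z) ∉ B) :
    LnAt V.w (fun x => V.gr (f x)) (fun x => Ψ (f x)) z := by
  obtain ⟨σ, h1, h2⟩ := lift_rep h
  have he := at_chart (n := p) (C.π (f z))
  exact ln_congr2 ((H.ln _ he.1 σ _ h1 (he.left_inv.symm ▸ hz)).pull
    (g := fun s => chartAt (Cm p) (C.π (f z)) (C.π (f s))) h.2)
    (h2.mono fun _ => congrArg V.gr) (h2.mono fun _ => congrArg Ψ)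

/-- the grading and the frame -/
def dv2 (V : GV p C n) (Ψ : C.X → n → ℂ) (x : C.X) (k : ℕ) : Mx n × (n → ℂ) := (V.gr x k, Ψ x)

theorem Fl.anL (H : Fl V Ψ u B) (h : C.Lift p f z) (hz : C.π (f z) ∉ B) (k : ℕ) :
    AnalyticAt ℝ (fun x => dv2 V Ψ (f x) k) z :=
  ((V.lv E f z h).an k).prod (H.lnL h hz).an.restrictScalars

theorem Fl.flatL (H : Fl V Ψ u B) (hU : IsOpen U) (h : C.Lift p f z) (hz : C.π (f z) ∉ B)
    (hi : Ind p u (C.π (f z))) (hu : ∀ j, ∀ᶠ s in 𝓝 z, u j (C.π (f s)) = u j (C.π (f z))) (k : ℕ) :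
    fderiv ℝ (fun x => dv2 V Ψ (f x) k) z = 0 := by
  obtain ⟨σ, h1, h2⟩ := lift_rep h
  have he := at_chart (n := p) (C.π (f z))
  have hk := h.2.differentiableAt
  have h3 := (Hm.stBr p Y U C hU).2.2.1 _ σ _ h1
  set c := chartAt (Cm p) (C.π (f z))
  have h4 := V.lv _ σ _ h3
  have h5 := (H.ln _ he.1 σ _ h1 (he.left_inv.symm ▸ hz)).an.differentiableAt
  have h6 : (fun x => dv2 V Ψ (f x) k) =ᶠ[𝓝 z] fun x => dv2 V Ψ (σ (c (C.π (f x)))) k :=
    h2.mono fun _ a => congrArg (dv2 V Ψ · k) a.symm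
  have h7 := (h4.an k).differentiableAt
  refine ContinuousLinearMap.ext fun v => ?_
  obtain ⟨k1, k2⟩ := H.flat _ he.1 σ _ h1 (he.left_inv.symm ▸ hz) (he.left_inv.symm ▸ hi)
    (fderiv ℂ (fun s => c (C.π (f s))) z v) fun j => by
      have e : (fun s => u j (c.symm (c (C.π (f s))))) =ᶠ[𝓝 z] fun _ => u j (C.π (f z)) := by
        filter_upwards [hu j, (he_lift h).1.self_of_nhds.eventually (at_near he)] with s a b
        rw [b.left_inv, a]
      have e' := fderiv_fun_comp (g := fun x => u j (c.symm x)) z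
        (hi.1 j c he).differentiableAt hk
      rw [← ContinuousLinearMap.comp_apply, ← e', e.fderiv_eq, fderiv_fun_const]
      rfl
  rw [← Hm.fderiv_hol h5, ← Hm.fderiv_hol hk] at k2
  refine (DFunLike.congr_fun (h6.fderiv_eq.trans ((h7.hasFDerivAt.prodMk (h5.restrictScalars
    ℝ).hasFDerivAt).comp z (hk.restrictScalars ℝ).hasFDerivAt).fderiv) v).trans (Prod.ext ?_ k2)
  refine (Hm.fderiv_eq_wd (fun x => V.gr (σ x) k) _
    (fderiv ℝ (fun x => c (C.π (f x))) z v)).trans ?_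
  rw [Hm.fderiv_hol hk, h4.dπ, h4.bπ, h4.ts_eq, show Hm.th _ _ _ _ = 0 from k1]
  simp [Hm.ad]

/-- the part of the covering over the complement of `B` -/
abbrev X0 (C : Cv Y U) (B : Set Y) : Type := {x : C.X // C.π x ∉ B}

instance : MulAction C.Γ (X0 C B) where
  smul g x := ⟨g • x.1, (C.inv g x.1).symm ▸ x.2⟩
  one_smul x := Subtype.ext (one_smul C.Γ x.1)
  mul_smul g g' x := Subtype.ext (mul_smul g g' x.1)

theorem conn0 (hB : Thin p B) : ConnectedSpace (X0 C B) := by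
  have hd : Dense (C.π ⁻¹' B)ᶜ := hB.dense.preimage (Hm.Br.loc C).isOpenMap
  refine (isConnected_iff_connectedSpace (s := (C.π ⁻¹' B)ᶜ)).1
    ⟨hd.nonempty, P284.H10.preconn_compl hd fun x => ?_⟩
  obtain ⟨e, h1, h2⟩ := Hm.Br.loc C x
  obtain ⟨O, k1, k2, k3, k4⟩ := hB.loc_conn (e x) (e.open_target.mem_nhds (e.map_source h1))
  refine ⟨e.source ∩ e ⁻¹' O, e.isOpen_inter_preimage k1, ⟨h1, k2⟩, ?_⟩
  rw [show (e.source ∩ e ⁻¹' O) \ C.π ⁻¹' B = e.symm '' (O \ B) from Subset.antisymm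
    (fun y hy => ⟨e y, ⟨hy.1.2, h2 ▸ hy.2⟩, e.left_inv hy.1.1⟩) ?_]
  · exact k4.image _ (e.continuousOn_symm.mono fun y hy => k3 hy.1)
  · rintro _ ⟨y, hy, rfl⟩
    refine ⟨⟨e.map_target (k3 hy.1), ?_⟩, ?_⟩
    · rw [mem_preimage, e.right_inv (k3 hy.1)]
      exact hy.1
    · rw [mem_preimage, h2, e.right_inv (k3 hy.1)]
      exact hy.2

/-- local lifts of a continuous map -/
theorem lsec (hB : IsClosed B) {μ : T → Y} (hμ : Continuous μ) (x : X0 C B) :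
    ∃ s : T → X0 C B, (∀ t, μ t = C.π x → ∀ᶠ t' in 𝓝 t, ContinuousAt s t' ∧ C.π (s t') = μ t') ∧
      ∀ᶠ x' in 𝓝 x, ∀ t, μ t = C.π x'.1 → s t = x' := by
  classical
  obtain ⟨e, h1, h2⟩ := Hm.Br.loc C x.1
  let s : T → X0 C B := fun t => if h : C.π (e.symm (μ t)) ∉ B then ⟨_, h⟩ else x
  have h3 : ∀ t, μ t ∈ e.target ∩ Bᶜ → (s t).1 = e.symm (μ t) := fun t a =>
    congrArg Subtype.val (dif_pos (by rw [h2, e.right_inv a.1]; exact a.2))
  have h4 := (e.open_target.inter hB.isOpen_compl).preimage hμ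
  have h5 : ∀ y ∈ e.source, C.π y ∈ e.target := fun y a => by rw [h2]; exact e.map_source a
  refine ⟨s, fun t ht => ?_, ?_⟩
  · filter_upwards [h4.mem_nhds (show μ t ∈ e.target ∩ Bᶜ from
      ht ▸ ⟨h5 _ h1, x.2⟩)] with t' a
    refine ⟨Topology.IsInducing.subtypeVal.continuousAt_iff.2 (((e.continuousAt_symm a.1).comp
      hμ.continuousAt).congr (mem_of_superset (h4.mem_nhds a) fun t b => (h3 t b).symm)), ?_⟩
    rw [h3 t' a, h2, e.right_inv a.1]
  · filter_upwards [continuous_subtype_val.continuousAt.eventually_mem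
      (e.open_source.mem_nhds h1)] with x' a t ht
    refine Subtype.ext ?_
    rw [h3 t (ht ▸ ⟨h5 _ a, x'.2⟩), ht, congrFun h2, e.left_inv a]

end Vale.Agent.P281Z.Lf
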