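import Vale.Agent.P281Z.Hm.Grif
import Vale.Agent.P281Z.Hm.Cpt
import Vale.Agent.P272.Sz.Det

/-!
# P281Z, the determinant of the Hodge filtration: frames of the image of a projector
-/

open scoped Matrix.Norms.Operator Topology ComplexOrder
open Filter Set Matrix
open Vale.Agent.P281Z.Hm

set_option linter.unusedSectionVars false

noncomputable section

namespace Vale.Agent.P281Z.Lf.LamH

variable {n k : Type} [Fintype n] [DecidableEq n] [Fintype k] [DecidableEq k] {F F' Q A : Mx n}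
  {B B' : Matrix n k ℂ} {R : Matrix k n ℂ}

/-- `B` is a basis of the image of the projector `F` -/
def IsFr (F : Mx n) (B : Matrix n k ℂ) : Prop := ∃ L : Matrix k n ℂ, L * B = 1 ∧ F = B * L

theorem IsFr.fix (h : IsFr F B) : F * B = B := by
  obtain ⟨L, h1, rfl⟩ := h
  rw [Matrix.mul_assoc, h1, Matrix.mul_one]

theorem IsFr.idem (h : IsFr F B) : F * F = F := by
  obtain ⟨L, h1, h2⟩ := id h
  nth_rw 2 [h2]
  rw [← Matrix.mul_assoc, h.fix, ← h2]

theorem IsFr.fac (h : IsFr F B) {l : Type} {X : Matrix n l ℂ} (hX : F * X = X) :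
    ∃ M : Matrix k l ℂ, X = B * M := by
  obtain ⟨L, -, rfl⟩ := h
  exact ⟨L * X, by rw [← Matrix.mul_assoc, hX]⟩

theorem IsFr.canc (h : IsFr F B) {M M' : Mx k} (e : B * M = B * M') : M = M' := by
  obtain ⟨L, h1, -⟩ := h
  have := congrArg (L * ·) e
  simpa only [← Matrix.mul_assoc, h1, Matrix.one_mul] using this

theorem IsFr.inj (h : IsFr F B) : Function.Injective B.mulVec := by
  obtain ⟨L, h1, -⟩ := h
  intro s t e
  have := congrArg (L *ᵥ ·) e
  simpa only [mulVec_mulVec, h1, one_mulVec] using this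

theorem IsFr.conj (h : IsFr F B) {T T' : Mx n} (h1 : T' * T = 1) (h2 : F' * T = T * F) :
    IsFr F' (T * B) := by
  obtain ⟨L, a1, rfl⟩ := h
  refine ⟨L * T', by rw [Matrix.mul_assoc, ← Matrix.mul_assoc T', h1, Matrix.one_mul, a1], ?_⟩
  rw [← Matrix.mul_assoc, Matrix.mul_assoc T, ← h2, Matrix.mul_assoc, mul_eq_one_comm.1 h1,
    Matrix.mul_one]

theorem exists_fr (h : F * F = F) : ∃ (d : ℕ) (B : Matrix n (Fin d) ℂ), IsFr F B := by
  set f := toLin' F
  set b := Module.finBasis ℂ (LinearMap.range f)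
  refine ⟨_, LinearMap.toMatrix' ((LinearMap.range f).subtype ∘ₗ b.equivFun.symm.toLinearMap),
    LinearMap.toMatrix' (b.equivFun.toLinearMap ∘ₗ f.rangeRestrict), ?_, ?_⟩
  · rw [← LinearMap.toMatrix'_comp, ← LinearMap.toMatrix'_id]
    refine congrArg _ (LinearMap.ext fun t => ?_)
    obtain ⟨s, hs⟩ := (b.equivFun.symm t).2
    refine (congrArg b.equivFun (Subtype.ext ?_)).trans (b.equivFun.apply_symm_apply t)
    change f (b.equivFun.symm t) = _
    rw [← hs, toLin'_apply, toLin'_apply, mulVec_mulVec, h]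
  · rw [← LinearMap.toMatrix'_comp, ← LinearMap.toMatrix'_toLin' F]
    refine congrArg _ (LinearMap.ext fun t => ?_)
    simp [f]

/-- the coordinate -/
def mm (R : Matrix k n ℂ) (A : Mx n) (B : Matrix n k ℂ) : ℂ := (R * A * B).det

/-- the norm -/
def gg (Q : Mx n) (B : Matrix n k ℂ) : ℝ := ‖(Bᴴ * Q * B).det‖

theorem mm_mul (M : Mx k) : mm R A (B * M) = mm R A B * M.det := by
  rw [mm, mm, ← Matrix.mul_assoc, det_mul]

theorem mm_left (T : Mx n) : mm R A (T * B) = mm R (A * T) B := by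
  simp only [mm, Matrix.mul_assoc]

theorem gg_mul (M : Mx k) : gg Q (B * M) = ‖M.det‖ ^ 2 * gg Q B := by
  rw [gg, gg, conjTranspose_mul, show Mᴴ * Bᴴ * Q * (B * M) = Mᴴ * (Bᴴ * Q * B) * M by
    simp only [Matrix.mul_assoc], det_mul, det_mul, det_conjTranspose, norm_mul, norm_mul, norm_star]
  ring

theorem gg_left {T : Mx n} (h : Tᴴ * Q * T = Q) : gg Q (T * B) = gg Q B := by
  rw [gg, gg, conjTranspose_mul, show Bᴴ * Tᴴ * Q * (T * B) = Bᴴ * (Tᴴ * Q * T) * B by
    simp only [Matrix.mul_assoc], h]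

theorem IsFr.pow (h : IsFr F B) {T : Mx n} (hT : T * F = F * T) {o : ℕ} (ho : T ^ o = 1) :
    ∃ N : Mx k, T * B = B * N ∧ N.det ^ o = 1 := by
  obtain ⟨N, hN⟩ := h.fac (X := T * B) (by rw [← Matrix.mul_assoc, ← hT, Matrix.mul_assoc, h.fix])
  have h1 : ∀ j : ℕ, T ^ j * B = B * N ^ j := fun j => by
    induction j with
    | zero => simp
    | succ j ih => rw [pow_succ, Matrix.mul_assoc, hN, ← Matrix.mul_assoc, ih, Matrix.mul_assoc,
        ← pow_succ]
  refine ⟨N, hN, ?_⟩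
  rw [← det_pow, h.canc (M := N ^ o) (M' := 1) (by rw [← h1, ho, Matrix.one_mul, Matrix.mul_one]),
    det_one]

theorem IsFr.fin (h : IsFr F B) {T : Mx n} (hT : T * F = F * T) {o : ℕ} (ho : T ^ o = 1) :
    mm R (A * T) B ^ o = mm R A B ^ o := by
  obtain ⟨N, h1, h2⟩ := h.pow hT ho
  rw [← mm_left, h1, mm_mul, mul_pow, h2, mul_one]

theorem IsFr.ex (h : IsFr F B) {R' : Matrix n k ℂ} (hR : R * R' = 1) : ∃ A, mm R A B = 1 := by
  obtain ⟨L, h1, -⟩ := h
  exact ⟨R' * L, by rw [mm, ← Matrix.mul_assoc, hR, Matrix.one_mul, h1, det_one]⟩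

open MvPolynomial in
theorem poly (R : Matrix k n ℂ) (B : Matrix n k ℂ) : ∃ P : MvPolynomial (n × n) ℂ,
    P.totalDegree ≤ Fintype.card k ∧ ∀ A, mm R A B = eval (fun ab => A ab.1 ab.2) P := by
  refine ⟨(of fun i j => ∑ b, ∑ a, C (R i a * B b j) * X (a, b) : Matrix k k _).det, ?_, fun A => ?_⟩
  · rw [det_apply]
    refine totalDegree_finsetSum_le fun σ _ => (totalDegree_smul_le _ _).trans
      ((totalDegree_finsetProd _ _).trans ?_)
    refine (Finset.sum_le_card_nsmul _ _ 1 fun i _ => ?_).trans (by simp)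
    refine totalDegree_finsetSum_le fun b _ => totalDegree_finsetSum_le fun a _ =>
      (totalDegree_mul _ _).trans (by rw [totalDegree_C, totalDegree_X])
  · rw [RingHom.map_det, mm]
    refine congrArg det (Matrix.ext fun i j => ?_)
    simp only [mul_apply, RingHom.mapMatrix_apply, map_apply, of_apply, map_sum, map_mul, eval_C,
      eval_X, Finset.sum_mul]
    exact Finset.sum_congr rfl fun b _ => Finset.sum_congr rfl fun a _ => by ring

theorem IsFr.bd {w q : ℕ} {π : Gr n} (hs : Hs Q w π) (h : IsFr (gF w π q) B) {b : ℝ} (hb : 0 ≤ b)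
    (H : ∀ s, ‖s‖ ^ 2 ≤ b * hn (gH Q w π) s) :
    ‖mm R A B‖ ^ 2 ≤ (Fintype.card n * ‖(R * A)ᴴ * (R * A)‖ * b) ^ Fintype.card k * gg Q B := by
  set c : ℝ := Fintype.card n * ‖(R * A)ᴴ * (R * A)‖ with hc
  have c0 : 0 ≤ c := by positivity
  by_cases h0 : mm R A B = 0
  · rw [h0, norm_zero, zero_pow two_ne_zero]
    exact mul_nonneg (by positivity) (norm_nonneg _)
  have hC : gC w π * gF w π q = gF w π q * gC w π := hs.ext_right fun j _ => by
    rw [Matrix.mul_assoc, Matrix.mul_assoc, hs.F_mul, hs.C_mul, Matrix.mul_smul, hs.F_mul]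
    split_ifs
    · exact hs.C_mul j
    · simp
  obtain ⟨N, h1, h2⟩ := h.pow hC (o := 2) (by rw [sq, hs.C_C])
  have h3 : ‖(Bᴴ * gH Q w π * B).det‖ = gg Q B := by
    have : ‖N.det‖ = 1 := (pow_eq_one_iff_of_nonneg (norm_nonneg _) two_ne_zero).1
      (by rw [← norm_pow, h2, norm_one])
    rw [gH, ← Matrix.mul_assoc, Matrix.mul_assoc _ _ B, h1, ← Matrix.mul_assoc, det_mul, norm_mul,
      this, mul_one, gg]
  have hH : (Bᴴ * gH Q w π * B).IsHermitian := isHermitian_conjTranspose_mul_mul _ hs.pos.1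
  have h4 := P272.Sz.det_le_det (A := (R * A * B)ᴴ * (R * A * B))
    (B := ((c * b : ℝ) : ℂ) • (Bᴴ * gH Q w π * B))
    (PosDef.conjTranspose_mul_self _ (mulVec_injective_iff_isUnit.2
      ((isUnit_iff_isUnit_det _).2 (Ne.isUnit h0)))) (by
      have h5 : (((c * b : ℝ) : ℂ) • (Bᴴ * gH Q w π * B) -
          (R * A * B)ᴴ * (R * A * B)).IsHermitian := by
        refine IsHermitian.sub ?_ (isHermitian_conjTranspose_mul_self _)
        rw [IsHermitian, conjTranspose_smul, hH.eq, Complex.star_def, Complex.conj_ofReal]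
      refine PosSemidef.of_dotProduct_mulVec_nonneg h5 fun t => Complex.nonneg_iff.2
        ⟨?_, (h5.im_star_dotProduct_mulVec_self t).symm⟩
      have e1 := hn_conj (gH Q w π) B t
      have e2 := hn_conj ((R * A)ᴴ * (R * A)) B t
      have e3 := (Cp.hn_le ((R * A)ᴴ * (R * A)) (B *ᵥ t)).trans
        (mul_le_mul_of_nonneg_left (H (B *ᵥ t)) c0)
      rw [← e1, ← e2, show Bᴴ * ((R * A)ᴴ * (R * A)) * B = (R * A * B)ᴴ * (R * A * B) by
        simp only [conjTranspose_mul, Matrix.mul_assoc]] at e3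
      rw [sub_mulVec, dotProduct_sub, smul_mulVec, dotProduct_smul, smul_eq_mul, Complex.sub_re,
        Complex.re_ofReal_mul]
      unfold hn at e3
      linarith)
  have h5 := (Complex.le_def.1 h4).1
  rw [det_mul, det_conjTranspose, det_smul, ← Complex.ofReal_pow, Complex.re_ofReal_mul,
    Complex.star_def, Complex.conj_mul', ← Complex.ofReal_pow, Complex.ofReal_re] at h5
  exact h5.trans (mul_le_mul_of_nonneg_left (h3 ▸ Complex.re_le_norm _) (by positivity))

theorem low (h : IsFr F B) (h0 : mm R A B ≠ 0) : ∃ c : ℝ, 0 < c ∧ ∀ᶠ F' in 𝓝 F,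
    ∀ B' : Matrix n k ℂ, IsFr F' B' → c * gg Q B' ≤ ‖mm R A B'‖ ^ 2 := by
  have c0 : Continuous fun F' : Mx n => F' * B := continuous_id.matrix_mul continuous_const
  have c1 : Continuous fun F' : Mx n => ‖mm R A (F' * B)‖ ^ 2 :=
    (continuous_const.matrix_mul c0).matrix_det.norm.pow 2
  have c2 : Continuous fun F' : Mx n => gg Q (F' * B) :=
    ((c0.matrix_conjTranspose.matrix_mul continuous_const).matrix_mul c0).matrix_det.norm
  have p1 : 0 < ‖mm R A (F * B)‖ ^ 2 := by rw [h.fix]; positivity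
  have p2 : 0 < gg Q (F * B) + 1 := add_pos_of_nonneg_of_pos (norm_nonneg _) one_pos
  refine ⟨_, div_pos (half_pos p1) p2, ?_⟩
  filter_upwards [c1.continuousAt.eventually (lt_mem_nhds (half_lt_self p1)),
    c2.continuousAt.eventually (gt_mem_nhds (lt_add_one _))] with F' a1 a2 B' h'
  obtain ⟨M, hM⟩ := h'.fac (X := F' * B) (by rw [← Matrix.mul_assoc, h'.idem])
  rw [hM, mm_mul, norm_mul, mul_pow] at a1
  rw [hM, gg_mul] at a2
  rw [div_mul_eq_mul_div, div_le_iff₀ p2]
  have g0 : 0 ≤ gg Q B' := norm_nonneg _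
  nlinarith [mul_le_mul_of_nonneg_right a1.le g0,
    mul_le_mul_of_nonneg_left a2.le (sq_nonneg ‖mm R A B'‖)]

section cal

variable {E : Type} [NormedAddCommGroup E] [NormedSpace ℝ E] [NormedSpace ℂ E]
  [IsScalarTower ℝ ℂ E] {z v : E}

theorem jac {f : E → Mx k} (hf : DifferentiableAt ℂ f z) {N : Mx k}
    (h : fderiv ℂ f z v = f z * N) : fderiv ℂ (fun x => (f x).det) z v = (f z).det * trace N := by
  have d0 : ∀ X : Mx k, DifferentiableAt ℂ (fun X : Mx k => X.det) X := fun X =>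
    (an_det (𝕜 := ℂ) analyticAt_id).differentiableAt
  have a1 : AnalyticAt ℂ (fun t : ℂ => (1 : Mx k) + t • N) 0 :=
    analyticAt_const.add (analyticAt_id.smul analyticAt_const)
  have e1 : wd 1 (fun t : ℂ => (1 : Mx k) + t • N) 0 = N := by
    rw [wd_hol a1.differentiableAt]
    simpa using (((hasDerivAt_id (0 : ℂ)).smul_const N).const_add 1).deriv
  have d1 := (a1.restrictScalars (𝕜 := ℝ)).differentiableAt
  have a2 := an_mul (analyticAt_const (v := f z)) a1
  have e2 := wd_hol (an_det a2).differentiableAt 1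
  have e3 := fderiv_comp (𝕜 := ℂ) 0 (d0 _) a2.differentiableAt
  have e4 := wd_hol a2.differentiableAt 1
  rw [wd_const_mul _ d1, e1] at e4
  simp only [det_mul] at e2
  rw [wd_cmul (differentiableAt_const _) (df_det d1), wd_det d1 (by simp), e1] at e2
  simp only [zero_smul, add_zero, Matrix.mul_one, Function.comp_def, det_mul] at e3
  rw [e3, ContinuousLinearMap.comp_apply, ← e4] at e2
  have e5 := fderiv_comp (𝕜 := ℂ) z (d0 _) hf
  rw [Function.comp_def] at e5
  rw [e5, ContinuousLinearMap.comp_apply]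
  refine (congrArg _ h).trans (e2.symm.trans ?_)
  simp

theorem flat {w q : ℕ} {π : E → Gr n} {b : E → Matrix n k ℂ} (h : LVAt Q w π z)
    (hb : AnalyticAt ℂ b z) (hF : ∀ᶠ x in 𝓝 z, gF w (π x) q * b x = b x)
    (hf : IsFr (gF w (π z) q) (b z)) (h0 : gg Q (b z) ≠ 0) (hv : th w π z v = 0) :
    ∃ t : ℂ, (∀ (R : Matrix k n ℂ) A, fderiv ℂ (fun x => mm R A (b x)) z v = mm R A (b z) * t) ∧
      wd v (fun x => (Real.log (gg Q (b x)) : ℂ)) z = t := by
  have hb' := hb.restrictScalars (𝕜 := ℝ)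
  have h1 := wd_congr hF v
  rw [wd_mul (h.an_F q).differentiableAt hb'.differentiableAt, h.dF, hv, Matrix.zero_mul,
    Matrix.zero_mul, zero_add] at h1
  obtain ⟨N, hN⟩ := hf.fac h1
  refine ⟨trace N, fun R A => jac (an_mul analyticAt_const hb).differentiableAt ?_, ?_⟩
  · rw [← wd_mhol (an_mul analyticAt_const hb).differentiableAt, wd_const_mul _ hb'.differentiableAt,
      hN, ← Matrix.mul_assoc]
  have hg := an_mul (an_mul (an_ct hb') (analyticAt_const (v := Q))) hb'
  have h2 : ((b z)ᴴ * Q * b z).det ≠ 0 := norm_ne_zero_iff.1 h0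
  have e1 : ∀ x, ((((b x)ᴴ * Q * b x).det.re : ℝ) : ℂ) = ((b x)ᴴ * Q * b x).det := fun x =>
    Complex.conj_eq_iff_re.1 ((det_conjTranspose _).symm.trans
      (congrArg det (isHermitian_conjTranspose_mul_mul _ h.hs0.herm).eq))
  have e2 : ∀ x, Real.log (gg Q (b x)) = Real.log ((b x)ᴴ * Q * b x).det.re := fun x => by
    rw [← Real.log_abs (Complex.re _), ← Real.norm_eq_abs, ← Complex.norm_real, e1, gg]
  simp only [e2]
  rw [wd_log (an_re (an_det hg)).differentiableAt fun h3 => h2 (by rw [← e1, h3]; simp)]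
  simp only [e1]
  rw [wd_det hg.differentiableAt h2, inv_mul_cancel_left₀ h2, GrifH.wd_g hb, hN,
    ← Matrix.mul_assoc _ (b z), nonsing_inv_mul_cancel_left _ _ (Ne.isUnit h2)]

end cal

end Vale.Agent.P281Z.Lf.LamH
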