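import Vale.Agent.P281Z.Lf.Sk
import Vale.Agent.P281Z.Lf.LamA
import Vale.Agent.P281Z.Hm.Flag

/-!
# P281Z, the determinant of the Hodge filtration: local holomorphic frames
-/

open scoped Matrix.Norms.Operator Topology
open Filter Set Matrix
open Vale.Agent.P272.K
open Vale.Agent.P281Z.Hm

noncomputable section

namespace Vale.Agent.P281Z.Lf.LamH

section alg

variable {n k : Type} [Fintype n] [DecidableEq n] [Fintype k] [DecidableEq k] {Q : Mx n} {w q : ℕ}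
  {π₀ π : Gr n} {B : Matrix n k ℂ}

theorem tm_F (h₀ : Hs Q w π₀) (h : Hs Q w π) :
    gF w π₀ q * tm w π₀ π q = tm w π₀ π q * gF w π q := by
  rw [Fa.tm_mul h, Fa.mul_tm h₀]

theorem IsFr.near (h₀ : Hs Q w π₀) (h : Hs Q w π) (hn : Near w π₀ π) (hB : IsFr (gF w π₀ q) B) :
    IsFr (gF w π q) (flag w π₀ π q * B) := by
  rw [flag, Matrix.mul_assoc, hB.fix]
  exact hB.conj (mul_nonsing_inv _ (hn q)) (Fa.flag_eq h₀ h hn q).symm

theorem IsFr.back (h₀ : Hs Q w π₀) (h : Hs Q w π) (hn : Near w π₀ π) (hB : IsFr (gF w π q) B) :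
    IsFr (gF w π₀ q) (tm w π₀ π q * B) := hB.conj (nonsing_inv_mul _ (hn q)) (tm_F h₀ h)

end alg

variable {p : ℕ} {W : Mf p} {S : Snc p W.X} {C : Cv W.X S.U} {n : Type} [Fintype n]
  [DecidableEq n] {V : GV p C n}

theorem F_eqv (V : GV p C n) (g : C.Γ) (x : C.X) (k : ℕ) :
    gF V.w (V.gr (g • x)) k * cz (V.ρ g) = cz (V.ρ g) * gF V.w (V.gr x) k := by
  simp only [gF, Finset.sum_mul, Finset.mul_sum, V.eqv]

theorem lv (hO : Omm V) {e : Chart p W.X} (he : e ∈ atlas (Cm p) W.X) {σ : Cm p → C.X} {z : Cm p}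
    (h : Sc C e σ z) : LVAt V.Q V.w (fun x => V.gr (σ x)) z := V.lv _ σ z (hO.lift e he σ z h).1

theorem at_self (y : W.X) : At (chartAt (Cm p) y) y := ⟨chart_mem_atlas _ _, mem_chart_source _ _⟩

theorem rank (hO : Omm V) (k : ℕ) :
    ∃ d : ℕ, ∀ x, ∃ B : Matrix n (Fin d) ℂ, IsFr (gF V.w (V.gr x) k) B := by
  obtain ⟨x₀⟩ : Nonempty C.X := inferInstance
  obtain ⟨d, h₀⟩ := exists_fr ((V.hs x₀).F_idem k)
  refine ⟨d, fun x => PreconnectedSpace.induction₂' (fun x y : C.X => (∃ B : Matrix n (Fin d) ℂ,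
    IsFr (gF V.w (V.gr x) k) B) → ∃ B : Matrix n (Fin d) ℂ, IsFr (gF V.w (V.gr y) k) B)
    (fun x => ?_) ⟨fun _ _ _ a b c => b (a c)⟩ x₀ x h₀⟩
  obtain ⟨σ, h1, h2, h3⟩ := hO.ex _ x (at_self _)
  have h4 := (stFlag _ _ _ _ _ _ (V.gr x) (lv hO (at_self _).1 h1) (V.hs x)
    (by rw [h2]; exact (stFlagA _ _ _ _ (V.hs x)).1)).1
  filter_upwards [h3, (((chartAt (Cm p) (C.π x)).continuousAt (mem_chart_source _ _)).comp
    (C.cov.continuousAt (C.mem x))).eventually h4] with y a b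
  rw [Function.comp_apply, a] at b
  exact ⟨fun ⟨B, hB⟩ => ⟨_, hB.near (V.hs x) (V.hs y) b⟩, fun ⟨B, hB⟩ => ⟨_, hB.back (V.hs x) (V.hs y) b⟩⟩

/-- local frames of the steps of the filtration -/
structure Fs (V : GV p C n) where
  d : ℕ → ℕ
  U : C.X → Set W.X
  B : C.X → ∀ k, C.X → Matrix n (Fin (d k)) ℂ
  opn : ∀ i, IsOpen (U i)
  sub : ∀ i, U i ⊆ S.U
  cov : ∀ x, C.π x ∈ U x
  fr : ∀ i k x, C.π x ∈ U i → IsFr (gF V.w (V.gr x) k) (B i k x)
  eqv : ∀ i k (g : C.Γ) x, C.π x ∈ U i → B i k (g • x) = cz (V.ρ g) * B i k x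
  an : ∀ i k, ∀ e ∈ atlas (Cm p) W.X, ∀ σ z, Sc C e σ z → e.symm z ∈ U i →
    AnalyticAt ℂ (fun x => B i k (σ x)) z

theorem free (hV : Free V) {g g' : C.Γ} {x : C.X} (h : g • x = g' • x) : V.ρ g = V.ρ g' := by
  have := hV (g'⁻¹ * g) x (by rw [mul_smul, h, inv_smul_smul])
  rw [← mul_inv_cancel_left g' g, map_mul, this, mul_one]

theorem exists_fs (hO : Omm V) (hV : Free V) : Nonempty (Fs V) := by
  choose d B₀ hB using rank hO
  choose σ h1 h2 h3 using fun x => hO.ex _ x (at_self (C.π x))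
  set c := fun x : C.X => chartAt (Cm p) (C.π x)
  set P := fun (i : C.X) (y : W.X) => y ∈ (c i).source ∧ Sc C (c i) (σ i) (c i y) ∧
    Near V.w (V.gr i) (V.gr (σ i (c i y)))
  have hπ : ∀ i y, P i y → C.π (σ i (c i y)) = y := fun i y h =>
    h.2.1.self_of_nhds.2.2.trans ((c i).left_inv h.1)
  set γ := fun i x : C.X => Classical.epsilon fun g : C.Γ => x = g • σ i (c i (C.π x))
  have hγ : ∀ i x, P i (C.π x) → x = γ i x • σ i (c i (C.π x)) := fun i x h =>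
    Classical.epsilon_spec (C.tr _ _ (hπ i _ h))
  refine ⟨⟨d, fun i => {y | ∀ᶠ y' in 𝓝 y, P i y'}, fun i k x => cz (V.ρ (γ i x)) *
    (flag V.w (V.gr i) (V.gr (σ i (c i (C.π x)))) k * B₀ k i),
    fun _ => isOpen_setOfPred_eventually_nhds, fun i y h => hπ i y h.self_of_nhds ▸ C.mem _,
    fun x => ?_, fun i k x h => ?_, fun i k g x h => ?_, fun i k e he τ z a b => ?_⟩⟩
  · have k1 := (c x).continuousAt (mem_chart_source _ _)
    filter_upwards [(c x).open_source.mem_nhds (mem_chart_source _ _),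
      k1.eventually (hO.lift _ (at_self _).1 _ _ (h1 x)).2,
      k1.eventually (stFlag _ _ _ _ _ _ (V.gr x) (lv hO (at_self _).1 (h1 x)) (V.hs x)
        (by rw [h2]; exact (stFlagA _ _ _ _ (V.hs x)).1)).1] with y a b e using ⟨a, b, e⟩
  · refine ((hB k i).near (V.hs i) (V.hs _) h.self_of_nhds.2.2).conj (V.r_inv_mul _) ?_
    nth_rw 1 [hγ i x h.self_of_nhds]
    exact F_eqv V _ _ k
  · have k1 := hγ i (g • x) (by rw [C.inv]; exact h.self_of_nhds)
    rw [C.inv] at k1 ⊢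
    nth_rw 1 [hγ i x h.self_of_nhds, ← mul_smul] at k1
    rw [← free hV k1, V.r_mul, Matrix.mul_assoc]
  · have k0 := (e.continuousAt_symm a.self_of_nhds.2.1).eventually b
    have k1 : Sc C e (fun x => σ i (c i (e.symm x))) z := by
      filter_upwards [a, k0] with x a1 a2
      exact ⟨a2.2.1.self_of_nhds.1.comp (f := fun x => c i (e.symm x))
        (((c i).continuousAt a2.1).comp (e.continuousAt_symm a1.2.1)), a1.2.1, hπ i _ a2⟩
    obtain ⟨g, hg⟩ := hO.two e he _ τ z k1 a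
    refine (an_mul (analyticAt_const (v := cz (V.ρ g))) (an_mul ((stFlag _ _ _ _ _ _ (V.gr i)
      (lv hO he k1) (V.hs i) k0.self_of_nhds.2.2).2 k).1 (analyticAt_const (v := B₀ k i)))).congr ?_
    filter_upwards [a, k0, hg] with x a1 a2 a3
    have k2 := hγ i (τ x) (a1.2.2 ▸ a2)
    rw [a1.2.2] at k2 ⊢
    rw [free hV (a3.symm.trans k2)]

end Vale.Agent.P281Z.Lf.LamH
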