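import Vale.Agent.P281Z.Lf.LeafA
import Vale.Agent.P281Z.Mf.An

/-!
# P281Z, leaves: ratios of forms
-/

open scoped Topology Manifold ContDiff
open Set Filter Matrix
open Vale.Agent.P272.K Vale.Agent.P285.H281.FD
open Vale.Agent.P277Z (Hol Mer at_chart)
open Vale.Agent.P284Z (levi)
open Vale.Agent.P281Z.Hm (Cv GV Ln Mx omH)

noncomputable section

namespace Vale.Agent.P281Z.Lf

section
variable {p : ℕ} {X : Type} [TopologicalSpace X] [ChartedSpace (Cm p) X] {e : Chart p X} {y : X}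

theorem ev_e (he : At e y) {P : Cm p → Prop} :
    (∀ᶠ z in 𝓝 (e y), P z) ↔ ∀ᶠ y' in 𝓝 y, P (e y') :=
  ⟨(e.continuousAt he.2).eventually, fun h => by
    filter_upwards [(P277Z.At.tendsto_symm he).eventually h, P277Z.At.right he] with z a b
      using b ▸ a⟩

variable {Ω : Set X} {L : Bd X} {φ : L.ι → X → ℝ} {k : ℕ} {b : Fr p L k}

/-- `b` does not vanish at `y` -/
def Nv (b : Fr p L k) (y : X) : Prop := ∀ i e, At e y → y ∈ L.U i → b i e (e y) ≠ 0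

theorem HolF.nv (h : HolF p b) {i : L.ι} (he : At e y) (hi : y ∈ L.U i) (h0 : b i e (e y) ≠ 0) :
    Nv b y := fun j e' he' hj k => h0 (by
  rw [h.chg i j e e' y he he' hi hj, k]; ext; simp)

theorem HolF.nv_near (h : HolF p b) (hL : LBOn p Ω L φ) (hy : y ∈ Ω) (h0 : Nv b y) :
    ∀ᶠ y' in 𝓝 y, Nv b y' := by
  obtain ⟨i, hi⟩ := hL.cover y hy
  have he := at_chart (n := p) y
  filter_upwards [(ev_e he).1 ((h.an i _ y he hi).continuousAt.eventually_ne (h0 i _ he hi)),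
    at_near he, (hL.isOpen i).mem_nhds hi] with y' a b c using h.nv b c a

theorem HolF.dense (h : HolF p b) (hL : LBOn p Ω L φ) (hc : IsPreconnected Ω) (hd : Dense Ω)
    (hy : y ∈ Ω) (h0 : Nv b y) : Dense {y | y ∈ Ω ∧ Nv b y} := by
  by_contra hn
  rw [← compl_compl {y | y ∈ Ω ∧ Nv b y}, ← interior_eq_empty_iff_dense_compl, ← Ne,
    ← nonempty_iff_ne_empty] at hn
  refine interior_subset (hc.subset_of_closure_inter_subset isOpen_interior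
    ((hd.inter_open_nonempty _ isOpen_interior hn).mono fun _ h => ⟨h.2, h.1⟩) ?_ hy) ⟨hy, h0⟩
  rintro x ⟨h1, h2⟩
  obtain ⟨i, hi⟩ := hL.cover x h2
  have he := at_chart (n := p) x
  set e := chartAt (Cm p) x
  obtain ⟨r, hr, hb⟩ := Metric.eventually_nhds_iff_ball.1 (h.an i _ x he hi).eventually_analyticAt
  have k : ∀ᶠ y in 𝓝 x, At e y ∧ y ∈ L.U i ∧ e y ∈ Metric.ball (e x) r :=
    (at_near he).and (((hL.isOpen i).eventually_mem hi).and
      ((e.continuousAt he.2).eventually (Metric.ball_mem_nhds _ hr)))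
  obtain ⟨w, a, c⟩ := ((mem_closure_iff_frequently.1 h1).and_eventually k.eventually_nhds).exists
  have z0 : ∀ᶠ z in 𝓝 (e w), b i e z = 0 := (ev_e c.self_of_nhds.1).2 (by
    filter_upwards [mem_interior_iff_mem_nhds.1 a, c] with u u1 u2
    by_contra u3
    exact u1 ⟨hL.sub i u2.2.1, h.nv u2.1 u2.2.1 u3⟩)
  refine mem_interior_iff_mem_nhds.2 (k.mono fun u u2 u3 => u3.2 i e u2.1 u2.2.1 ?_)
  exact AnalyticOnNhd.eqOn_zero_of_preconnected_of_eventuallyEq_zero hb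
    (convex_ball _ _).isPreconnected c.self_of_nhds.2.2 z0 u2.2.2

variable {U : Set X} {Λ l : Bd X} {c a : ℕ} {b₀ : Fr p (bun Λ l U c 0) k}
  {b₁ : Fr p (bun Λ l U c a) k}

theorem rel_of (h₀ : HolF p b₀) (h₁ : HolF p b₁) {i i' : Λ.ι} {t t' : l.ι} {e' : Chart p X} {κ : ℂ}
    (he : At e y) (he' : At e' y) (hi : y ∈ (bun Λ l U c 0).U (i, t))
    (hi' : y ∈ (bun Λ l U c 0).U (i', t')) (h : b₁ (i, t) e (e y) = κ • b₀ (i, t) e (e y)) :
    b₁ (i', t') e' (e' y) = (l.g t' t y ^ a * κ) • b₀ (i', t') e' (e' y) := by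
  rw [h₁.chg (i', t') (i, t) e' e y he' he hi' hi, h₀.chg (i', t') (i, t) e' e y he' he hi' hi, h]
  ext v
  simp [bun, Bd.mul, Bd.pow, res]
  ring

theorem ratio (h₀ : HolF p b₀) (h₁ : HolF p b₁) {τ : X → l.ι} (hτ : ∀ y, y ∈ l.U (τ y)) :
    ∃ κ : X → ℂ, ∀ y i t e, At e y → y ∈ (bun Λ l U c 0).U (i, t) →
      (∃ κ' : ℂ, b₁ (i, t) e (e y) = κ' • b₀ (i, t) e (e y)) →
      b₁ (i, t) e (e y) = (l.g t (τ y) y ^ a * κ y) • b₀ (i, t) e (e y) := by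
  refine ⟨fun y => Classical.epsilon fun κ : ℂ => ∀ i e, At e y →
    y ∈ (bun Λ l U c 0).U (i, τ y) → b₁ (i, τ y) e (e y) = κ • b₀ (i, τ y) e (e y),
    fun y i t e he hi ⟨κ', h⟩ => ?_⟩
  have hi' : y ∈ (bun Λ l U c 0).U (i, τ y) := ⟨hi.1, hτ y, hi.2.2⟩
  exact rel_of h₀ h₁ he he hi' hi (Classical.epsilon_spec
    (p := fun κ : ℂ => ∀ i e, At e y → y ∈ (bun Λ l U c 0).U (i, τ y) →
      b₁ (i, τ y) e (e y) = κ • b₀ (i, τ y) e (e y))
    ⟨_, fun _ _ h1 h2 => rel_of h₀ h₁ he h1 hi h2 h⟩ i e he hi')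

end

variable {p : ℕ} {W : Mf p} {S : Hm.Snc p W.X} {C : Cv W.X S.U} {n : Type} [Fintype n]
  [DecidableEq n] {V : GV p C n} {l : Bd W.X} {L : Ln V l} {Λ : Bd W.X} {φ : Λ.ι → W.X → ℝ}
  {m : Mx n → Λ.ι → C.X → ℂ} {h : Chart p W.X → Cm p → Matrix (Fin p) (Fin p) ℂ} {r c : ℕ}
  {Ψ : W.X → ℝ}

/-- the forms in the kernel of the curvature are multiples of `dX` -/
theorem loc (ho : Omm V) (llb : LLB) (flx : FLX) (par : PAR) (hΛ : Lam V Λ φ m)
    (hl : ∀ g, L.lam g = 1) (hr : RkLe V r) (hh : CK p S.U h) (hc : 0 < c) {e : Chart p W.X}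
    {y : W.X} (he : At e y) {σ : Cm p → C.X} (hσ : Sc C e σ (e y)) (hy : RkAt V r y) :
    ∃ X : Cm p → Cm r, Function.Surjective (fderiv ℂ X (e y)) ∧
      (∀ v, fderiv ℂ X (e y) v = 0 → thS V σ (e y) v = 0) ∧ ∀ a b, Sol p h (bw φ L c a) Ψ b →
      ∀ i, y ∈ (bun Λ l S.U c a).U i → ∃ f : Cm p → ℂ, AnalyticAt ℂ f (e y) ∧
        (∀ᶠ z in 𝓝 (e y), b i e z = f z • dX X z) ∧ ∀ v, fderiv ℂ X (e y) v = 0 →
          LD f (e y) v (dv (fun z => bw φ L c a i (e.symm z) + Ψ (e.symm z)) (e y) v) := by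
  obtain ⟨X, ε, hX, hε, k⟩ := flx p W S C n V r hr e he.1 σ _ hσ (by rwa [e.left_inv he.2])
  refine ⟨X, k.self_of_nhds.1, fun v => (k.self_of_nhds.2 v).1, fun a b hb i hi => ?_⟩
  obtain ⟨l1, -, l3⟩ := llb p W S C n V l L Λ φ m hΛ hl c a
  refine (par.2 p r X (b i e) _ (e y) hX k.self_of_nhds.1 (hb.hol.an i e y he hi) ((ev_e he).2 ?_)
    (hb.cl i e y he hi)).2.imp fun f h => ⟨h.1, h.2.1, fun v hv => ⟨h.1.differentiableAt, h.2.2 v hv⟩⟩
  filter_upwards [(ev_e he).1 k, at_near he, (l1.isOpen i).mem_nhds hi,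
    (ev_e he).1 (ho.lift e he.1 σ _ hσ).2] with x k1 k2 k3 k4
  have s : ContDiffAt ℝ 2 (fun z => bw φ L c a i (e.symm z)) (e x) :=
    (l1.sm i e x k2 k3).of_le (by norm_cast)
  have c1 : (1 : ℝ) ≤ c := by exact_mod_cast hc
  have lo : ∀ v, ε * ‖fderiv ℂ X (e x) v‖ ^ 2 ≤
      levi (fun z => bw φ L c a i (e.symm z)) (e x) v / 4 := fun v => by
    have e1 := l3 i e he.1 σ _ k4 (by rwa [e.left_inv k2.2]) v
    have e2 := (k1.2 v).2
    have e3 : 0 ≤ ε * ‖fderiv ℂ X (e x) v‖ ^ 2 := by positivity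
    nlinarith
  exact par.1 p r _ _ _ _ ε (hh.kah.posDef e x k2 fun h => h (l1.sub i k3))
    ((P284Z.cHess_psd_iff s).2 fun v => by
      have := lo v
      have e3 : 0 ≤ ε * ‖fderiv ℂ X (e x) v‖ ^ 2 := by positivity
      linarith).1 (hb.ad i e x k2 k3) k1.1 hε fun v => qd_hess s v ▸ lo v

end Vale.Agent.P281Z.Lf
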