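import Vale.Agent.P277Z.Van.Horm
import Vale.Agent.P277Z.Van.GG

/-!
# P281Z, row LOW: sections with prescribed values at many points
-/

open scoped Manifold ContDiff ComplexOrder Topology ENNReal Matrix
open MeasureTheory Filter Set Metric

set_option linter.unusedSectionVars false

noncomputable section

namespace Vale.Agent.P281Z.Lf.Lw

open Vale.Agent.P272.K Vale.Agent.P301.H599 Vale.Agent.P285Z Vale.Agent.P285Z.G1
open Vale.Agent.P277Z.Van
open Vale.Agent.P285Z.Ch hiding Qf_add Qf_sub Qf_smul Qf_nonneg psd_of_Qf psd_smul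
open Vale.Agent.P301.H98 (nrm)
open Vale.Agent.P301.H862 (IsSc)

/-- `t` for small `t`, `1` for large `t` -/
def cap (t : ℝ) : ℝ := hc 1 t * t + (1 - hc 1 t)

theorem cap_sm : ContDiff ℝ ∞ cap :=
  ((hc_smooth 1).mul contDiff_id).add (contDiff_const.sub (hc_smooth 1))

theorem hc_lo {t : ℝ} (h : t ≤ 1 / 4) : hc 1 t = 1 := zeta_of_ge (arg_ge one_pos h)

theorem hc_hi {t : ℝ} (h : 1 / 2 ≤ t) : hc 1 t = 0 := zeta_of_le (arg_le one_pos h)

theorem cap_lo {t : ℝ} (h : t ≤ 1 / 4) : cap t = t := by simp [cap, hc_lo h]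

theorem cap_hi {t : ℝ} (h : 1 / 2 ≤ t) : cap t = 1 := by simp [cap, hc_hi h]

theorem cap_ge {t c : ℝ} (h : c ≤ t) (h1 : c ≤ 1) : c ≤ cap t := by
  have h2 : 0 ≤ hc 1 t := zeta_nonneg _
  have h3 : hc 1 t ≤ 1 := zeta_le_one _
  unfold cap
  nlinarith

theorem cap_le (t : ℝ) : cap t ≤ 1 := by
  rcases le_total t 1 with h | h
  · have h2 : 0 ≤ hc 1 t := zeta_nonneg _
    unfold cap
    nlinarith
  · rw [cap_hi (by linarith)]

theorem good_const {d : ℕ} {c : ℝ} (hc : 0 < c) (z : Cm d) : Good 0 (fun _ => c) z :=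
  (good_exp (a := fun _ => Real.log c) contDiffAt_const (by
    rw [C2.cHess_const, add_zero]; exact .zero)).congr (.of_forall fun _ => (Real.exp_log hc).symm)

theorem pole_ge : ∃ K : ℝ, 0 ≤ K ∧ ∀ (d : ℕ) (δ : ℝ) (u : Cm d → ℝ) (z : Cm d), 0 < δ →
    Good 0 u z → u z ≤ 1 → ∀ v, -(K * Qf (cHess u z) v) ≤
      Qf (cHess (fun y => Real.log (cap (u y) + δ)) z) v := by
  have c1 : ContDiff ℝ ∞ (deriv cap) := (contDiff_infty_iff_deriv.1 cap_sm).2
  obtain ⟨B₁, h1⟩ := (isCompact_Icc (a := (0 : ℝ)) (b := 1)).exists_bound_of_continuousOn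
    c1.continuous.continuousOn
  obtain ⟨B₂, h2⟩ := (isCompact_Icc (a := (0 : ℝ)) (b := 1)).exists_bound_of_continuousOn
    (contDiff_infty_iff_deriv.1 c1).2.continuous.continuousOn
  refine ⟨4 * (|B₁| + |B₂|) + 16 * B₁ ^ 2, by positivity, fun d δ u z hδ hu h3 v => ?_⟩
  have q0 := hu.pos v
  have q1 := hu.le v
  rw [Qf_zero, mul_zero, add_zero] at q0 q1
  rcases lt_or_ge (u z) (1 / 4) with h | h
  · have e : (fun y => Real.log (cap (u y) + δ)) =ᶠ[𝓝 z] fun y => Real.log (u y + δ) :=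
      (hu.sm.continuousAt.eventually (gt_mem_nhds h)).mono fun y hy => by
        beta_reduce; rw [cap_lo (le_of_lt hy)]
    have h4 := Qf_nonneg ((hu.add (good_const hδ z)).psd (by linarith [hu.nn])
      Matrix.isHermitian_zero) v
    rw [zero_add, ← C2.cHess_congr e] at h4
    exact le_trans (neg_nonpos.2 (by positivity)) h4
  · have s1 : ContDiffAt ℝ 2 cap (u z) := cap_sm.contDiffAt.of_le (by norm_cast)
    have s2 : ContDiffAt ℝ 2 (fun y => cap (u y)) z := s1.comp z hu.sm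
    have p1 : 1 / 4 ≤ cap (u z) + δ := by linarith [cap_ge h (by norm_num)]
    have p0 : 0 < cap (u z) + δ := by linarith
    have b1 : |deriv cap (u z)| ≤ |B₁| := (h1 _ ⟨hu.nn, h3⟩).trans (le_abs_self _)
    have b2 : |deriv (deriv cap) (u z)| ≤ |B₂| := (h2 _ ⟨hu.nn, h3⟩).trans (le_abs_self _)
    rw [cHess_chain' (u := fun y => cap (u y)) (h := fun t => Real.log (t + δ)) (ev_lg p0)
      (hasDerivAt_lg' p0) s2, Qf_add, Qf_smul, Qf_smul, Qf_gm (s2.differentiableAt (by norm_num)),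
      Qf_chain s1 hu.sm, Dv_chain (s1.differentiableAt (by norm_num)).hasDerivAt
        (hu.sm.differentiableAt (by norm_num)), norm_mul, mul_pow, Complex.norm_real,
      Real.norm_eq_abs]
    set Q := Qf (cHess u z) v
    set D := ‖Dv u z v‖ ^ 2
    have d0 : 0 ≤ D := sq_nonneg _
    have d1 : D ≤ Q := q1.trans (mul_le_of_le_one_left q0 h3)
    have i1 : (cap (u z) + δ)⁻¹ ≤ 4 := by rw [inv_le_comm₀ p0 (by norm_num)]; linarith
    have i2 : ((cap (u z) + δ) ^ 2)⁻¹ ≤ 16 := by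
      rw [inv_le_comm₀ (by positivity) (by norm_num)]; nlinarith
    have t1 : -((|B₁| + |B₂|) * Q) ≤ deriv cap (u z) * Q + deriv (deriv cap) (u z) * D := by
      nlinarith [mul_le_mul_of_nonneg_right (abs_le.1 b1).1 q0,
        mul_le_mul_of_nonneg_right (abs_le.1 b2).1 d0,
        mul_le_mul_of_nonneg_left d1 (abs_nonneg B₂)]
    have t2 := mul_le_mul_of_nonneg_left t1 (inv_pos.2 p0).le
    have t3 : (cap (u z) + δ)⁻¹ * ((|B₁| + |B₂|) * Q) ≤ 4 * ((|B₁| + |B₂|) * Q) :=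
      mul_le_mul_of_nonneg_right i1 (by positivity)
    have t4 : ((cap (u z) + δ) ^ 2)⁻¹ * (|deriv cap (u z)| ^ 2 * D) ≤ 16 * (B₁ ^ 2 * Q) :=
      mul_le_mul i2 (mul_le_mul (by rw [← sq_abs B₁]; gcongr) d1 d0 (sq_nonneg _))
        (by positivity) (by norm_num)
    nlinarith

variable {d : ℕ} {X : Type} [TopologicalSpace X] [ChartedSpace (Cm d) X] {κ : Type}
  {M : LineBundle d X κ} {ρ : κ → X → ℝ} {h : Fm d X} {Ω K : Set X}

variable (d) in
/-- a function with a zero at `y`, which is a sum of squares where it is `< 1` -/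
structure Pk (K : Set X) (y : X) (U : X → ℝ) : Prop where
  sm : Smooth (d := d) U
  nn : ∀ x, 0 ≤ U x
  le : ∃ e : Chart d X, At e y ∧ ∃ A : ℝ, ∀ᶠ x in 𝓝 y, U x ≤ A * ‖e x - e y‖ ^ 2
  sub : ∀ x, U x < 1 → x ∈ K
  good : ∀ (e : Chart d X) x, At e x → U x < 1 → Good 0 (fun z => U (e.symm z)) (e x)

theorem Pk.zero {y : X} {U : X → ℝ} (H : Pk d K y U) : U y = 0 := by
  obtain ⟨e, -, A, h⟩ := H.le
  exact le_antisymm (by simpa using h.self_of_nhds) (H.nn y)

theorem dbar_pk {y : X} {U : X → ℝ} (H : Pk d K y U) (hρ : IsMetric M ρ) {p₀ : κ}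
    (hK : K ⊆ M.U p₀) {Θ : Fm d X} (h0 : PSDOn Ω Θ)
    (h1 : ∀ e x, At e x → U x < 1 → ∀ v, Qf (ddc U e (e x)) v ≤ Qf (Θ e (e x)) v) :
    DbarOn Ω M ρ (cutS M p₀ (hc 1) U) (nrm M ρ (cutS M p₀ (hc' 1) U)) Θ := by
  intro p e x hx hp hΩ v
  have hn := nrm_nonneg' M ρ (cutS M p₀ (hc' 1) U) x
  by_cases hux : U x < 1
  · have h2 := dzb_chain_mulX (F := M.g p p₀) (hc_deriv 1 (U x)) H.sm hx
      (M.holo p p₀ e x hx hp (hK (H.sub x hux))) v
    have h3 := nrm_eq_sc hρ (isSc_cutS (hc'_smooth 1) H.sm one_pos (fun t ht => by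
      rw [hc', deriv_zeta_of_le (arg_le one_pos ht), zero_mul]) fun x hx => hK (H.sub x hx)) hp
    have q0 := (H.good e x hx hux).pos v
    have q1 := (H.good e x hx hux).le v
    rw [Qf_zero, mul_zero, add_zero, hx.left_inv] at *
    have h4 := mul_le_mul_of_nonneg_left
      ((q1.trans (mul_le_of_le_one_left q0 hux.le)).trans (h1 e x hx hux v)) hn
    refine le_trans (le_of_eq ?_) h4
    unfold cutS at *
    rw [h2, norm_mul, mul_pow, h3, DvX]
    ring
  · have h2 : ∀ b, dzb b (fun z => cutS M p₀ (hc 1) U p (e.symm z)) (e x) = 0 := fun b => by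
      rw [C2.dzb_congr b (cutS_ev H.sm one_pos (fun t => hc_hi) hx hux p), C2.dzb_const]
    simp only [h2, zero_mul, Finset.sum_const_zero, norm_zero]
    simpa using mul_nonneg hn (Qf_nonneg (h0 e x hx hΩ) v)

variable [IsManifold 𝓘(ℂ, Cm d) ω X] [T2Space X] [MeasurableSpace X] [BorelSpace X] {μ : Measure X}

theorem interp (hh : IsHermitian h) (hμ : IsVol h μ) (hW : WK d Ω) (hρ : IsMetric M ρ)
    {Ψ : ℕ → X → ℝ} (sm : ∀ k, SmOn (d := d) Ω (Ψ k)) (anti : ∀ x ∈ Ω, Antitone fun k => Ψ k x)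
    (psd : ∀ k, PSDOn Ω fun e z => curvature M ρ e z - kc h e z + ddc (Ψ k) e z)
    {s : κ → X → ℂ} (hs : ScOn M Ω s) {a : X → ℝ} (ha : ContinuousOn a Ω) (ha0 : ∀ x ∈ Ω, 0 ≤ a x)
    (hd : ∀ k, DbarOn Ω M ρ s a fun e z => curvature M ρ e z - kc h e z + ddc (Ψ k) e z)
    {R : ℝ≥0∞} (hR : R ≠ ⊤)
    (hI : ∀ k, ∫⁻ x in Ω, ENNReal.ofReal (a x * Real.exp (-Ψ k x)) ∂μ ≤ R) :
    ∃ G, SecOn M Ω G ∧ ∫⁻ x in Ω, ENNReal.ofReal (nrm M ρ (fun i y => G i y - s i y) x) *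
      ⨆ k, ENNReal.ofReal (Real.exp (-Ψ k x)) ∂μ ≤ R := by
  obtain ⟨ψ, H⟩ := hW.1
  have mono : ∀ x ∈ Ω, Monotone fun k => ENNReal.ofReal (Real.exp (-Ψ k x)) := fun x hx _ _ k =>
    ENNReal.ofReal_le_ofReal (Real.exp_le_exp.2 (neg_le_neg (anti x hx k)))
  refine limit hh hμ H.isOpen H.sigma hρ hs (V := fun _ => Ω) (fun _ => H.isOpen)
    (fun _ => subset_rfl) (fun x hx => ⟨Ω, H.isOpen.mem_nhds hx, .of_forall fun _ => subset_rfl⟩)
    (W := fun k x => ENNReal.ofReal (Real.exp (-Ψ k x)))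
    (fun k => ((sm k).cont.neg.rexp.aemeasurable H.isOpen.measurableSet).ennreal_ofReal)
    (fun x hx => tendsto_atTop_iSup (mono x hx)) (fun x hx => ?_) hR fun k => ?_
  · obtain ⟨V, hV, t, ht, h1⟩ := low_cont ((sm 0).contAt hx).neg.rexp (Real.exp_pos _)
    exact ⟨V ∩ Ω, inter_mem hV (H.isOpen.mem_nhds hx), t, ht, fun k y hy =>
      (ENNReal.ofReal_le_ofReal (h1 y hy.1)).trans (mono y hy.2 (Nat.zero_le k))⟩
  · obtain ⟨G, hG, h1⟩ := horm d X h μ hh hμ Ω hW κ M ρ hρ _ (sm k) (psd k) s hs a ha ha0 (hd k)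
    simp only [fun s x t => ENNReal.ofReal_mul (q := t) (nrm_nonneg' M ρ s x)] at h1
    exact ⟨G, hG, h1.trans (by
      simpa only [fun s x t => ENNReal.ofReal_mul (q := t) (nrm_nonneg' M ρ s x)] using hI k)⟩

theorem val (hh : IsHermitian h) (hμ : IsVol h μ) (hρ : IsMetric M ρ) {e : Chart d X} {y : X}
    (hy : At e y) {p : κ} (hp : y ∈ M.U p) {V : Set X} (hV : IsOpen V) (hyV : y ∈ V)
    {H : κ → X → ℂ} (hH : SecOn M V H) {W : X → ℝ≥0∞}
    (hI : ∫⁻ x in V, ENNReal.ofReal (nrm M ρ H x) * W x ∂μ ≠ ⊤) {E : ℝ} (hE : 0 < E)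
    (hW : ∀ t : ℝ, 0 < t → ∀ x ∈ V, ‖e x - e y‖ ≤ 2 * t →
      ENNReal.ofReal (E / t ^ (2 * (d + 1))) ≤ W x) : H p y = 0 := by
  classical
  obtain ⟨R, C, hR, h1⟩ := GG.loc_bd hh hμ hρ hy hp (hV.mem_nhds hyV) 1 hI hE
  have h2 : ∀ᶠ t in 𝓝[>] (0 : ℝ), ‖H p y‖ ≤ C * t ^ 1 := by
    filter_upwards [Ioo_mem_nhdsGT hR] with t ht
    refine h1 H (fun x => if ‖e x - e y‖ ≤ 2 * t then E / t ^ (2 * (d + 1)) else 0) t hH ht.1 ht.2
      (fun x _ _ k => (if_pos k).ge) (setLIntegral_mono' hV.measurableSet fun x hx => ?_) y hy.2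
      (by simpa using ht.1.le)
    rw [ENNReal.ofReal_mul (nrm_nonneg' M ρ H x)]
    refine mul_le_mul_right ?_ _
    split_ifs with k
    exacts [hW t ht.1 x hx k, by simp]
  have h3 : Tendsto (fun t : ℝ => C * t ^ 1) (𝓝[>] 0) (𝓝 (C * 0 ^ 1)) :=
    (Continuous.tendsto (by fun_prop) _).mono_left nhdsWithin_le_nhds
  simpa using ge_of_tendsto h3 h2

/-- sections with the values `0`, `1` at the points `y j` -/
theorem eng (hh : IsHermitian h) (hμ : IsVol h μ) (hW : WK d Ω) : ∃ K₀ : ℝ, 0 < K₀ ∧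
    ∀ (κ : Type) (M : LineBundle d X κ) (ρ : κ → X → ℝ) (Ψ : ℕ → X → ℝ) (K : Set X) (p₀ : κ)
      (ι : Type) [Fintype ι] [DecidableEq ι] (y : ι → X) (U : ι → X → ℝ), IsMetric M ρ →
      (∀ k, SmOn (d := d) Ω (Ψ k)) → (∀ x ∈ Ω, Antitone fun k => Ψ k x) →
      (∀ k, PSDOn Ω fun e z => curvature M ρ e z - kc h e z + ddc (Ψ k) e z) →
      IsCompact K → K ⊆ Ω → K ⊆ M.U p₀ → (∃ B, ∀ k, ∀ x ∈ K, -B ≤ Ψ k x) →
      (∀ i, Pk d K (y i) (U i)) → (∀ i j, i ≠ j → ∀ x, U i x < 1 → 1 ≤ U j x) →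
      (∀ k i e x, At e x → U i x < 1 → ∀ v, K₀ * Qf (ddc (U i) e (e x)) v ≤
        Qf (curvature M ρ e (e x) - kc h e (e x) + ddc (Ψ k) e (e x)) v) →
      ∀ i, ∃ G, SecOn M Ω G ∧ (∀ j, G p₀ (y j) = if i = j then 1 else 0) ∧
        ∫⁻ x in Ω \ K, ENNReal.ofReal (nrm M ρ G x) *
          ⨆ k, ENNReal.ofReal (Real.exp (-Ψ k x)) ∂μ ≠ ⊤ := by
  obtain ⟨C, hC, hp⟩ := pole_ge
  refine ⟨(d + 1 : ℕ) * C + 1, by positivity,
    fun κ M ρ Ψ K p₀ ι _ _ y U hρ sm anti psd hK hKΩ hKp ⟨B, hB⟩ hU disj pos i => ?_⟩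
  have hO := hW.1.choose_spec.isOpen
  set δ : ℕ → ℝ := fun k => 1 / ((k : ℝ) + 1)
  have hδ : ∀ k, 0 < δ k := fun k => Nat.one_div_pos_of_nat
  have hδa : Antitone δ := fun _ _ k => Nat.one_div_le_one_div k
  have hδ1 : ∀ k, δ k ≤ 1 := fun k => (hδa (Nat.zero_le k)).trans (by simp [δ])
  have c0 : ∀ j x, 0 ≤ cap (U j x) := fun j x => cap_ge ((hU j).nn x) zero_le_one
  have c1 : ∀ k j x, 0 < cap (U j x) + δ k := fun k j x => by linarith [c0 j x, hδ k]
  have c2 : ∀ k j x, Real.log (cap (U j x) + δ k) ≤ 1 := fun k j x => by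
    linarith [Real.log_le_sub_one_of_pos (c1 k j x), cap_le (U j x), hδ1 k]
  have hl := fun k j => smooth_lg (sm_comp cap_sm (hU j).sm) (c0 j) (hδ k)
  have hS := fun k => Smooth.sum Finset.univ fun j _ => hl k j
  set P : ℕ → X → ℝ := fun k x => (d + 1 : ℕ) * ∑ j, Real.log (cap (U j x) + δ k)
  have hP : ∀ k, Smooth (d := d) (P k) := fun k => (hS k).const_mul _
  have z0 : ∀ k j (e : Chart d X) x, At e x → 1 ≤ U j x → ∀ v,
      Qf (ddc (fun x => Real.log (cap (U j x) + δ k)) e (e x)) v = 0 := fun k j e x hx h1 v => by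
    have h2 : ∀ᶠ z in 𝓝 (e x), 1 / 2 < U j (e.symm z) :=
      ev_sym hx ((smooth_continuous (hU j).sm).continuousAt.eventually (lt_mem_nhds (by linarith)))
    rw [ddc, C2.cHess_congr (v := fun _ => Real.log (1 + δ k)) (h2.mono fun z hz => by
      beta_reduce; rw [cap_hi (le_of_lt hz)]), C2.cHess_const, Qf_zero]
  have key : ∀ k (e : Chart d X) x, At e x → x ∈ Ω → ∀ v, 0 ≤ Qf (curvature M ρ e (e x) -
      kc h e (e x) + ddc (fun x => Ψ k x + P k x) e (e x)) v ∧ ∀ i, U i x < 1 →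
      Qf (ddc (U i) e (e x)) v ≤ Qf (curvature M ρ e (e x) - kc h e (e x) +
        ddc (fun x => Ψ k x + P k x) e (e x)) v := by
    intro k e x hx hΩ v
    rw [ddc_add_on (sm k) (smOn_of (hP k) Ω) hx hΩ, ← add_assoc, Qf_add,
      ddc_const_mul _ (hS k) e x hx, Qf_smul, GG.ddc_sum _ (hl k) hx]
    by_cases h1 : ∃ i, U i x < 1
    · obtain ⟨i, h1⟩ := h1
      have g := (hU i).good e x hx h1
      have q0 := g.pos v
      rw [Qf_zero, mul_zero, add_zero] at q0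
      have q1 := mul_le_mul_of_nonneg_left (hp d _ _ _ (hδ k) g (by rw [hx.left_inv]; exact h1.le) v)
        (Nat.cast_nonneg (α := ℝ) (d + 1))
      have q2 := pos k i e x hx h1 v
      rw [Finset.sum_eq_single i (fun j _ m => z0 k j e x hx (disj i j m.symm x h1) v)
        (fun m => (m (Finset.mem_univ _)).elim)]
      unfold ddc at *
      refine ⟨by linarith, fun j h2 => ?_⟩
      obtain rfl : i = j := by_contra fun m => (disj i j m x h1).not_gt h2
      linarith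
    · rw [Finset.sum_eq_zero fun j _ => z0 k j e x hx (not_lt.1 fun m => h1 ⟨j, m⟩) v, mul_zero,
        add_zero]
      exact ⟨Qf_nonneg (psd k e x hx hΩ) v, fun j m => (h1 ⟨j, m⟩).elim⟩
  have sm' := fun k => (sm k).add (smOn_of (hP k) Ω)
  have psd' : ∀ k, PSDOn Ω fun e z => curvature M ρ e z - kc h e z +
      ddc (fun x => Ψ k x + P k x) e z := fun k e x hx hΩ =>
    psd_of_Qf (((curv_herm hρ hx).sub ((cform_kc hh).herm e x hx)).add
      (C2.cHess_isHermitian ((sm' k).two hx hΩ))) fun v => (key k e x hx hΩ v).1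
  have hs := isSc_cutS (hc_smooth 1) (hU i).sm one_pos (fun t => hc_hi)
    fun x hx => hKp ((hU i).sub x hx)
  have h0 : ∀ t, 1 / 2 ≤ t → hc' 1 t = 0 := fun t ht => by
    rw [hc', deriv_zeta_of_le (arg_le one_pos ht), zero_mul]
  have ha := continuous_nrm hρ (isSc_cutS (hc'_smooth 1) (hU i).sm one_pos h0
    fun x hx => hKp ((hU i).sub x hx))
  set a := nrm M ρ (cutS M p₀ (hc' 1) (U i))
  set B' : ℝ := (d + 1 : ℕ) * ∑ _j : ι, Real.log (1 / 4)
  obtain ⟨G, hG, h1⟩ := interp hh hμ hW hρ sm' (fun x hx k k' m => add_le_add (anti x hx m)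
    (mul_le_mul_of_nonneg_left (Finset.sum_le_sum fun j _ => Real.log_le_log (c1 _ j x)
      (by linarith [hδa m])) (Nat.cast_nonneg _))) psd' (scOn_of hs Ω) ha.continuousOn
    (fun x _ => nrm_nonneg' _ _ _ x) (fun k => dbar_pk (hU i) hρ hKp (psd' k)
      fun e x hx m v => (key k e x hx (hKΩ ((hU i).sub x m)) v).2 i m)
    (lint_cpt hμ hh hK hK.measurableSet subset_rfl
      (ha.mul (continuous_const (y := Real.exp (B - B')))).continuousOn) fun k => by
      rw [← lintegral_indicator hK.measurableSet]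
      refine (setLIntegral_le_lintegral _ _).trans (lintegral_mono fun x => ?_)
      by_cases h2 : hc' 1 (U i x) = 0
      · simp [a, nrm, cutS, h2]
      have h3 : U i x < 1 := by_contra fun m => h2 (h0 _ (by linarith))
      have h4 : 1 / 4 ≤ U i x := by_contra fun m => h2 (by
        rw [hc', deriv_zeta_of_ge (arg_ge one_pos (not_le.1 m).le), zero_mul])
      rw [indicator_of_mem ((hU i).sub x h3)]
      refine ENNReal.ofReal_le_ofReal (mul_le_mul_of_nonneg_left (Real.exp_le_exp.2 ?_)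
        (nrm_nonneg' _ _ _ x))
      have h5 : B' ≤ P k x := mul_le_mul_of_nonneg_left (Finset.sum_le_sum fun j _ =>
        Real.log_le_log (by norm_num) (le_add_of_le_of_nonneg (cap_ge (by
          rcases eq_or_ne i j with rfl | m
          exacts [h4, by linarith [disj i j m x h3]]) (by norm_num)) (hδ k).le)) (Nat.cast_nonneg _)
      linarith [hB k x ((hU i).sub x h3)]
  replace h1 := ne_top_of_le_ne_top (lint_cpt hμ hh hK hK.measurableSet subset_rfl
      (ha.mul (continuous_const (y := Real.exp (B - B')))).continuousOn) h1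
  refine ⟨G, hG, fun j => ?_, ?_⟩
  · obtain ⟨e, he, A, hA⟩ := (hU j).le
    obtain ⟨B₀, hB₀⟩ := hK.bddAbove_image ((sm 0).cont.mono hKΩ)
    have hV : {x | U j x ≤ A * ‖e x - e (y j)‖ ^ 2 ∧ U j x < 1 / 4} ∈ 𝓝 (y j) :=
      hA.and ((smooth_continuous (hU j).sm).continuousAt.eventually
        (gt_mem_nhds (by rw [(hU j).zero]; norm_num)))
    obtain ⟨V, hV1, hV2, hV3⟩ := mem_nhds_iff.1 hV
    have hVK : V ⊆ K := fun x hx => (hU j).sub x (by linarith [(hV1 hx).2])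
    have hy := hKp (hVK hV3)
    have h2 := val hh hμ hρ he hy hV2 hV3
      (H := fun p x => G p x - (if i = j then 1 else 0) * M.g p p₀ x)
      ⟨fun p f x hx hp hx' => (hG.holo p f x hx hp (hKΩ (hVK hx'))).sub
        (analyticAt_const.mul (M.holo p p₀ f x hx hp (hKp (hVK hx')))), fun p q x hp hq hx => by
          rw [hG.change p q x hp hq (hKΩ (hVK hx)), ← M.cocycle p q p₀ x hp hq (hKp (hVK hx))]
          ring⟩ (W := fun x => ⨆ k, ENNReal.ofReal (Real.exp (-(Ψ k x + P k x))))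
      (ne_top_of_le_ne_top h1 (le_trans (le_of_eq (setLIntegral_congr_fun hV2.measurableSet
        fun x hx => ?_)) (lintegral_mono_set (hVK.trans hKΩ))))
      (Real.exp_pos (-(B₀ + (d + 1 : ℕ) * (Real.log (4 * |A| + 1) + Fintype.card ι))))
      fun t ht x hx m => ?_
    · rwa [mul_left_cancel₀ (M.ne_zero _ _ _ hy hy)
        ((M.cocycle _ _ _ _ hy hy hy).trans (mul_one _).symm), mul_one, sub_eq_zero] at h2
    · have : hc 1 (U i x) = if i = j then 1 else 0 := by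
        split_ifs with m
        exacts [m ▸ hc_lo (hV1 hx).2.le,
          hc_hi (by linarith [disj j i (Ne.symm m) x (by linarith [(hV1 hx).2])])]
      simp only [nrm, cutS, this, apply_ite Complex.ofReal, Complex.ofReal_one, Complex.ofReal_zero]
    · obtain ⟨k, hk⟩ := exists_nat_one_div_lt (pow_pos ht 2)
      refine le_iSup_of_le k (ENNReal.ofReal_le_ofReal ?_)
      have h3 : Real.log (cap (U j x) + δ k) ≤ Real.log (4 * |A| + 1) + Real.log (t ^ 2) := by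
        rw [← Real.log_mul (by positivity) (by positivity)]
        refine Real.log_le_log (c1 k j x) ?_
        rw [cap_lo (hV1 hx).2.le]
        nlinarith [(hV1 hx).1, mul_le_mul (le_abs_self A) (pow_le_pow_left₀ (norm_nonneg _) m 2)
          (sq_nonneg _) (abs_nonneg A)]
      have h4 : ∑ l ∈ Finset.univ.erase j, Real.log (cap (U l x) + δ k) ≤ Fintype.card ι :=
        (Finset.sum_le_card_nsmul _ _ 1 fun l _ => c2 k l x).trans (by
          rw [nsmul_eq_mul, mul_one]; exact_mod_cast Finset.card_le_univ _)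
      have h5 : Ψ k x ≤ B₀ := (anti x (hKΩ (hVK hx)) (Nat.zero_le k)).trans (hB₀ ⟨x, hVK hx, rfl⟩)
      rw [pow_mul, ← Real.exp_log (pow_pos ht 2), ← Real.exp_nat_mul, ← Real.exp_sub]
      refine Real.exp_le_exp.2 ?_
      simp only [P, ← Finset.add_sum_erase _ _ (Finset.mem_univ j)]
      nlinarith [mul_le_mul_of_nonneg_left (add_le_add h3 h4) (Nat.cast_nonneg (α := ℝ) (d + 1))]
  · refine ne_top_of_le_ne_top (ENNReal.mul_ne_top (ENNReal.ofReal_ne_top
      (r := Real.exp ((d + 1 : ℕ) * Fintype.card ι))) h1) ?_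
    rw [← lintegral_const_mul' _ _ ENNReal.ofReal_ne_top]
    refine le_trans (setLIntegral_mono' (hO.measurableSet.diff hK.measurableSet) fun x hx => ?_)
      (lintegral_mono_set sdiff_subset)
    have h2 : hc 1 (U i x) = 0 :=
      hc_hi (by linarith [not_lt.1 fun m => hx.2 ((hU i).sub x m)])
    rw [mul_left_comm, ENNReal.mul_iSup (ENNReal.ofReal (Real.exp _))]
    refine mul_le_mul' (by simp [nrm, cutS, h2]) (iSup_mono fun k => ?_)
    rw [← ENNReal.ofReal_mul (Real.exp_pos _).le, ← Real.exp_add]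
    refine ENNReal.ofReal_le_ofReal (Real.exp_le_exp.2 ?_)
    have h3 : ∑ l, Real.log (cap (U l x) + δ k) ≤ Fintype.card ι :=
      (Finset.sum_le_card_nsmul _ _ 1 fun l _ => c2 k l x).trans (by simp)
    linarith [mul_le_mul_of_nonneg_left h3 (Nat.cast_nonneg (α := ℝ) (d + 1))]

end Vale.Agent.P281Z.Lf.Lw
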