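import Vale.Agent.P281Z.Lf.LowA
import Vale.Agent.P281Z.Mf.Loc

/-!
# P281Z, row LOW: many peak functions with disjoint supports
-/

open scoped Manifold ContDiff ComplexOrder Topology ENNReal Matrix ComplexConjugate
open MeasureTheory Filter Set Metric

set_option linter.unusedSectionVars false

noncomputable section

namespace Vale.Agent.P281Z.Lf.Lw

open Vale.Agent.P272.K Vale.Agent.P301.H599 Vale.Agent.P285Z Vale.Agent.P285Z.G1
open Vale.Agent.P277Z.Van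
open Vale.Agent.P285Z.Ch hiding Qf_add Qf_sub Qf_smul Qf_nonneg psd_of_Qf psd_smul
open Vale.Agent.P277Z (Hol)
open Vale.Agent.P277Z.Slc (dd)
open Vale.Agent.P301.H98 (nh Dc)

theorem grid {R τ : ℝ} (hR : 0 < R) (h : 144 ≤ R ^ 2 * τ) :
    ∃ (n : ℕ) (q : Fin n × Fin n → ℂ), R ^ 2 * τ / 576 ≤ (n * n : ℕ) ∧ (∀ i, ‖q i‖ ≤ R / 2) ∧
      ∀ i j, i ≠ j → 4 < τ * ‖q i - q j‖ ^ 2 := by
  have h0 : 0 < τ := pos_of_mul_pos_left (b := R ^ 2) (by linarith) (sq_nonneg R)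
  obtain ⟨t, ht, rfl⟩ : ∃ t : ℝ, 0 < t ∧ τ = t ^ 2 :=
    ⟨√τ, Real.sqrt_pos.2 h0, (Real.sq_sqrt h0.le).symm⟩
  have h1 : 1 ≤ R * t / 12 := by
    rw [le_div_iff₀ (by norm_num)]
    exact abs_le_of_sq_le_sq' (by nlinarith) (by positivity) |>.2
  have h2 := Nat.floor_le (show 0 ≤ R * t / 12 by positivity)
  have h3 := Nat.lt_floor_add_one (R * t / 12)
  have h4 : (1 : ℝ) ≤ ⌊R * t / 12⌋₊ := by exact_mod_cast Nat.le_floor (by simpa using h1)
  set n := ⌊R * t / 12⌋₊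
  refine ⟨n, fun i => ((3 / t : ℝ) : ℂ) * (i.1 + i.2 * Complex.I), ?_, fun i => ?_, fun i j m => ?_⟩
  · push_cast
    nlinarith [mul_self_le_mul_self (show 0 ≤ R * t / 24 by positivity)
      (show R * t / 24 ≤ n by linarith)]
  · have a1 : (i.1 : ℝ) ≤ n := by exact_mod_cast i.1.2.le
    have a2 : (i.2 : ℝ) ≤ n := by exact_mod_cast i.2.2.le
    have a3 : ‖((i.1 : ℕ) : ℂ) + (i.2 : ℕ) * Complex.I‖ ≤ R * t / 6 :=
      (norm_add_le _ _).trans (by simp; linarith)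
    rw [norm_mul, Complex.norm_real, Real.norm_of_nonneg (by positivity)]
    exact (mul_le_mul_of_nonneg_left a3 (by positivity)).trans (le_of_eq (by field_simp; norm_num))
  · have a1 : (1 : ℤ) ≤ ((i.1 : ℕ) - (j.1 : ℕ)) ^ 2 + ((i.2 : ℕ) - (j.2 : ℕ)) ^ 2 := by
      by_contra k
      have k1 : ((i.1 : ℕ) : ℤ) - (j.1 : ℕ) = 0 := by nlinarith [sq_nonneg (((i.2 : ℕ) : ℤ) - (j.2 : ℕ))]
      have k2 : ((i.2 : ℕ) : ℤ) - (j.2 : ℕ) = 0 := by nlinarith [sq_nonneg (((i.1 : ℕ) : ℤ) - (j.1 : ℕ))]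
      exact m (Prod.ext (Fin.ext (by omega)) (Fin.ext (by omega)))
    have a2 : (1 : ℝ) ≤ ((i.1 : ℕ) - (j.1 : ℕ)) ^ 2 + ((i.2 : ℕ) - (j.2 : ℕ)) ^ 2 := by
      exact_mod_cast a1
    rw [← mul_sub, norm_mul, mul_pow, Complex.norm_real, Real.norm_eq_abs, sq_abs, Complex.sq_norm,
      Complex.normSq_apply, ← mul_assoc, show t ^ 2 * (3 / t) ^ 2 = 9 by field_simp; norm_num]
    simp
    nlinarith

variable {d : ℕ}

theorem Qf_sq {f : Cm d → ℂ} {z : Cm d} (hf : AnalyticAt ℂ f z) (v : Cm d) :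
    Qf (cHess (fun y => ‖f y‖ ^ 2) z) v = ‖fderiv ℂ f z (star v)‖ ^ 2 := by
  have e : cHess (fun y => ‖f y‖ ^ 2) z =
      Matrix.of fun j k => conj (conj (dz j f z)) * conj (dz k f z) := by
    ext j k
    rw [show (fun y => ‖f y‖ ^ 2) = nh f fun _ => 0 by funext y; simp [nh],
      P301.H98.cHess_nh hf contDiffAt_const, C2.cHess_const]
    simp [Dc]
  rw [e, Qf_rank_one, ← Complex.norm_conj, map_sum]
  conv_rhs => rw [← Finset.univ_sum_single (star v), map_sum]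
  congr 2
  refine Finset.sum_congr rfl fun j _ => ?_
  rw [map_mul, Complex.conj_conj, dz_of_holo hf.differentiableAt, mul_comm, ← smul_eq_mul,
    ← map_smul, ← Pi.single_smul, smul_eq_mul, mul_one]
  rfl

theorem good_mul {Θ : Matrix (Fin d) (Fin d) ℂ} {a : Cm d → ℝ} {z : Cm d} (h : Good Θ a z) {c : ℝ}
    (hc : 0 ≤ c) : Good Θ (fun y => c * a y) z := by
  refine ⟨contDiffAt_const.mul h.sm, mul_nonneg hc h.nn, fun v => ?_, fun v => ?_⟩
  · rw [C2.cHess_const_mul c h.sm, Qf_smul, mul_assoc, ← mul_add]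
    exact mul_nonneg hc (h.pos v)
  · rw [C2.cHess_const_mul c h.sm, Qf_smul, Dv_const_mul c (h.sm.differentiableAt (by norm_num)),
      norm_mul, mul_pow, Complex.norm_real, Real.norm_eq_abs, sq_abs]
    exact (mul_le_mul_of_nonneg_left (h.le v) (sq_nonneg c)).trans (le_of_eq (by ring))

variable {X : Type} [TopologicalSpace X] [ChartedSpace (Cm d) X] {α : Type} [Fintype α]
  {F : α → X → ℂ} {τ : α → ℝ} {p : α → ℂ} {e : Chart d X} {x : X}

/-- a weighted sum of squares -/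
def us (τ : α → ℝ) (p : α → ℂ) (F : α → X → ℂ) (x : X) : ℝ := ∑ a, τ a * ‖F a x - p a‖ ^ 2

theorem us_sm (hF : ∀ a, Hol d (F a) x) (hx : At e x) :
    ContDiffAt ℝ ∞ (fun z => us τ p F (e.symm z)) (e x) :=
  ContDiffAt.sum fun a _ => contDiffAt_const.mul
    (((((hF a e hx).sub analyticAt_const).contDiffAt (n := ∞)).restrict_scalars ℝ).norm_sq ℝ)

theorem us_good (hτ : ∀ a, 0 ≤ τ a) (hF : ∀ a, Hol d (F a) x) (hx : At e x) :
    Good 0 (fun z => us τ p F (e.symm z)) (e x) :=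
  good_sum _ fun a _ => good_mul (by
    have := good_nh ((hF a e hx).fun_sub (analyticAt_const (v := p a))) (ρ := fun _ => 0)
      contDiffAt_const
    rw [C2.cHess_const] at this
    exact this.congr (.of_forall fun y => by simp [nh])) (hτ a)

theorem us_Qf (hF : ∀ a, Hol d (F a) x) (hx : At e x) (v : Cm d) :
    Qf (ddc (us τ p F) e (e x)) v = ∑ a, τ a * ‖dd (F a) e x (star v)‖ ^ 2 := by
  classical
  have h1 := fun a => (hF a e hx).fun_sub (analyticAt_const (v := p a))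
  have h2 : ∀ a, ContDiffAt ℝ 2 (fun z => ‖F a (e.symm z) - p a‖ ^ 2) (e x) := fun a =>
    (((h1 a).contDiffAt (n := 2)).restrict_scalars ℝ).norm_sq ℝ
  have key : ∀ s : Finset α, Qf (cHess (fun z => ∑ a ∈ s, τ a * ‖F a (e.symm z) - p a‖ ^ 2) (e x)) v
      = ∑ a ∈ s, τ a * ‖dd (F a) e x (star v)‖ ^ 2 := fun s => by
    induction s using Finset.induction_on with
    | empty => simp only [Finset.sum_empty]; rw [C2.cHess_const, Qf_zero]
    | insert a s ha ih =>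
      simp only [Finset.sum_insert ha]
      rw [C2.cHess_add (contDiffAt_const.mul (h2 a))
        (ContDiffAt.sum fun b _ => contDiffAt_const.mul (h2 b)), Qf_add, ih,
        C2.cHess_const_mul _ (h2 a), Qf_smul, Qf_sq (h1 a), fderiv_sub_const, dd]
  exact key _

theorem us_le (hτ : ∀ a, 0 ≤ τ a) (hF : ∀ a, Hol d (F a) x) (hx : At e x) (hp : ∀ a, F a x = p a) :
    ∃ A : ℝ, ∀ᶠ y in 𝓝 x, us τ p F y ≤ A * ‖e y - e x‖ ^ 2 := by
  choose L hL using fun a => (hF a e hx).differentiableAt.isBigO_sub.bound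
  refine ⟨∑ a, τ a * L a ^ 2, ?_⟩
  filter_upwards [(e.continuousAt hx.2).eventually (eventually_all.2 hL),
    e.open_source.mem_nhds hx.2] with y h1 h2
  rw [Finset.sum_mul]
  refine Finset.sum_le_sum fun a _ => ?_
  have h3 := h1 a
  rw [e.left_inv h2, hx.left_inv, hp] at h3
  rw [mul_assoc, ← mul_pow]
  exact mul_le_mul_of_nonneg_left (pow_le_pow_left₀ (norm_nonneg _) h3 2) (hτ a)

variable [IsManifold 𝓘(ℂ, Cm d) ω X] [T2Space X] {Θ : OpenPartialHomeomorph X (α → ℂ)}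
  {z₀ : α → ℂ} {R : ℝ}

theorem peak (hol : ∀ x ∈ Θ.source, ∀ a, Hol d (fun y => Θ y a) x) (hR : 0 < R)
    (hb : closedBall z₀ R ⊆ Θ.target) (hτ : ∀ a, 8 ≤ R ^ 2 * τ a) (hp : ∀ a, ‖p a - z₀ a‖ ≤ R / 2) :
    ∃ U, Pk d (Θ.symm '' closedBall z₀ R) (Θ.symm p) U ∧
      ∀ x, U x < 1 → x ∈ Θ.source ∧ U =ᶠ[𝓝 x] us τ p fun a y => Θ y a := by
  classical
  set u := us τ p fun a y => Θ y a
  set K := Θ.symm '' closedBall z₀ R
  have h0 : ∀ a, 0 ≤ τ a := fun a => nonneg_of_mul_nonneg_right (by linarith [hτ a])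
    (pow_pos hR 2)
  have u0 : ∀ x, 0 ≤ u x := fun x => Finset.sum_nonneg fun a _ => mul_nonneg (h0 a) (sq_nonneg _)
  have hK : IsCompact K := (isCompact_closedBall z₀ R).image_of_continuousOn
    (Θ.continuousOn_symm.mono hb)
  have h1 : ∀ x ∈ Θ.source, u x < 2 → x ∈ K := fun x hx m => by
    refine ⟨Θ x, mem_closedBall_iff_norm.2 ((pi_norm_le_iff_of_nonneg hR.le).2 fun a => ?_),
      Θ.left_inv hx⟩
    have a1 : τ a * ‖Θ x a - p a‖ ^ 2 < 2 := (Finset.single_le_sum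
      (f := fun a => τ a * ‖Θ x a - p a‖ ^ 2) (fun a _ => mul_nonneg (h0 a) (sq_nonneg _))
      (Finset.mem_univ a)).trans_lt m
    have a2 : ‖Θ x a - p a‖ ≤ R / 2 := by
      by_contra! k
      nlinarith [hτ a, mul_le_mul_of_nonneg_left
        (pow_le_pow_left₀ (by positivity) k.le 2) (h0 a)]
    linarith [norm_sub_le_norm_sub_add_norm_sub (Θ x a) (p a) (z₀ a), hp a,
      show ‖(Θ x - z₀) a‖ = ‖Θ x a - z₀ a‖ from rfl]
  set U : X → ℝ := fun x => if x ∈ Θ.source then 4 * cap (u x / 4) else 4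
  have h2 : ∀ x ∈ Θ.source, U =ᶠ[𝓝 x] fun x => 4 * cap (u x / 4) := fun x hx =>
    mem_of_superset (Θ.open_source.mem_nhds hx) fun y hy => if_pos hy
  have h3 : ∀ x ∈ Θ.source, u x < 1 → U =ᶠ[𝓝 x] u := fun x hx m => by
    have c : ContinuousAt u x := tendsto_finsetSum _ fun a _ => continuousAt_const.mul
      (((hol x hx a).cont.sub continuousAt_const).norm.pow 2)
    filter_upwards [h2 x hx, c.eventually (gt_mem_nhds m)] with y k1 k2
    rw [k1, cap_lo (by linarith)]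
    ring
  have h4 : ∀ x, U x < 1 → x ∈ Θ.source ∧ u x < 1 := fun x m => by
    have k : x ∈ Θ.source := by_contra fun k => by simp [U, k] at m
    refine ⟨k, by_contra fun k' => ?_⟩
    linarith [cap_ge (show 1 / 4 ≤ u x / 4 by linarith) (by norm_num), (h2 x k).self_of_nhds]
  have hz : p ∈ Θ.target := hb (mem_closedBall_iff_norm.2
    ((pi_norm_le_iff_of_nonneg hR.le).2 fun a => (hp a).trans (by linarith)))
  have hy := Θ.map_target hz
  have h5 : ∀ a, Θ (Θ.symm p) a = p a := fun a => by rw [Θ.right_inv hz]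
  refine ⟨U, ⟨fun e x hx => ?_, fun x => ?_, ⟨_, atChart _, ?_⟩, fun x m => h1 x (h4 x m).1
    (by linarith [(h4 x m).2]), fun e x hx m => (us_good h0 (hol x (h4 x m).1) hx).congr
      (ev_sym hx (h3 x (h4 x m).1 (h4 x m).2))⟩, fun x m => ⟨(h4 x m).1, h3 x (h4 x m).1 (h4 x m).2⟩⟩
  · by_cases k : x ∈ Θ.source
    · exact (contDiffAt_const.mul (cap_sm.contDiffAt.comp _
        ((us_sm (hol x k) hx).div_const 4))).congr_of_eventuallyEq (ev_sym hx (h2 x k))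
    · refine (contDiffAt_const (c := (4 : ℝ))).congr_of_eventuallyEq
        (ev_sym hx (P := fun x => U x = 4) ?_)
      filter_upwards [hK.isClosed.isOpen_compl.mem_nhds
        fun ⟨z, m, m'⟩ => k (m' ▸ Θ.map_target (hb m))] with y hy
      simp only [U]
      split_ifs with m
      · rw [cap_hi (by linarith [not_lt.1 (mt (h1 y m) hy)]), mul_one]
      · rfl
  · simp only [U]
    split_ifs
    exacts [mul_nonneg (by norm_num) (cap_ge (by linarith [u0 x]) zero_le_one), by norm_num]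
  · obtain ⟨A, hA⟩ := us_le h0 (hol _ hy) (atChart _) h5
    exact ⟨A, (hA.and (h3 _ hy (by simp [u, us, h5]))).mono fun x m => m.2.trans_le m.1⟩

/-- peaks at the points of a lattice -/
theorem pts (hol : ∀ x ∈ Θ.source, ∀ a, Hol d (fun y => Θ y a) x) (hR : 0 < R)
    (hb : closedBall z₀ R ⊆ Θ.target) (hτ : ∀ a, 144 ≤ R ^ 2 * τ a) :
    ∃ (ι : Type) (_ : Fintype ι) (y : ι → X) (U : ι → X → ℝ),
      ∏ a, R ^ 2 * τ a / 576 ≤ (Fintype.card ι : ℝ) ∧
      (∀ i, Pk d (Θ.symm '' closedBall z₀ R) (y i) (U i)) ∧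
      (∀ i j, i ≠ j → ∀ x, U i x < 1 → 1 ≤ U j x) ∧
      ∀ i (e : Chart d X) x, At e x → U i x < 1 → ∀ v,
        Qf (ddc (U i) e (e x)) v = ∑ a, τ a * ‖dd (fun y => Θ y a) e x (star v)‖ ^ 2 := by
  classical
  choose n q h1 h2 h3 using fun a => grid hR (hτ a)
  have h0 : ∀ a, 0 ≤ τ a := fun a => nonneg_of_mul_nonneg_right (by linarith [hτ a])
    (pow_pos hR 2)
  choose U h4 h5 using fun i : ∀ a, Fin (n a) × Fin (n a) => peak (τ := τ)
    (p := fun a => z₀ a + q a (i a)) hol hR hb (fun a => by linarith [hτ a])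
    fun a => by simpa using h2 a (i a)
  refine ⟨_, inferInstance, _, U, ?_, h4, fun i j m x k => by_contra fun k' => ?_,
    fun i e x hx m v => ?_⟩
  · rw [Fintype.card_pi, Nat.cast_prod]
    exact Finset.prod_le_prod (fun a _ => by linarith [hτ a]) fun a _ => by simpa using h1 a
  · obtain ⟨a, ha⟩ := Function.ne_iff.1 m
    have b : ∀ i, U i x < 1 → τ a * ‖Θ x a - (z₀ a + q a (i a))‖ ^ 2 < 1 := fun i k =>
      (Finset.single_le_sum (f := fun a => τ a * ‖Θ x a - (z₀ a + q a (i a))‖ ^ 2)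
        (fun a _ => mul_nonneg (h0 a) (sq_nonneg _)) (Finset.mem_univ a)).trans_lt
        ((h5 i x k).2.self_of_nhds.symm.trans_lt k)
    have c := norm_sub_le (Θ x a - (z₀ a + q a (j a))) (Θ x a - (z₀ a + q a (i a)))
    rw [show Θ x a - (z₀ a + q a (j a)) - (Θ x a - (z₀ a + q a (i a))) = q a (i a) - q a (j a) by
      ring] at c
    nlinarith [b i k, b j (not_le.1 k'), h3 a _ _ ha, mul_le_mul_of_nonneg_left
      (pow_le_pow_left₀ (norm_nonneg _) c 2) (h0 a), mul_nonneg (h0 a) (sq_nonneg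
        (‖Θ x a - (z₀ a + q a (j a))‖ - ‖Θ x a - (z₀ a + q a (i a))‖))]
  · rw [← us_Qf (hol x (h5 i x m).1) hx, ddc, C2.cHess_congr (ev_sym hx (h5 i x m).2)]
    rfl

end Vale.Agent.P281Z.Lf.Lw
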