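import Vale.Agent.P281Z.Lf.LowB
import Vale.Agent.P277Z.Van.Sing
import Vale.Agent.P272.K.N.MaxP
import Vale.Agent.P284.H395.StkS

/-!
# P281Z, row LOW: many pluricanonical forms on the complement of an ample divisor
-/

open scoped Manifold ContDiff ComplexOrder Topology ENNReal Matrix ComplexConjugate
open MeasureTheory Filter Set Metric

set_option linter.unusedSectionVars false

noncomputable section

namespace Vale.Agent.P281Z.Lf.Lw

open Vale.Agent.P272.K Vale.Agent.P301.H599 Vale.Agent.P285Z Vale.Agent.P285Z.G1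
open Vale.Agent.P277Z.Van
open Vale.Agent.P285Z.Ch hiding Qf_add Qf_sub Qf_smul Qf_nonneg psd_of_Qf psd_smul
open Vale.Agent.P277Z (Hol)
open Vale.Agent.P277Z.Slc (dd Ind)
open Vale.Agent.P301.H98 (nrm IsSection)
open Vale.Agent.P301.H862 (powL)
open Vale.Agent.P284.H395 (IsRho)
open Vale.Agent.P277Z.Van.Ka (rat det_tr det_pos sm_logdet)

variable {d : ℕ}

theorem good_min {Θ : Matrix (Fin d) (Fin d) ℂ} {a : Cm d → ℝ} {z : Cm d} (ha : ContDiffAt ℝ 2 a z)
    (h0 : ∀ᶠ y in 𝓝 z, 0 ≤ a y) (hz : a z = 0) : Good Θ a z := by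
  have hm : IsLocalMin a z := h0.mono fun y hy => hz ▸ hy
  have h1 := N.neg_cHess_posSemidef ha.neg hm.neg
  rw [C2.cHess_neg ha, neg_neg] at h1
  have h2 : HasFDerivAt (fun y => (a y : ℂ)) (0 : Cm d →L[ℝ] ℂ) z := by
    have := Complex.ofRealCLM.hasFDerivAt.comp z (ha.differentiableAt (by norm_num)).hasFDerivAt
    rwa [hm.fderiv_eq_zero, ContinuousLinearMap.comp_zero] at this
  refine ⟨ha, hz.ge, fun v => ?_, fun v => ?_⟩
  · simpa [hz] using Qf_nonneg h1 v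
  · simp [hz, Dv, dzb, h2.fderiv]

variable {X : Type} [TopologicalSpace X] [ChartedSpace (Cm d) X] [IsManifold 𝓘(ℂ, Cm d) ω X]
  {h ρ : Fm d X} {U : Set X} {s : ℕ} {e : Chart d X} {x : X}

theorem rat_at (hh : IsHermitian h) (hr : IsRho Uᶜ s ρ) (hx : At e x) (hU : x ∈ U) :
    rat h ρ x = (ρ e (e x)).det.re / (h e (e x)).det.re := by
  have hc := atChart (d := d) x
  have h1 := pow_pos (norm_pos_iff.2 (jacM_det_ne_zero hx hc)) 2
  rw [hr.change e _ x hx hc (not_not.2 hU), hh.change e _ x hx hc, det_tr, det_tr,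
    mul_div_mul_left _ _ h1.ne']
  rfl

theorem rat_ev (hh : IsHermitian h) (hr : IsRho Uᶜ s ρ) (hO : IsOpen U) (hx : At e x) (hU : x ∈ U) :
    ∀ᶠ z in 𝓝 (e x), rat h ρ (e.symm z) = (ρ e z).det.re / (h e z).det.re ∧ 0 < (h e z).det.re := by
  filter_upwards [hx.nhds_target, ev_sym hx (hO.mem_nhds hU)] with z h1 h2
  have h3 := det_pos (hh.posDef e _ (At.of_target hx.1 h1))
  rw [e.right_inv h1] at h3
  exact ⟨by rw [rat_at hh hr (At.of_target hx.1 h1) h2, e.right_inv h1], h3⟩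

theorem rat_nn (hh : IsHermitian h) (hr : IsRho Uᶜ s ρ) (hU : x ∈ U) : 0 ≤ rat h ρ x :=
  div_nonneg (Complex.le_def.1 (hr.psd _ x (atChart x) (not_not.2 hU)).det_nonneg).1
    (det_pos (hh.posDef _ x (atChart x))).le

theorem det_sm (hr : IsRho Uᶜ s ρ) (hx : At e x) (hU : x ∈ U) :
    ContDiffAt ℝ ∞ (fun z => (ρ e z).det.re) (e x) :=
  Complex.reCLM.contDiff.contDiffAt.comp _
    (INT.contDiffAt_det (k := ∞) (hr.smooth e x hx (not_not.2 hU)))

theorem rat_sm (hh : IsHermitian h) (hr : IsRho Uᶜ s ρ) (hO : IsOpen U) :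
    SmOn (d := d) U (rat h ρ) := fun e x hx hU =>
  ((det_sm hr hx hU).div (Complex.reCLM.contDiff.contDiffAt.comp _ (INT.contDiffAt_det (k := ∞)
    (hh.smooth e x hx))) (det_pos (hh.posDef e x hx)).ne').congr_of_eventuallyEq
    ((rat_ev hh hr hO hx hU).mono fun _ k => k.1)

theorem rat_good (hh : IsHermitian h) (hr : IsRho Uᶜ s ρ) (hO : IsOpen U) (hx : At e x) (hU : x ∈ U)
    {Q : Matrix (Fin d) (Fin d) ℂ} (hQ : Q.IsHermitian) (H : rat h ρ x ≠ 0 → ∀ v,
      Qf Q v ≤ Qf (cHess (fun z => Real.log (ρ e z).det.re) (e x)) v) :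
    Good (kc h e (e x) - Q) (fun z => rat h ρ (e.symm z)) (e x) := by
  by_cases h0 : rat h ρ x = 0
  · exact good_min ((rat_sm hh hr hO).two hx hU)
      (ev_sym hx (mem_of_superset (hO.mem_nhds hU) fun y hy => rat_nn hh hr hy))
      (by rwa [hx.left_inv])
  have h1 : 0 < (ρ e (e x)).det.re := by
    have := (rat_nn hh hr hU).lt_of_ne' h0
    rw [rat_at hh hr hx hU] at this
    exact (div_pos_iff_of_pos_right (det_pos (hh.posDef e x hx))).1 this
  have s1 : ContDiffAt ℝ 2 (fun z => Real.log (ρ e z).det.re) (e x) :=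
    ((det_sm hr hx hU).log h1.ne').of_le (by norm_cast)
  have s2 : ContDiffAt ℝ 2 (fun z => Real.log (h e z).det.re) (e x) :=
    (sm_logdet hh hx).of_le (by norm_cast)
  refine (good_exp (s1.sub s2) ?_).congr ?_
  · rw [C2.cHess_sub s1 s2, show kc h e (e x) - Q + (cHess (fun z => Real.log (ρ e z).det.re) (e x) -
      cHess (fun z => Real.log (h e z).det.re) (e x)) =
      cHess (fun z => Real.log (ρ e z).det.re) (e x) - Q by unfold kc; abel]
    exact psd_of_Qf ((C2.cHess_isHermitian s1).sub hQ) fun v => by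
      rw [Qf_sub, sub_nonneg]; exact H h0 v
  · filter_upwards [rat_ev hh hr hO hx hU,
      (det_sm hr hx hU).continuousAt.eventually (lt_mem_nhds h1)] with z k1 k2
    rw [k1.1, Real.exp_sub, Real.exp_log k2, Real.exp_log k1.2]

theorem reg_ge (hh : IsHermitian h) (hr : IsRho Uᶜ s ρ) (hO : IsOpen U) (hx : At e x) (hU : x ∈ U)
    {Q : Matrix (Fin d) (Fin d) ℂ} (hQ : Q.IsHermitian) (H : rat h ρ x ≠ 0 → ∀ v,
      Qf Q v ≤ Qf (cHess (fun z => Real.log (ρ e z).det.re) (e x)) v) {p : X → ℝ}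
    (hp : ContDiffAt ℝ 2 (fun z => p (e.symm z)) (e x))
    (H' : ∀ v, Qf Q v ≤ Qf (kc h e (e x) + ddc p e (e x)) v) (v : Cm d) :
    Qf Q v ≤ Qf (kc h e (e x) + ddc (fun x => Real.log (rat h ρ x + Real.exp (p x))) e (e x)) v := by
  have k := ((cform_kc hh).herm e x hx).sub hQ
  have h1 := Qf_nonneg (((rat_good hh hr hO hx hU hQ H).add (good_exp hp (psd_of_Qf
    (k.add (C2.cHess_isHermitian hp)) fun v => by
      have := H' v
      rw [Qf_add] at this
      rw [Qf_add, Qf_sub]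
      unfold ddc at this
      linarith))).psd (by
        rw [hx.left_inv]
        exact add_pos_of_nonneg_of_pos (rat_nn hh hr hU) (Real.exp_pos _)) k) v
  rw [Qf_add, Qf_sub] at h1
  rw [Qf_add]
  unfold ddc
  linarith

variable [T2Space X] [CompactSpace X] [MeasurableSpace X] [BorelSpace X] {μ : Measure X}

/-- **many forms** -/
theorem many (hh : IsHermitian h) (hμ : IsVol h μ) (hr : IsRho Uᶜ s ρ) (hO : IsOpen U) {κ₀ : ℝ}
    (hκ : 0 < κ₀) (ric : ∀ e x, At e x → x ∈ U → rat h ρ x ≠ 0 → ∀ v,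
      κ₀ * Qf (ρ e (e x)) v ≤ Qf (cHess (fun z => Real.log (ρ e z).det.re) (e x)) v)
    {φ : X → ℝ} (hφ : SmOn (d := d) U φ) (hφ' : PSDOn U (ddc (d := d) φ)) {η : Type}
    {L : LineBundle d X η} {σ : η → X → ℝ} {t : η → X → ℂ} (hσ : IsMetric L σ)
    (hL : PDOn univ (curvature L σ)) (ht : IsSection L t) (hU : ∀ x, nrm L σ t x ≠ 0 → x ∈ U)
    {y₀ : X} (h1 : nrm L σ t y₀ ≠ 0) (h2 : rat h ρ y₀ ≠ 0) {ν m : ℕ} (hd : ν + m = d)
    {g : Fin ν → X → ℂ} (hg : Ind d g y₀) {ε₀ : ℝ} (hε₀ : 0 < ε₀)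
    (loc : ∀ᶠ x in 𝓝 y₀, ∀ e : Chart d X, At e x → ∀ v,
      ε₀ * ∑ a, ‖dd (g a) e x (star v)‖ ^ 2 ≤ Qf (ddc φ e (e x)) v) :
    ∃ (c₀ : ℝ) (N₁ : ℕ) (K : Set X) (e₀ : Chart d X), 0 < c₀ ∧ IsCompact K ∧
      (∀ x ∈ K, At e₀ x ∧ nrm L σ t x ≠ 0) ∧ ∀ N c : ℕ, N₁ ≤ N → N ≤ c →
      ∃ (ι : Type) (_ : Fintype ι) (_ : DecidableEq ι) (y : ι → X),
        c₀ * (N : ℝ) ^ m * (c : ℝ) ^ ν ≤ Fintype.card ι ∧ (∀ j, y j ∈ K) ∧ ∀ i, ∃ G,
        SecOn (powL (canB d X) N) {x | x ∈ univ ∧ nrm L σ t x ≠ 0} G ∧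
        (∀ j, G e₀ (y j) = if i = j then 1 else 0) ∧
        ∫⁻ x in {x | x ∈ univ ∧ nrm L σ t x ≠ 0} \ K, ENNReal.ofReal
          (nrm (powL (canB d X) N) (powM (kM h) N) G x *
            Real.exp (-(N * Real.log (rat h ρ x + 1) + c * φ x))) ∂μ ≠ ⊤ := by
  classical
  have ht' := sec_of ht univ
  obtain ⟨B₀, hB₀⟩ := isCompact_univ.bddAbove_image (ht'.toSc.smOn hσ isOpen_univ).cont
  have H := Sing.exh_ne (φ := fun _ => 0) ⟨isOpen_univ, smOn_const _ _, fun e x hx _ => by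
    rw [ddc_const 0 e x hx]; exact .zero, fun c => isCompact_univ.of_isClosed_subset
      (isClosed_const (p := True ∧ (0 : ℝ) ≤ c)) (subset_univ _)⟩
    hσ ht' hL.psd fun x hx => hB₀ ⟨x, hx, rfl⟩
  set Ω := {x | x ∈ univ ∧ nrm L σ t x ≠ 0}
  set ψ := fun x => 0 - Real.log (nrm L σ t x)
  have sub : Ω ⊆ U := fun x hx => hU x hx.2
  have hψ : ∀ (e : Chart d X) x, At e x → x ∈ Ω → ddc ψ e (e x) = curvature L σ e (e x) :=
    fun e x hx hm => by
      rw [ddc_sub_on (smOn_const Ω 0) (((ht'.toSc.smOn hσ isOpen_univ).mono (subset_univ _)).comp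
        fun x hx => Real.contDiffAt_log.2 hx.2) hx hm, ddc_log_nrm hσ isOpen_univ ht' hx trivial hm.2,
        ddc_const 0 e x hx, zero_sub, neg_neg]
  obtain ⟨K₀, hK₀, E⟩ := eng hh hμ (wk_of H hσ (hL.mono (subset_univ _)))
  obtain ⟨C, -, hC⟩ := cmp (cform_curv hσ) ((cform_curv hσ).sub (cform_kc hh)) isCompact_univ hL
  have f0 := rat_sm hh hr hO
  obtain ⟨Θ₀, a1, a2, a3, a4⟩ := exists_co hg (d := m) (by simpa using hd)
    (((H.isOpen.eventually_mem ⟨trivial, h1⟩).and ((f0.contAt (hU _ h1)).eventually_ne h2)).and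
      ((at_near (atChart (d := d) y₀)).and loc))
  set Θ := Θ₀.transHomeomorph Homeomorph.sumArrowHomeomorphProdArrow.symm
  have hol : ∀ x ∈ Θ.source, ∀ a, Hol d (fun y => Θ y a) x := fun x hx a => by
    rcases a with a | a
    · exact ((a1.an x hx).cmp analyticAt_fst).hol a
    · exact ((a1.an x hx).cmp analyticAt_snd).hol a
  have hdd : ∀ x ∈ Θ.source, ∀ e : Chart d X, At e x → ∀ a,
      dd (fun y => Θ y (.inl a)) e x = dd (g a) e x := fun x hx e he a =>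
    P277Z.Slc.dd_congr (mem_of_superset (Θ₀.open_source.mem_nhds hx)
      fun y hy => congrFun (a4 y hy) a) he
  obtain ⟨R, hR, hb⟩ := nhds_basis_closedBall.mem_iff.1 (Θ.open_target.mem_nhds (Θ.map_source a2))
  set K := Θ.symm '' closedBall (Θ y₀) R
  have hK : IsCompact K := (isCompact_closedBall _ R).image_of_continuousOn
    (Θ.continuousOn_symm.mono hb)
  have hKs : K ⊆ Θ.source := fun _ ⟨z, hz, k⟩ => k ▸ Θ.map_target (hb hz)
  have sΩ : Θ.source ⊆ Ω := fun x hx => (a3 hx).1.1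
  set q := us (fun _ => 1) 0 fun a y => Θ y a
  have hq : SmOn (d := d) Θ.source q := fun e x hx hm => us_sm (hol x hm) hx
  have cq := fun {w : Fm d X} (hw : KahOn Θ.source w) => exists_le_on (b := ddc q) Θ.open_source hw
    (fun e x hx hm i j => (INT.smooth_cHess (hq e x hx hm) i j).continuousAt)
    (fun e x hx hm => C2.cHess_isHermitian (hq.two hx hm))
    (fun e e' x hx hx' hm => ddc_change hq hx hx' hm) hK hKs
  obtain ⟨C₁, hC₁, b1⟩ := cq (kahOn_curv hσ (hL.mono (subset_univ _)))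
  obtain ⟨C₂, hC₂, b2⟩ := cq (w := ρ) ⟨fun e x hx hm => hr.smooth e x hx (not_not.2 (sub (sΩ hm))),
    fun e x hx hm => (hr.psd e x hx (not_not.2 (sub (sΩ hm)))).posDef_iff_det_ne_zero.2 fun k =>
      (a3 hm).1.2 (by rw [rat_at hh hr hx (sub (sΩ hm)), k, Complex.zero_re, zero_div]),
    fun e e' x hx hx' hm => hr.change e e' x hx hx' (not_not.2 (sub (sΩ hm))),
    fun e x hx hm => hr.closed e x hx (not_not.2 (sub (sΩ hm)))⟩
  obtain ⟨ε, hε, e1, e2, e3⟩ : ∃ ε : ℝ, 0 < ε ∧ ε * C₁ ≤ 1 ∧ ε * C₂ ≤ κ₀ ∧ ε ≤ ε₀ :=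
    ⟨min (1 / C₁) (min (κ₀ / C₂) ε₀), by positivity, (le_div_iff₀ hC₁).1 (min_le_left _ _),
      (le_div_iff₀ hC₂).1 ((min_le_right _ _).trans (min_le_left _ _)),
      (min_le_right _ _).trans (min_le_right _ _)⟩
  set β := ε / (2 * K₀) with hβ
  have β0 : 0 < β := by positivity
  refine ⟨(R ^ 2 * β / 576) ^ (ν + m), max 2 ⌈144 / (R ^ 2 * β)⌉₊, K, chartAt (Cm d) y₀,
    by positivity, hK, fun x hx => ⟨(a3 (hKs hx)).2.1, (sΩ (hKs hx)).2⟩, fun N c hN hc => ?_⟩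
  have n1 : (2 : ℝ) ≤ N := by exact_mod_cast (le_max_left _ _).trans hN
  have n2 : (N : ℝ) ≤ c := by exact_mod_cast hc
  have n3 : 144 ≤ R ^ 2 * (β * N) := by
    have := (Nat.ceil_le.1 ((le_max_right _ _).trans hN))
    rw [div_le_iff₀ (by positivity)] at this
    linarith
  obtain ⟨ι, _, y, V, p1, p2, p3, p4⟩ := pts (τ := Sum.elim (fun _ => β * c) fun _ => β * N) hol hR hb
    (by
      rintro (a | a)
      exacts [n3.trans (by simp only [Sum.elim_inl]; gcongr), n3])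
  set Ψ : ℕ → X → ℝ := fun k x =>
    (N - 1) * Real.log (rat h ρ x + Real.exp (C * ψ x - k)) + c * φ x
  have l0 : ∀ (k : ℕ), ∀ x ∈ Ω, 0 < rat h ρ x + Real.exp (C * ψ x - k) := fun k x hx =>
    add_pos_of_nonneg_of_pos (rat_nn hh hr (sub hx)) (Real.exp_pos _)
  have s0 : ∀ k : ℕ, SmOn (d := d) Ω fun x => C * ψ x - k := fun k =>
    ((smOn_const Ω C).mul H.sm).sub (smOn_const Ω _)
  have s1 : ∀ k : ℕ, SmOn (d := d) Ω fun x => Real.log (rat h ρ x + Real.exp (C * ψ x - k)) :=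
    fun k => ((f0.mono sub).add ((s0 k).comp fun _ _ => Real.contDiff_exp.contDiffAt)).comp
      (f := Real.log) fun x hx => Real.contDiffAt_log.2 (l0 k x hx).ne'
  have s2 : ∀ k, SmOn (d := d) Ω (Ψ k) := fun k =>
    ((smOn_const Ω _).mul (s1 k)).add ((smOn_const Ω _).mul (hφ.mono sub))
  have hM := isMetric_pow (isMetric_canB hh) N
  have key : ∀ (k : ℕ) (e : Chart d X) x, At e x → x ∈ Ω → ∀ Q : Matrix (Fin d) (Fin d) ℂ,
      Q.IsHermitian → (∀ v, Qf Q v ≤ κ₀ * Qf (ρ e (e x)) v ∧ Qf Q v ≤ Qf (curvature L σ e (e x)) v) →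
      ∀ v, (N - 1) * Qf Q v + c * Qf (ddc φ e (e x)) v ≤ Qf (curvature (powL (canB d X) N)
        (powM (kM h) N) e (e x) - kc h e (e x) + ddc (Ψ k) e (e x)) v := by
    intro k e x hx hm Q hQ hQ' v
    have k1 := reg_ge hh hr hO hx (sub hm) hQ
      (fun k v => (hQ' v).1.trans (ric e x hx (sub hm) k v)) ((s0 k).two hx hm) (fun v => by
        have := Qf_nonneg (hC e x hx trivial) v
        rw [ddc_sub_on ((smOn_const Ω C).mul H.sm) (smOn_const Ω _) hx hm, ddc_mul_on C H.sm hx hm,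
          hψ e x hx hm, ddc_const (k : ℝ) e x hx, sub_zero, Qf_add, Qf_smul]
        rw [Qf_sub, Qf_sub, Qf_smul] at this
        linarith [(hQ' v).2]) v
    rw [ddc_add_on ((smOn_const Ω _).mul (s1 k)) ((smOn_const Ω _).mul (hφ.mono sub)) hx hm,
      ddc_mul_on _ (s1 k) hx hm, ddc_mul_on _ (hφ.mono sub) hx hm,
      curvature_pow (isMetric_canB hh) N e x hx]
    beta_reduce
    rw [curvature_canB hh e x hx, Qf_add, Qf_add, Qf_sub, Qf_smul, Qf_smul, Qf_smul]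
    rw [Qf_add] at k1
    nlinarith
  obtain ⟨B, hB⟩ := hK.exists_bound_of_continuousOn
    (f := fun x => (N - 1) * Real.log (rat h ρ x) + c * φ x) ((continuousOn_const.mul
      ((f0.cont.mono fun x hx => sub (sΩ (hKs hx))).log fun x hx => (a3 (hKs hx)).1.2)).add
      (continuousOn_const.mul (hφ.cont.mono fun x hx => sub (sΩ (hKs hx)))))
  refine ⟨ι, inferInstance, inferInstance, y, le_trans (le_of_eq ?_) p1,
    fun j => (p2 j).sub _ (by rw [(p2 j).zero]; exact one_pos), fun i => ?_⟩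
  · rw [Fintype.prod_sum_type]
    simp only [Sum.elim_inl, Sum.elim_inr, Finset.prod_const, Finset.card_univ, Fintype.card_fin]
    rw [show R ^ 2 * (β * c) / 576 = R ^ 2 * β / 576 * c by ring,
      show R ^ 2 * (β * N) / 576 = R ^ 2 * β / 576 * N by ring, mul_pow, mul_pow, pow_add]
    ring
  obtain ⟨G, g1, g2, g3⟩ := E _ _ _ Ψ K (chartAt (Cm d) y₀) ι y V hM s2
    (fun x hx k k' m => add_le_add_left (mul_le_mul_of_nonneg_left (Real.log_le_log (l0 _ x hx)
      (add_le_add_right (Real.exp_le_exp.2 (sub_le_sub_left (by exact_mod_cast m) _)) _))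
      (by linarith)) _)
    (fun k e x hx hm => psd_of_Qf (((curv_herm hM hx).sub ((cform_kc hh).herm e x hx)).add
      (C2.cHess_isHermitian ((s2 k).two hx hm))) fun v => le_trans (by
        rw [Qf_zero, mul_zero, zero_add]
        exact mul_nonneg c.cast_nonneg (Qf_nonneg (hφ' e x hx (sub hm)) v))
        (key k e x hx hm 0 Matrix.isHermitian_zero (fun v => by
          rw [Qf_zero]
          exact ⟨mul_nonneg hκ.le (Qf_nonneg (hr.psd e x hx (not_not.2 (sub hm))) v),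
            Qf_nonneg (hL.psd e x hx trivial) v⟩) v))
    hK (hKs.trans sΩ) (fun x hx => (a3 (hKs hx)).2.1) ⟨B, fun k x hx => by
      have k1 := (abs_le.1 (hB x hx)).1
      have k2 := mul_le_mul_of_nonneg_left (Real.log_le_log ((rat_nn hh hr (sub (sΩ (hKs hx)))).lt_of_ne'
        (a3 (hKs hx)).1.2) (le_add_of_nonneg_right (Real.exp_pos (C * ψ x - k)).le))
        (show (0 : ℝ) ≤ N - 1 by linarith)
      simp only [Ψ]
      linarith⟩ p2 p3 (fun k i e x hx m v => by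
      have hxK := (p2 i).sub x m
      have hs := hKs hxK
      refine le_trans ?_ (key k e x hx (sΩ hs) ((ε : ℂ) • ddc q e (e x))
        (herm_smul ε (C2.cHess_isHermitian (hq.two hx hs))) (fun v => ?_) v)
      · have k1 := (a3 hs).2.2 e hx v
        rw [p4 i e x hx m v, Qf_smul, us_Qf (hol x hs) hx, Fintype.sum_sum_type,
          Fintype.sum_sum_type]
        simp only [Sum.elim_inl, Sum.elim_inr, one_mul, ← Finset.mul_sum, hdd x hs e hx]
        set D₁ := ∑ a, ‖dd (g a) e x (star v)‖ ^ 2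
        set D₂ := ∑ a, ‖dd (fun y => Θ y (.inr a)) e x (star v)‖ ^ 2
        have d1 : 0 ≤ D₁ := Finset.sum_nonneg fun _ _ => sq_nonneg _
        have d2 : 0 ≤ D₂ := Finset.sum_nonneg fun _ _ => sq_nonneg _
        have k2 : K₀ * (β * c * D₁ + β * N * D₂) = ε / 2 * (c * D₁ + N * D₂) := by
          rw [hβ]; field_simp
        have k3 := mul_le_mul_of_nonneg_left ((mul_le_mul_of_nonneg_right e3 d1).trans k1)
          (Nat.cast_nonneg (α := ℝ) c)
        rw [k2]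
        nlinarith [mul_nonneg (mul_nonneg hε.le d1) (Nat.cast_nonneg (α := ℝ) c),
          mul_nonneg (mul_nonneg hε.le d1) (show (0 : ℝ) ≤ N - 1 by linarith),
          mul_nonneg (mul_nonneg hε.le d2) (show (0 : ℝ) ≤ N - 2 by linarith)]
      · have k1 := Qf_nonneg (b1 C₁ le_rfl e x hx hxK) v
        have k2 := Qf_nonneg (b2 C₂ le_rfl e x hx hxK) v
        have k3 := Qf_nonneg (hr.psd e x hx (not_not.2 (sub (sΩ hs)))) v
        have k4 := Qf_nonneg (hL.psd e x hx trivial) v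
        rw [Qf_sub, Qf_smul] at k1 k2
        rw [Qf_smul]
        constructor <;> nlinarith) i
  refine ⟨G, g1, g2, ne_top_of_le_ne_top g3 (setLIntegral_mono'
    (H.isOpen.measurableSet.diff hK.measurableSet) fun x hx => ?_)⟩
  rw [ENNReal.ofReal_mul (nrm_nonneg' _ _ _ x)]
  refine mul_le_mul_right (le_iSup_of_le ⌈C * ψ x⌉₊ (ENNReal.ofReal_le_ofReal
    (Real.exp_le_exp.2 (neg_le_neg ?_)))) _
  have k1 := rat_nn hh hr (sub hx.1)
  have k2 := Real.log_le_log (l0 ⌈C * ψ x⌉₊ x hx.1) (add_le_add_right (Real.exp_le_one_iff.2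
    (sub_nonpos.2 (Nat.le_ceil (C * ψ x)))) (rat h ρ x))
  have k3 := Real.log_nonneg (show 1 ≤ rat h ρ x + 1 by linarith)
  simp only [Ψ]
  nlinarith

end Vale.Agent.P281Z.Lf.Lw
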