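import Vale.Agent.P281Z.Lf.Sk
import Vale.Agent.P281Z.Hm.Pull
import Vale.Agent.P281Z.Hm.Br
import Mathlib.Analysis.InnerProductSpace.GramMatrix

/-!
# P281Z, local sections of the covering, the Hodge metric, the rank
-/

set_option linter.unusedSectionVars false

open scoped Manifold ContDiff Topology ComplexConjugate ComplexOrder Matrix.Norms.Operator
open Set Filter Matrix
open Vale.Agent.P272.K Vale.Agent.P285.H281.FD
open Vale.Agent.P277Z (trans_an)
open Vale.Agent.P284.H395 (IsRho)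
open Vale.Agent.P281Z.Hm

noncomputable section

namespace Vale.Agent.P281Z.Lf

section loc

variable {p : ℕ} {n : Type} [Fintype n] [DecidableEq n] {Q : Mx n} {w : ℕ} {π : Cm p → Gr n}
  {z : Cm p}

theorem omB_sum (w : ℕ) (π : Cm p → Gr n) (z u v : Cm p) : omB w π z u v =
    ∑ j, ∑ k, omB w π z (Pi.single j 1) (Pi.single k 1) * u j * conj (v k) := by
  have e : ∀ v : Cm p, v = ∑ j, v j • (Pi.single j 1 : Cm p) := fun v => by
    ext i
    simp [Finset.sum_apply, Pi.single_apply]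
  conv_lhs => rw [e u, e v]
  simp only [omB, th, ts, wd_sumv, wb_sumv, Finset.sum_mul, Finset.mul_sum, Matrix.mul_neg,
    trace_neg, trace_sum, smul_mul_smul_comm, trace_smul, smul_eq_mul, ← Finset.sum_neg_distrib]
  rw [Finset.sum_comm]
  exact Finset.sum_congr rfl fun j _ => Finset.sum_congr rfl fun k _ => by ring

theorem exists_gram (h : LVAt Q w π z) : ∃ L : Mx n →ₗ[ℂ] EuclideanSpace ℂ (n × n),
    Function.Injective L ∧ ∀ (k : Type) (v : k → Cm p),
      (of fun i j => omB w π z (v j) (v i)) = gram ℂ fun i => L (th w π z (v i)) := by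
  obtain ⟨L, h1, h2⟩ := exists_isoM h.hs0.pos
  exact ⟨L, h1, fun k v => Matrix.ext fun i j => by rw [of_apply, omB, h.ts_eq, gram_apply, h2]⟩

theorem ind_iff (h : LVAt Q w π z) {r : ℕ} (v : Fin r → Cm p) :
    LinearIndependent ℂ (fun j => th w π z (v j)) ↔
      (of fun i j => omB w π z (v j) (v i)).det ≠ 0 := by
  obtain ⟨L, h1, h2⟩ := exists_gram h
  rw [h2, det_gram_ne_zero_iff_linearIndependent]
  exact (L.linearIndependent_iff (LinearMap.ker_eq_bot.2 h1)).symm

theorem an_gram (h : LVAt Q w π z) {r : ℕ} (v : Fin r → Cm p) :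
    AnalyticAt ℝ (fun x => (of fun i j => omB w π x (v j) (v i)).det) z :=
  an_det (an_of fun _ _ => h.an_omB _ _)

theorem omB_closed (h : LVAt Q w π z) (u u' v : Cm p) :
    wd u (fun x => omB w π x u' v) z = wd u' (fun x => omB w π x u v) z := by
  have e : ∀ u u', wd u (fun x => omB w π x u' v) z =
      trace (wd u (fun x => th w π x u') z * ts w π z v) := fun u u' => by
    have d := (h.an_th u').differentiableAt
    have d' := (h.an_ts v).differentiableAt
    unfold omB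
    rw [wd_trace (df_mul d d'), wd_mul d d', h.dts, trace_add, Matrix.mul_sub, trace_sub,
      ← Matrix.mul_assoc, ← Matrix.mul_assoc, trace_mul_cycle _ (ts w π z v), h.cth u u', sub_self,
      add_zero]
  rw [e, e]
  exact congrArg (fun A => trace (A * _)) (wd_wd_comm (an_c2 h.an_J) u u')

end loc

section glob

variable {p : ℕ} {Y : Type} [TopologicalSpace Y] [ChartedSpace (Cm p) Y] {U : Set Y} {C : Cv Y U}
  {e e' : Chart p Y} {σ σ' : Cm p → C.X} {z : Cm p}

theorem exists_sc (e : Chart p Y) (x : C.X) (hx : C.π x ∈ e.source) :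
    ∃ σ, Sc C e σ (e (C.π x)) ∧ σ (e (C.π x)) = x ∧ ∀ᶠ x' in 𝓝 x, σ (e (C.π x')) = x' := by
  obtain ⟨c, h1, h2⟩ := Br.loc C x
  have h3 : ∀ᶠ x' in 𝓝 x, c.symm (e.symm (e (C.π x'))) = x' := by
    filter_upwards [c.open_source.mem_nhds h1,
      (Br.loc C).continuous.continuousAt.eventually_mem (e.open_source.mem_nhds hx)] with x' a b
    rw [e.left_inv b, h2, c.left_inv a]
  refine ⟨fun s => c.symm (e.symm s), ?_, h3.self_of_nhds, h3⟩
  filter_upwards [e.open_target.mem_nhds (e.map_source hx),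
    (e.continuousAt_symm (e.map_source hx)).eventually_mem (c.open_target.mem_nhds
      (by rw [e.left_inv hx, h2]; exact c.map_source h1))] with s a b
  exact ⟨(c.continuousAt_symm b).comp (e.continuousAt_symm a), a, by rw [h2, c.right_inv b]⟩

theorem exists_sc' {y : Y} (hy : y ∈ U) (h : y ∈ e.source) : ∃ σ, Sc C e σ (e y) := by
  obtain ⟨x, rfl⟩ := C.surj y hy
  exact (exists_sc e x h).imp fun _ a => a.1

namespace Sc

theorem ev (h : Sc C e σ z) : ∀ᶠ z' in 𝓝 z, Sc C e σ z' := h.eventually_nhds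

theorem tgt (h : Sc C e σ z) : z ∈ e.target := h.self_of_nhds.2.1

theorem pi (h : Sc C e σ z) : C.π (σ z) = e.symm z := h.self_of_nhds.2.2

theorem mem (h : Sc C e σ z) : e.symm z ∈ U := h.pi ▸ C.mem _

theorem smul (h : Sc C e σ z) (g : C.Γ) : Sc C e (fun x => g • σ x) z :=
  h.mono fun _ a => ⟨(C.csm g).continuousAt.comp a.1, a.2.1, (C.inv g _).trans a.2.2⟩

theorem uniq (h : Sc C e σ z) (h' : Sc C e σ' z) (h0 : σ' z = σ z) : ∀ᶠ x in 𝓝 z, σ' x = σ x := by
  obtain ⟨c, h1, h2⟩ := Br.loc C (σ z)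
  filter_upwards [h, h', h.self_of_nhds.1.eventually_mem (c.open_source.mem_nhds h1),
    h'.self_of_nhds.1.eventually_mem (c.open_source.mem_nhds (h0.symm ▸ h1))] with x a b k k'
  refine c.injOn k' k ?_
  rw [← h2, a.2.2, b.2.2]

theorem two (h : Sc C e σ z) (h' : Sc C e σ' z) : ∃ g : C.Γ, ∀ᶠ x in 𝓝 z, σ' x = g • σ x :=
  (C.tr _ _ (h.pi.trans h'.pi.symm)).imp fun g hg => (h.smul g).uniq h' hg

/-- change of the chart -/
theorem chg (h : Sc C e' σ (e' (e.symm z))) (hz : z ∈ e.target) (hz' : e.symm z ∈ e'.source) :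
    Sc C e (fun x => σ (e' (e.symm x))) z := by
  have c := e.continuousAt_symm hz
  filter_upwards [((e'.continuousAt hz').comp c).eventually h, e.open_target.mem_nhds hz,
    c.eventually_mem (e'.open_source.mem_nhds hz')] with x a b k
  exact ⟨ContinuousAt.comp (f := fun x => e' (e.symm x)) a.1
    ((e'.continuousAt k).comp (e.continuousAt_symm b)), b, a.2.2.trans (e'.left_inv k)⟩

variable [IsManifold 𝓘(ℂ, Cm p) ω Y]

theorem trans (he : e ∈ atlas (Cm p) Y) (hz : z ∈ e.target) (he' : At e' (e.symm z)) :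
    AnalyticAt ℂ (fun x => e' (e.symm x)) z := by
  have := trans_an he' ⟨he, e.map_target hz⟩
  rwa [e.right_inv hz] at this

theorem lift (h : Sc C e σ z) (he : e ∈ atlas (Cm p) Y) : C.Lift p σ z := by
  refine ⟨h.mono fun _ a => a.1, (trans he h.tgt
    ⟨chart_mem_atlas _ (C.π (σ z)), h.pi ▸ mem_chart_source _ _⟩).congr ?_⟩
  filter_upwards [h] with x a
  rw [a.2.2]

variable {n : Type} [Fintype n] [DecidableEq n] (V : GV p C n)

theorem lv (h : Sc C e σ z) (he : e ∈ atlas (Cm p) Y) : LVAt V.Q V.w (fun x => V.gr (σ x)) z :=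
  V.lv _ σ z (h.lift he)

theorem th_smul (h : Sc C e σ z) (he : e ∈ atlas (Cm p) Y) {g : C.Γ}
    (hg : ∀ᶠ x in 𝓝 z, σ' x = g • σ x) (v : Cm p) :
    thS V σ' z v = cz (V.ρ g) * thS V σ z v * cz (V.ρ g⁻¹) ∧
      ts V.w (fun x => V.gr (σ' x)) z v =
        cz (V.ρ g) * ts V.w (fun x => V.gr (σ x)) z v * cz (V.ρ g⁻¹) := by
  have d := (h.lv V he).an_J.differentiableAt
  have k : (fun x => gJ V.w (V.gr (σ' x))) =ᶠ[𝓝 z]
      fun x => cz (V.ρ g) * gJ V.w (V.gr (σ x)) * cz (V.ρ g⁻¹) := hg.mono fun x a => by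
    simp only [a]
    rw [← V.J_eqv, Matrix.mul_assoc, V.r_mul_inv, Matrix.mul_one]
  have d' := df_mul (differentiableAt_const (cz (V.ρ g))) d
  constructor
  · rw [thS, th, wd_congr k, wd_mul_const d', wd_const_mul _ d]
    rfl
  · rw [ts, wb_congr k, wb_mul_const d', wb_const_mul _ d, ts, Matrix.mul_neg, Matrix.neg_mul]

theorem omB_eq (h : Sc C e σ z) (h' : Sc C e σ' z) (he : e ∈ atlas (Cm p) Y) (u v : Cm p) :
    omB V.w (fun x => V.gr (σ' x)) z u v = omB V.w (fun x => V.gr (σ x)) z u v := by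
  obtain ⟨g, hg⟩ := h.two h'
  rw [omB, (h.th_smul V he hg v).2, show th _ _ z u = _ from (h.th_smul V he hg u).1,
    Matrix.mul_assoc _ _ (_ * _), ← Matrix.mul_assoc (cz _) (_ * _), ← Matrix.mul_assoc (cz _),
    V.r_inv_mul, Matrix.one_mul, ← Matrix.mul_assoc, trace_mul_comm, ← Matrix.mul_assoc,
    ← Matrix.mul_assoc, V.r_inv_mul, Matrix.one_mul, omB]

theorem omM_eq (h : Sc C e σ z) (he : e ∈ atlas (Cm p) Y) : omM V e z = of fun j k =>
    omB V.w (fun x => V.gr (σ x)) z (Pi.single j 1) (Pi.single k 1) := by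
  have k : ∃ σ, Sc C e σ z := ⟨σ, h⟩
  rw [omM, dif_pos k]
  exact congrArg of (funext₂ fun _ _ => h.omB_eq V k.choose_spec he _ _)

theorem omM_ev (h : Sc C e σ z) (he : e ∈ atlas (Cm p) Y) (j k : Fin p) :
    (fun x => omB V.w (fun x => V.gr (σ x)) x (Pi.single j 1) (Pi.single k 1)) =ᶠ[𝓝 z]
      fun x => omM V e x j k := h.ev.mono fun x a => by simp only [a.omM_eq V he, of_apply]

theorem qd_omM (h : Sc C e σ z) (he : e ∈ atlas (Cm p) Y) (v : Cm p) :
    qd (omM V e z) v = omH V.w (fun x => V.gr (σ x)) z v := by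
  rw [h.omM_eq V he, omH, omB_sum]
  rfl

theorem ind (h : Sc C e σ z) (h' : Sc C e σ' z) (he : e ∈ atlas (Cm p) Y) {ι : Type}
    {v : ι → Cm p} (hv : LinearIndependent ℂ fun j => thS V σ z (v j)) :
    LinearIndependent ℂ fun j => thS V σ' z (v j) := by
  obtain ⟨g, hg⟩ := h'.two h
  simp only [(h'.th_smul V he hg _).1] at hv
  exact LinearIndependent.of_comp
    ((LinearMap.mulRight ℂ (cz (V.ρ g⁻¹))).comp (LinearMap.mulLeft ℂ (cz (V.ρ g)))) hv

theorem th_chg (h : Sc C e' σ (e' (e.symm z))) (he : e ∈ atlas (Cm p) Y) (hz : z ∈ e.target)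
    (he' : At e' (e.symm z)) (v : Cm p) :
    thS V (fun x => σ (e' (e.symm x))) z v =
        thS V σ (e' (e.symm z)) (fderiv ℂ (fun x => e' (e.symm x)) z v) ∧
      ts V.w (fun x => V.gr (σ (e' (e.symm x)))) z v =
        ts V.w (fun x => V.gr (σ x)) (e' (e.symm z)) (fderiv ℂ (fun x => e' (e.symm x)) z v) :=
  ⟨LVAt.th_pull (g := fun x => e' (e.symm x)) (h.lv V he'.1) (trans he hz he') v,
    LVAt.ts_pull (g := fun x => e' (e.symm x)) (h.lv V he'.1) (trans he hz he') v⟩

theorem rk1 (h : Sc C e σ z) (he : e ∈ atlas (Cm p) Y) {r : ℕ} {v : Fin r → Cm p}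
    (hv : LinearIndependent ℂ fun j => thS V σ z (v j)) : RkAt V r (e.symm z) := by
  intro e' he' σ' h'
  have := h.ind V (h'.chg h.tgt he'.2) he hv
  simp only [(h'.th_chg V he h.tgt he' _).1] at this
  exact ⟨_, this⟩

theorem rk_iff (h : Sc C e σ z) (he : e ∈ atlas (Cm p) Y) (r : ℕ) : RkAt V r (e.symm z) ↔
    ∃ v : Fin r → Cm p, LinearIndependent ℂ fun j => thS V σ z (v j) := by
  refine ⟨fun k => ?_, fun ⟨_, hv⟩ => h.rk1 V he hv⟩
  have := k e ⟨he, e.map_target h.tgt⟩ σ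
  rw [e.right_inv h.tgt] at this
  exact this h

end Sc

variable [IsManifold 𝓘(ℂ, Cm p) ω Y] {n : Type} [Fintype n] [DecidableEq n] (V : GV p C n)

theorem isRho_omM : IsRho Uᶜ p (omM V) where
  smooth e x he hx i j := by
    obtain ⟨σ, h⟩ := exists_sc' (C := C) (not_not.1 hx) he.2
    exact (((h.lv V he.1).an_omB _ _).congr (h.omM_ev V he.1 i j)).contDiffAt
  change e e' x he he' hx := by
    obtain ⟨σ, h⟩ := exists_sc' (C := C) (not_not.1 hx) he'.2
    have k := e.left_inv he.2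
    have hz := e.map_source he.2
    have k1 : At e' (e.symm (e x)) := k.symm ▸ he'
    have k2 : Sc C e' σ (e' (e.symm (e x))) := k.symm ▸ h
    have d := (Sc.trans he.1 hz k1).differentiableAt
    have hJ : ∀ a j, jacM e e' x a j =
        fderiv ℂ (fun x => e' (e.symm x)) (e x) (Pi.single j 1) a := fun a j => by
      rw [jacM, of_apply, ← wd_single, ← wd_hol d, wd_crd (d.restrictScalars ℝ)]
    rw [(k2.chg hz k1.2).omM_eq V he.1, h.omM_eq V he'.1]
    ext j l
    rw [of_apply, omB, show th _ _ _ _ = _ from (k2.th_chg V he.1 hz k1 _).1,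
      (k2.th_chg V he.1 hz k1 _).2, k, ← omB, omB_sum, Finset.sum_comm]
    simp only [Matrix.mul_apply, transpose_apply, map_apply, of_apply, hJ, Finset.sum_mul]
    exact Finset.sum_congr rfl fun _ _ => Finset.sum_congr rfl fun _ _ => by ring
  closed e x he hx i j k := by
    obtain ⟨σ, h⟩ := exists_sc' (C := C) (not_not.1 hx) he.2
    rw [← wd_single, ← wd_single, ← wd_congr (h.omM_ev V he.1 i j),
      ← wd_congr (h.omM_ev V he.1 k j), omB_closed (h.lv V he.1)]
  psd e x he hx := by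
    obtain ⟨σ, h⟩ := exists_sc' (C := C) (not_not.1 hx) he.2
    obtain ⟨L, -, hL⟩ := exists_gram (h.lv V he.1)
    have := (posSemidef_gram ℂ fun i : Fin p => L (thS V σ (e x) (Pi.single i 1))).transpose
    rw [← hL] at this
    rw [h.omM_eq V he.1]
    exact this
  rank e x _ _ := rank_le_width _

theorem isOpen_rk (r : ℕ) : IsOpen {y | y ∈ U ∧ RkAt V r y} := by
  refine isOpen_iff_mem_nhds.2 fun y ⟨h1, h2⟩ => ?_
  have hs := mem_chart_source (Cm p) y
  have he := chart_mem_atlas (Cm p) y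
  obtain ⟨σ, h⟩ := exists_sc' (C := C) h1 hs
  obtain ⟨v, hv⟩ := h2 _ ⟨he, hs⟩ σ h
  filter_upwards [((chartAt _ y).continuousAt hs).eventually (h.ev.and
    ((an_gram (h.lv V he) v).continuousAt.eventually_ne ((ind_iff (h.lv V he) v).1 hv))),
    (chartAt _ y).open_source.mem_nhds hs] with x a b
  rw [← (chartAt _ y).left_inv b]
  exact ⟨a.1.mem, a.1.rk1 V he ((ind_iff (a.1.lv V he) v).2 a.2)⟩

theorem freq_rk {r : ℕ} (h : ∃ y ∈ U, RkAt V r y) (x : C.X) :
    ∃ᶠ x' in 𝓝 x, RkAt V r (C.π x') := by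
  intro hx
  obtain ⟨y, h1, h2⟩ := h
  obtain ⟨x₀, rfl⟩ := C.surj y h1
  refine Eventually.self_of_nhds (p := fun x => ¬ RkAt V r (C.π x)) ((IsClopen.eq_univ
    ⟨isClosed_of_closure_subset fun x hx => ?_, isOpen_setOfPred_eventually_nhds⟩
    ⟨x, hx⟩).ge trivial) h2
  have hs := mem_chart_source (Cm p) (C.π x)
  have he := chart_mem_atlas (Cm p) (C.π x)
  set e := chartAt (Cm p) (C.π x)
  have hc := (Br.loc C).continuous
  have hz := (e.continuousAt hs).comp hc.continuousAt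
  obtain ⟨σ, k1, -, k3⟩ := exists_sc e x hs
  obtain ⟨ρ, hρ, k4⟩ := Metric.eventually_nhds_iff_ball.1 k1.ev
  have k5 := hz.eventually_mem (Metric.ball_mem_nhds _ hρ)
  obtain ⟨x', a, b, c⟩ := ((mem_closure_iff_frequently.1 hx).and_eventually (k3.and k5)).exists
  have k6 := fun v : Fin r → Cm p => AnalyticOnNhd.eqOn_zero_of_preconnected_of_eventuallyEq_zero
    (fun z hz => an_gram ((k4 z hz).lv V he) v) (convex_ball _ _).isPreconnected c (by
      filter_upwards [(k4 _ c).self_of_nhds.1.eventually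
        (p := fun x => ¬ RkAt V r (C.π x)) (b.symm ▸ a :), (k4 _ c).ev] with z l1 l2
      exact not_not.1 fun l3 => l1 (l2.pi ▸ l2.rk1 V he ((ind_iff (l2.lv V he) v).2 l3)))
  filter_upwards [k3, k5] with w l1 l2 l3
  rw [← l1, (k4 (e (C.π w)) l2).pi] at l3
  obtain ⟨v, hv⟩ := ((k4 (e (C.π w)) l2).rk_iff V he r).1 l3
  exact (ind_iff ((k4 (e (C.π w)) l2).lv V he) v).1 hv (k6 v l2)

theorem exists_max : ∃ r, RkLe V r ∧ ∃ y ∈ U, RkAt V r y := by
  by_contra h
  have k : ∀ r, ∃ y ∈ U, RkAt V r y := fun r => by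
    induction r with
    | zero =>
      exact ⟨_, C.mem (Classical.arbitrary _), fun _ _ _ _ => ⟨0, linearIndependent_empty_type⟩⟩
    | succ r ih =>
      by_contra k
      exact h ⟨r, fun e he σ z a v hv => k ⟨_, a.mem, a.rk1 V he hv⟩, ih⟩
  obtain ⟨y, h1, h2⟩ := k (p + 1)
  obtain ⟨σ, a⟩ := exists_sc' (C := C) h1 (mem_chart_source (Cm p) y)
  obtain ⟨v, hv⟩ := h2 _ ⟨chart_mem_atlas _ y, mem_chart_source _ y⟩ σ a
  simpa using (LinearIndependent.of_comp (thL _ _ _) hv).fintype_card_le_finrank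

omit [IsManifold 𝓘(ℂ, Cm p) ω Y] in
theorem dense_U (S : Hm.Snc p Y) : Dense S.U := fun y => by
  have hs := mem_chart_source (Cm p) y
  have h : Dense (Set.pi univ fun _ : Fin p => ({0}ᶜ : Set ℂ)) :=
    dense_pi univ fun _ _ => dense_compl_singleton 0
  have h1 := mem_closure_iff_frequently.1 (h (chartAt (Cm p) y y))
  rw [← (chartAt (Cm p) y).map_nhds_eq hs, frequently_map] at h1
  refine mem_closure_iff_frequently.2 ((h1.and_eventually (eventually_all.2 (S.snc y))).mono ?_)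
  rintro x ⟨a, b⟩ l hl
  obtain ⟨i, -, c⟩ := (b l).1 hl
  exact a i trivial c

end glob

theorem omm : OMM := fun _ _ S C _ _ _ V =>
  { ex := fun e x h => exists_sc e x h.2
    lift := fun _ he _ _ h => ⟨h.lift he, h.ev⟩
    two := fun _ _ _ _ _ h h' => h.two h'
    hs := V.hs
    rho := isRho_omM V
    eq := fun _ he _ _ h => ⟨h.omM_eq V he, h.qd_omM V he⟩
    rk1 := fun _ _ he _ _ h ⟨_, hv⟩ => h.rk1 V he hv
    opn := isOpen_rk V
    dense := fun r h => dense_closure.1 ((dense_U S).mono fun y hy => by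
      obtain ⟨x, rfl⟩ := C.surj y hy
      exact mem_closure_iff_frequently.2 ((Br.loc C).continuous.continuousAt.tendsto.frequently
        ((freq_rk V h x).mono fun x' a => ⟨C.mem x', a⟩)))
    max := exists_max V
    hY := fun _ L _ _ h => L.hY_eq h }

theorem omm_of : StPull → StLip → OMM := fun _ _ => omm

end Vale.Agent.P281Z.Lf
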