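import Vale.Agent.P281Z.Lf.LowC
import Vale.Agent.P281Z.Lf.Nef
import Vale.Agent.P281Z.Lf.Omm
import Vale.Agent.P281Z.Hm.Ric
import Vale.Agent.P281Z.Hm.Cpt
import Vale.Agent.P281Z.Hm.Gram

/-!
# P281Z, row LOW: local facts on the variation
-/

open scoped Manifold ContDiff ComplexOrder Topology Matrix ComplexConjugate Matrix.Norms.Operator
open Filter Set Matrix

set_option linter.unusedSectionVars false

noncomputable section

namespace Vale.Agent.P281Z.Lf.Lw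

open Vale.Agent.P272.K Vale.Agent.P301.H599 Vale.Agent.P285Z Vale.Agent.P285Z.G1
open Vale.Agent.P277Z.Van
open Vale.Agent.P277Z (Hol)
open Vale.Agent.P277Z.Slc (dd Ind)
open Vale.Agent.P301.H98 (nrm)
open Vale.Agent.P277Z.Van.Ka (rat det_pos)
open Vale.Agent.P284Z (levi)
open Vale.Agent.P281Z.Hm (Mx Gr LVAt LnAt th thL omB omH hn gH kap kerL)

variable {d : ℕ}

theorem Qf_qd (Θ : Matrix (Fin d) (Fin d) ℂ) (v : Cm d) : Qf Θ v = qd Θ (star v) := by
  simp only [Qf, qd, dotProduct, mulVec, Finset.mul_sum, Pi.star_apply, RCLike.star_def,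
    Complex.conj_conj]
  exact congrArg _ (Finset.sum_congr rfl fun j _ => Finset.sum_congr rfl fun k _ => by ring)

theorem Qf_levi {u : Cm d → ℝ} {z : Cm d} (hu : ContDiffAt ℝ 2 u z) (v : Cm d) :
    Qf (cHess u z) v = levi u z (star v) / 4 := by
  rw [Qf, P284Z.cHess_quad hu, Complex.ofReal_re]

theorem det_bd {A : Matrix (Fin d) (Fin d) ℂ} (hA : A.PosSemidef) (s : Fin d → ℂ) {B : ℝ}
    (h : ∀ i, ‖s i‖ ^ 2 * qd A (Pi.single i 1) ≤ B) :
    A.det.re * ‖∏ i, s i‖ ^ 2 ≤ (d * B) ^ d := by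
  have h1 := hA.conjTranspose_mul_mul_same (diagonal s)
  have h2 : ((diagonal s)ᴴ * A * diagonal s).det.re = A.det.re * ‖∏ i, s i‖ ^ 2 := by
    rw [det_mul, det_mul, det_conjTranspose, det_diagonal, mul_right_comm, RCLike.star_def,
      Complex.conj_mul', ← Complex.ofReal_pow, Complex.re_ofReal_mul, mul_comm]
  have h3 : ((diagonal s)ᴴ * A * diagonal s).trace.re ≤ d * B := by
    rw [trace, Complex.re_sum]
    refine (Finset.sum_le_card_nsmul _ _ B fun i _ => le_trans (le_of_eq ?_) (h i)).trans_eq (by simp)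
    rw [diag_apply, mul_diagonal, diagonal_conjTranspose, diagonal_mul, mul_right_comm,
      Pi.star_apply, RCLike.star_def, Complex.conj_mul', ← Complex.ofReal_pow, Complex.re_ofReal_mul]
    simp [qd, Pi.single_apply]
  rw [← h2, h1.1.det_eq_prod_eigenvalues, ← RCLike.ofReal_prod]
  rw [h1.1.trace_eq_sum_eigenvalues, ← RCLike.ofReal_sum] at h3
  exact (Finset.prod_le_prod (s := .univ) (fun i _ => h1.eigenvalues_nonneg i) fun i _ =>
    (Finset.single_le_sum (fun i _ => h1.eigenvalues_nonneg i) (Finset.mem_univ i)).trans h3).trans_eq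
    (by simp)

section loc

variable {n : Type} [Fintype n] [DecidableEq n] {Q : Mx n} {w : ℕ} {π : Cm d → Gr n}
  {ψ : Cm d → n → ℂ} {z : Cm d}

theorem ric_loc (h : LVAt Q w π z) {ρ : Cm d → Matrix (Fin d) (Fin d) ℂ}
    (e : ∀ᶠ x in 𝓝 z, (ρ x).PosSemidef ∧
      ρ x = of fun j k => omB w π x (Pi.single j 1) (Pi.single k 1)) (h0 : (ρ z).det ≠ 0)
    (v : Cm d) :
    (kap w n)⁻¹ * omH w π z (star v) ≤ Qf (cHess (fun x => Real.log (ρ x).det.re) z) v := by
  have e1 : ∀ᶠ x in 𝓝 z, (ρ x).det =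
      (of fun i j : Fin d => omB w π x (Pi.single j 1) (Pi.single i 1)).det :=
    e.mono fun x k => by rw [k.2, ← det_transpose]; rfl
  obtain ⟨-, a1, a2⟩ := Hm.stRic Hm.stGram _ _ _ _ _ _ h _ (fun i : Fin d => Pi.single i 1)
    ((ind_iff h _).2 (e1.self_of_nhds ▸ h0))
  have e2 : (fun x => Real.log (ρ x).det.re) =ᶠ[𝓝 z] fun x => Real.log
      ‖(of fun i j : Fin d => omB w π x (Pi.single j 1) (Pi.single i 1)).det‖ :=
    (e.and e1).mono fun x k => by
      beta_reduce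
      rw [← k.2, Complex.re_eq_norm.2 k.1.1.det_nonneg]
  have a3 := (a2 (star v)).2 (by
    rw [show th w π z (star v) = thL w π z (star v) from rfl, ← Finset.univ_sum_single (star v),
      map_sum]
    refine Submodule.sum_mem _ fun i _ => ?_
    rw [← mul_one (star v i), ← smul_eq_mul, Pi.single_smul, map_smul]
    exact Submodule.smul_mem _ _ (Submodule.subset_span ⟨i, rfl⟩))
  rw [C2.cHess_congr e2, Qf_levi a1.contDiffAt]
  rw [div_eq_mul_inv] at a3
  linarith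

theorem det_ne (h : LVAt Q w π z) {v : Fin d → Cm d}
    (hv : LinearIndependent ℂ fun j => th w π z (v j)) :
    (of fun j k : Fin d => omB w π z (Pi.single j 1) (Pi.single k 1)).det ≠ 0 := by
  have h1 : LinearIndependent ℂ v := LinearIndependent.of_comp (thL w π z) hv
  have h2 : (thL w π z).ker = ⊥ := LinearMap.ker_eq_bot'.2 fun u hu => by
    obtain ⟨c, rfl⟩ := (Submodule.mem_span_range_iff_exists_fun ℂ).1
      ((h1.span_eq_top_of_card_eq_finrank' (by simp)).ge (Submodule.mem_top (x := u)))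
    rw [map_sum] at hu
    simp only [map_smul] at hu
    simp [Fintype.linearIndependent_iff.1 hv c hu]
  have h3 := (Pi.basisFun ℂ (Fin d)).linearIndependent.map' _ h2
  rw [show ⇑(Pi.basisFun ℂ (Fin d)) = fun i => Pi.single i 1 from funext (Pi.basisFun_apply _ _)] at h3
  have h4 := (ind_iff h fun i => Pi.single i 1).1 h3
  rwa [← det_transpose] at h4

theorem lin_loc (h : LVAt Q w π z) (l : LnAt w π ψ z) {ν : ℕ}
    (hν : Module.finrank ℂ (kerL ψ z) + ν = d) : ∃ (F : Cm d → Cm ν) (ε : ℝ), 0 < ε ∧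
      AnalyticAt ℂ F z ∧ Function.Surjective (fderiv ℂ F z) ∧ ∀ᶠ y in 𝓝 z, ∀ v,
        ε * ‖fderiv ℂ F y v‖ ^ 2 ≤
          levi (fun x => -Real.log (hn (gH Q w (π x)) (ψ x))) y v := by
  obtain ⟨k, hk⟩ := Function.ne_iff.1 l.ne
  have a0 : AnalyticAt ℂ (fun x => ψ x k) z := analyticAt_pi_iff.1 l.an k
  have a1 : AnalyticAt ℂ (fun x => (ψ x k)⁻¹ • ψ x) z := (a0.fun_inv hk).fun_smul l.an
  set G := fun x => (ψ x k)⁻¹ • ψ x
  have dG : ∀ y, AnalyticAt ℂ ψ y → ψ y k ≠ 0 → ∀ v, fderiv ℂ G y v =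
      (ψ y k)⁻¹ • fderiv ℂ ψ y v - ((ψ y k ^ 2)⁻¹ * fderiv ℂ ψ y v k) • ψ y := fun y a b v => by
    have c := a.differentiableAt.hasFDerivAt
    rw [show fderiv ℂ G y = _ from
      (((hasDerivAt_inv b).comp_hasFDerivAt y (hasFDerivAt_pi'.1 c k)).fun_smul c).fderiv]
    simp [sub_eq_add_neg]
  have r1 : ν ≤ Module.finrank ℂ (fderiv ℂ G z : Cm d →ₗ[ℂ] n → ℂ).range := by
    have k1 := (fderiv ℂ G z : Cm d →ₗ[ℂ] n → ℂ).finrank_range_add_finrank_ker
    have k2 : (fderiv ℂ G z : Cm d →ₗ[ℂ] n → ℂ).ker ≤ kerL ψ z := fun v hv => by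
      have k3 : fderiv ℂ G z v = 0 := hv
      rw [dG z l.an hk, sub_eq_zero, inv_smul_eq_iff₀ hk, smul_smul] at k3
      exact Submodule.mem_span_singleton.2 ⟨_, k3.symm⟩
    have k3 := Submodule.finrank_mono k2
    rw [Module.finrank_fin_fun] at k1
    omega
  obtain ⟨j, hj⟩ := (finrank_le_iff_exists_linearMap (R := ℂ) (M := Cm ν)).1
    ((Module.finrank_fin_fun ℂ).trans_le r1)
  obtain ⟨L₀, hL⟩ := ((fderiv ℂ G z : Cm d →ₗ[ℂ] n → ℂ).range.subtype ∘ₗ j).exists_leftInverse_of_injective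
    (LinearMap.ker_eq_bot.2 (Subtype.val_injective.comp hj))
  set L := LinearMap.toContinuousLinearMap L₀
  have dF : ∀ y, AnalyticAt ℂ G y → fderiv ℂ (fun x => L (G x)) y = L ∘L fderiv ℂ G y :=
    fun y a => (L.hasFDerivAt.comp y a.differentiableAt.hasFDerivAt).fderiv
  obtain ⟨B, hB, b1⟩ := Hm.Cp.bounds Q (Fintype.card n * (‖gH Q w (π z)‖ + 1))
  have c1 : ContinuousAt (fun y => (‖L‖ * (‖(ψ y k)⁻¹‖ + ‖(ψ y k ^ 2)⁻¹‖ * ‖ψ y‖)) ^ 2 *
      hn (gH Q w (π y)) (ψ y)) z :=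
    ((continuousAt_const.mul ((a0.continuousAt.inv₀ hk).norm.add
      (((a0.continuousAt.pow 2).inv₀ (pow_ne_zero 2 hk)).norm.mul l.an.continuousAt.norm))).pow 2).mul
      (Hm.stLine _ _ _ _ _ _ _ h l).1.continuousAt
  obtain ⟨C, hC, c2⟩ := bdd_near c1
  refine ⟨fun x => L (G x), 4 / (C * B), by positivity, (L.analyticAt _).comp a1, fun t => ?_, ?_⟩
  · obtain ⟨v, hv⟩ := (j t).2
    refine ⟨v, ?_⟩
    rw [dF z a1, ContinuousLinearMap.comp_apply, show fderiv ℂ G z v = _ from hv]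
    exact LinearMap.congr_fun hL t
  filter_upwards [h.ev, l.ev, a1.eventually_analyticAt, a0.continuousAt.eventually_ne hk, c2,
    h.an_H.continuousAt.norm.eventually (gt_mem_nhds (lt_add_one _))] with y k1 k2 k3 k4 k5 k6 v
  obtain ⟨-, k7, k8⟩ := Hm.stLine _ _ _ _ _ _ _ k1 k2
  obtain ⟨c, hc⟩ := Hm.LineH.der k1 k2 v
  set η := th w π y v *ᵥ ψ y
  have k9 := (b1 _ (Hm.Cp.mem_HS k1.hs0 fun s => (Hm.Cp.hn_le _ s).trans (by gcongr))).1 η
  have e1 : fderiv ℂ G y v = (ψ y k)⁻¹ • η - ((ψ y k ^ 2)⁻¹ * η k) • ψ y := by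
    rw [dG y k2.an k4, hc]
    ext i
    simp only [Pi.sub_apply, Pi.smul_apply, Pi.add_apply, smul_eq_mul]
    field_simp
    ring
  have e2 : ‖L (fderiv ℂ G y v)‖ ≤ ‖L‖ * (‖(ψ y k)⁻¹‖ + ‖(ψ y k ^ 2)⁻¹‖ * ‖ψ y‖) * ‖η‖ := by
    rw [mul_assoc]
    refine (L.le_opNorm _).trans (mul_le_mul_of_nonneg_left ?_ (norm_nonneg _))
    rw [e1, add_mul]
    refine (norm_sub_le _ _).trans (add_le_add (norm_smul_le _ _) ?_)
    rw [norm_smul, norm_mul, mul_right_comm]
    gcongr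
    exact norm_le_pi_norm η k
  rw [(k8 v).1, dF y k3, ContinuousLinearMap.comp_apply, div_mul_eq_mul_div, mul_div_assoc]
  refine mul_le_mul_of_nonneg_left ((div_le_div_iff₀ (by positivity) k7).2 ?_) (by norm_num)
  have e3 := mul_le_mul_of_nonneg_right (pow_le_pow_left₀ (norm_nonneg _) e2 2) k7.le
  have e4 := mul_le_mul k5 k9 (sq_nonneg _) hC.le
  rw [mul_pow] at e3
  linarith

end loc

open Nf

variable {D : Zd d} {h : Fm d D.Z.X}

theorem ric (hh : IsHermitian h) (e : Chart d D.Z.X) (x : D.Z.X) (he : At e x) (hx : x ∈ D.S.U)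
    (h0 : rat h (omM D.V) x ≠ 0) (v : Cm d) : (kap D.V.w D.n)⁻¹ * Qf (omM D.V e (e x)) v ≤
      Qf (cHess (fun z => Real.log (omM D.V e z).det.re) (e x)) v := by
  obtain ⟨σ, hσ⟩ := exists_sc' (C := D.C) hx he.2
  rw [Qf_qd, hσ.qd_omM D.V he.1]
  refine ric_loc (hσ.lv D.V he.1) (hσ.ev.mono fun z k => ⟨?_, k.omM_eq D.V he.1⟩) (fun k => h0 ?_) v
  · have := (isRho_omM D.V).psd e _ (At.of_target he.1 k.tgt) (not_not.2 k.mem)
    rwa [e.right_inv k.tgt] at this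
  · rw [rat_at hh (isRho_omM D.V) he hx, k, Complex.zero_re, zero_div]

theorem loc (hD : D.Ok) {ν : ℕ} (hν : D.Nu ν) (hh : IsHermitian h) :
    ∃ y ∈ D.S.U, rat h (omM D.V) y ≠ 0 ∧ ν ≤ d ∧ ∃ (g : Fin ν → D.Z.X → ℂ) (ε : ℝ), 0 < ε ∧
      Ind d g y ∧ ∀ᶠ x in 𝓝 y, ∀ e : Chart d D.Z.X, At e x → ∀ v,
        ε * ∑ a, ‖dd (g a) e x (star v)‖ ^ 2 ≤
          Qf (ddc (fun x => D.a * -Real.log (D.L.hY () x)) e (e x)) v := by
  obtain ⟨-, y, hy, h1, h2⟩ := hν
  have he := atChart (d := d) y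
  set c := chartAt (Cm d) y
  obtain ⟨σ, hσ⟩ := exists_sc' (C := D.C) hy he.2
  obtain ⟨v, hv⟩ := h1 c he σ hσ
  have h3 := h2 () c he σ hσ
  obtain ⟨F, ε, hε, a1, a2, a3⟩ := lin_loc (hσ.lv D.V he.1)
    (D.L.ln () _ σ _ (hσ.lift he.1) trivial) h3
  have hd : ∀ (e : Chart d D.Z.X) x, At e x → At c x → AnalyticAt ℂ F (c x) → ∀ a v,
      dd (fun x => F (c x) a) e x v = fderiv ℂ F (c x) (P277Z.Slc.tr c e x v) a :=
    fun e x k1 k2 k3 a v => by
      have k4 := (P277Z.trans_an k2 k1).differentiableAt.hasFDerivAt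
      have k5 : HasFDerivAt F (fderiv ℂ F (c x)) (c (e.symm (e x))) := by
        rw [k1.left_inv]; exact k3.differentiableAt.hasFDerivAt
      rw [show dd (fun x => F (c x) a) e x = _ from (hasFDerivAt_pi'.1 (k5.comp (e x) k4) a).fderiv]
      rfl
  refine ⟨y, hy, fun k => det_ne (hσ.lv D.V he.1) hv ?_, by omega, fun a x => F (c x) a,
    ε / (4 * (ν + 1)), by positivity, Ind.of_chart (fun a =>
      P277Z.hol_comp (f := fun z => F z a) he (analyticAt_pi_iff.1 a1 a)) he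
      ((P277Z.Slc.ind_iff_surj _).2 fun t => ?_), ?_⟩
  · rw [rat_at hh (isRho_omM D.V) he hy, div_eq_zero_iff,
      or_iff_left (det_pos (hh.posDef c y he)).ne'] at k
    rw [← hσ.omM_eq D.V he.1, ← norm_eq_zero,
      ← Complex.re_eq_norm.2 ((isRho_omM D.V).psd c y he (not_not.2 hy)).det_nonneg, k]
  · obtain ⟨u, hu⟩ := (a2.comp (P277Z.Slc.tr_surj he he)) t
    exact ⟨u, funext fun a => (hd c y he he a1 a u).trans (congrFun hu a)⟩
  filter_upwards [(c.continuousAt he.2).eventually (a3.and (hσ.ev.and a1.eventually_analyticAt)),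
    at_near he] with x ⟨k1, k2, k3⟩ k4 e k5 v
  have t := P277Z.trans_an k4 k5
  obtain ⟨b1, b2, -⟩ := Hm.stLine _ _ _ _ _ _ _ (k2.lv D.V he.1)
    (D.L.ln () _ σ _ (k2.lift he.1) trivial)
  set u := fun z => -Real.log (hn (gH D.V.Q D.V.w (D.V.gr (σ z))) (D.L.ψ () (σ z)))
  have s1 : ContDiffAt ℝ 2 u (c (e.symm (e x))) := by
    rw [k5.left_inv]; exact (b1.contDiffAt.log b2.ne').neg
  have s2 : ContDiffAt ℝ 2 (fun z => u (c (e.symm z))) (e x) :=
    ContDiffAt.comp (g := u) (e x) s1 (t.restrictScalars (𝕜 := ℝ)).contDiffAt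
  have e1 : (fun z => D.a * -Real.log (D.L.hY () (e.symm z))) =ᶠ[𝓝 (e x)]
      fun z => D.a * u (c (e.symm z)) :=
    ev_sym k5 (P := fun x => D.a * -Real.log (D.L.hY () x) = D.a * u (c x)) (by
      filter_upwards [(c.continuousAt k4.2).eventually k2, at_near k4] with z m1 m2
      have m3 := D.L.hY_eq (i := ()) (x := σ (c z)) trivial
      rw [m1.2.2, m2.left_inv] at m3
      rw [m3]
      rfl)
  rw [ddc, C2.cHess_congr e1, C2.cHess_const_mul _ s2, Qf_smul, Qf_levi s2,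
    Hm.levi_comp (g := fun z => c (e.symm z)) s1 t, k5.left_inv]
  simp only [hd e x k5 k4 k3]
  have k6 := k1 (P277Z.Slc.tr c e x (star v))
  set W := fderiv ℂ F (c x) (P277Z.Slc.tr c e x (star v))
  have k7 : ∑ a, ‖W a‖ ^ 2 ≤ (ν + 1) * ‖W‖ ^ 2 :=
    (Finset.sum_le_card_nsmul _ _ _ fun a _ =>
      pow_le_pow_left₀ (norm_nonneg _) (norm_le_pi_norm W a) 2).trans (by
        rw [Finset.card_fin, nsmul_eq_mul]; gcongr; linarith)
  have k8 : (1 : ℝ) ≤ D.a := by exact_mod_cast hD.pos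
  refine (mul_le_mul_of_nonneg_left k7 (by positivity)).trans (le_trans ?_ (mul_le_mul k8
    (div_le_div_of_nonneg_right k6 (by norm_num)) (by positivity) (by positivity)))
  exact le_of_eq (by field_simp)

/-- the exponents of the reduced divisor -/
def one {κ : Type} [DecidableEq κ] (T : Finset κ) : κ → ℤ := fun l => if l ∈ T then 1 else 0

theorem sec_one (hD : D.Ok) (T : Finset (Fin D.S.r)) :
    SecOn (toL (lbO hD (one T))) univ (sg D (one T)) :=
  sec_sg hD _ fun _ _ l => .inl (by unfold one; split_ifs <;> simp)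

theorem bd0 (hD : D.Ok) (hS : SNCB) (hP : D.V.Poin) {T : Finset (Fin D.S.r)}
    (hT : ∀ l ∉ T, D.V.Scalar l) {x : D.Z.X} (hx : ∀ l l', x ∈ D.S.G l → x ∈ D.S.G l' → l = l')
    {i} (hi : x ∈ (toL (lbO hD (one T))).U i) : ∃ C : ℝ, ∀ᶠ y in 𝓝 x, y ∈ D.S.U →
      (omM D.V (chartAt (Cm d) x) (chartAt (Cm d) x y)).det.re * ‖sg D (one T) i y‖ ^ 2 ≤ C := by
  classical
  have he := atChart (d := d) x
  set e := chartAt (Cm d) x
  have psd : ∀ y, At e y → y ∈ D.S.U → (omM D.V e (e y)).PosSemidef := fun y a b =>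
    (isRho_omM D.V).psd e y a (not_not.2 b)
  by_cases k : ∃ l ∉ T, x ∈ D.S.G l
  · obtain ⟨l, k1, k2⟩ := k
    obtain ⟨B, hB⟩ := hT l k1 x ⟨k2, fun l' a b => a (hx _ _ b k2)⟩
    obtain ⟨C, -, hC⟩ := bdd_near ((Lm.contAt he.2
      ((sec_one hD T).holo i e x he hi trivial).continuousAt).norm.pow 2)
    refine ⟨(d * B) ^ d * C, ?_⟩
    filter_upwards [(e.continuousAt he.2).eventually hB, hC, at_near he] with y a1 a2 a3 hy
    obtain ⟨σ, hσ⟩ := exists_sc' (C := D.C) hy a3.2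
    have a4 := det_bd (psd y a3 hy) (fun _ => 1) (B := B) fun j => by
      simpa [hσ.qd_omM D.V he.1, Pi.norm_single] using a1 σ hσ (Pi.single j 1)
    rw [Finset.prod_const_one, norm_one, one_pow, mul_one] at a4
    exact mul_le_mul a4 a2 (sq_nonneg _)
      ((Complex.le_def.1 (psd y a3 hy).det_nonneg).1.trans a4)
  obtain ⟨B, hB⟩ := hP x
  choose c C hc H using fun l => (hS d D.Z D.S).2 x l _ ((hD.div l).leq _ x (hi l))
  have h1 : ∀ j, ∀ᶠ y in 𝓝 x, j ∈ D.S.K x → ‖e y j‖ ≤ 1 := fun j =>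
    eventually_imp_distrib_left.2 fun hj => ((continuous_apply j).continuousAt.comp
      (e.continuousAt he.2)).norm.eventually (ge_mem_nhds (by simp [e, D.S.zero_K hj]))
  refine ⟨(d * (|B| * 2)) ^ d * (∏ l, (|C l| + 1)) ^ 2, ?_⟩
  filter_upwards [(e.continuousAt he.2).eventually hB, eventually_all.2 H, eventually_all.2 h1,
    D.S.ev_U x, at_near he] with y a1 a2 a3 a4 a5 hy
  obtain ⟨σ, hσ⟩ := exists_sc' (C := D.C) hy a5.2
  have b1 := det_bd (psd y a5 hy) (fun j => if j ∈ D.S.K x then e y j else 1) (B := |B| * 2)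
    fun j => by
      have c1 : 0 ≤ D.S.poin x (e y) (Pi.single j 1) := by unfold Hm.Snc.poin; positivity
      rw [hσ.qd_omM D.V he.1]
      refine (mul_le_mul_of_nonneg_left ((a1 σ hσ _).trans
        (mul_le_mul_of_nonneg_right (le_abs_self B) c1)) (sq_nonneg _)).trans ?_
      rw [mul_left_comm]
      refine mul_le_mul_of_nonneg_left ?_ (abs_nonneg B)
      rw [Hm.Snc.poin, Pi.norm_single, norm_one, one_pow]
      split_ifs with m
      · have c2 := norm_pos_iff.2 (a4.1 hy j m)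
        have c3 := a3 j m
        have c4 : 1 ≤ 1 + |Real.log ‖e y j‖| := le_add_of_nonneg_right (abs_nonneg _)
        rw [Finset.sum_eq_single j (fun b _ hb => by simp [hb]) fun hb => (hb m).elim,
          Pi.single_eq_same, norm_one, mul_add, ← mul_pow, mul_one_div, div_mul_cancel_left₀ c2.ne']
        nlinarith [inv_le_one_of_one_le₀ c4, inv_nonneg.2 (zero_le_one.trans c4)]
      · rw [Finset.sum_eq_zero fun b hb => by simp [show b ≠ j from fun k => m (k ▸ hb)]]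
        simp
  have b2 : ‖sg D (one T) i y‖ ≤
      ‖∏ j, if j ∈ D.S.K x then e y j else 1‖ * ∏ l, (|C l| + 1) := by
    rw [Finset.prod_ite_mem, Finset.univ_inter, norm_prod, ← D.S.prod_ab x (e y) (fun t => t) rfl,
      ← Finset.prod_mul_distrib, sg, norm_prod]
    refine Finset.prod_le_prod (fun _ _ => norm_nonneg _) fun l _ => ?_
    unfold one
    split_ifs with m
    · have c1 : 0 ≤ D.S.ab x l (e y) := by
        unfold Hm.Snc.ab
        split_ifs
        exacts [by cases D.S.lab x l <;> simp, zero_le_one]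
      rw [zpow_one, mul_comm]
      exact (a2 l).2.trans (mul_le_mul_of_nonneg_right (by linarith [le_abs_self (C l)]) c1)
    · rw [D.S.ab_of_not fun a => k ⟨l, m, a⟩]
      simp
  refine (mul_le_mul_of_nonneg_left (pow_le_pow_left₀ (norm_nonneg _) b2 2)
    (Complex.le_def.1 (psd y a5 hy).det_nonneg).1).trans ?_
  rw [mul_pow, ← mul_assoc]
  exact mul_le_mul_of_nonneg_right b1 (sq_nonneg _)

theorem bd1 (hD : D.Ok) (hS : SNCB) (hP : D.V.Poin) {T : Finset (Fin D.S.r)}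
    (hT : ∀ l ∉ T, D.V.Scalar l) (hh : IsHermitian h) {ρ} (hρ : IsMetric (toL (lbO hD (one T))) ρ)
    {x : D.Z.X} (hx : ∀ l l', x ∈ D.S.G l → x ∈ D.S.G l' → l = l') : ∃ C : ℝ, ∀ᶠ y in 𝓝 x,
      y ∈ D.S.U → (rat h (omM D.V) y + 1) * nrm (toL (lbO hD (one T))) ρ (sg D (one T)) y ≤ C := by
  obtain ⟨i, hi⟩ := (toL (lbO hD (one T))).cover x
  obtain ⟨C, hC⟩ := bd0 hD hS hP hT hx hi
  have he := atChart (d := d) x
  set e := chartAt (Cm d) x
  obtain ⟨C₁, -, h1⟩ := bdd_near (((sec_one hD T).toSc.smOn hρ isOpen_univ).contAt (mem_univ x))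
  obtain ⟨C₂, -, h2⟩ := bdd_near (f := fun y => Real.exp (-ρ i y) / (h e (e y)).det.re)
    ((Lm.contAt he.2 (hρ.smooth i _ x he hi).continuousAt).neg.rexp.div
      ((Lm.contAt_det hh he).comp (e.continuousAt he.2)) (det_pos (hh.posDef e x he)).ne')
  refine ⟨C * C₂ + C₁, ?_⟩
  filter_upwards [hC, h1, h2, at_near he, ((toL (lbO hD (one T))).isOpen i).mem_nhds hi]
    with y a1 a2 a3 a4 a5 hy
  rw [add_mul, one_mul]
  refine add_le_add (le_trans (le_of_eq ?_) (mul_le_mul (a1 hy) a3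
    (div_pos (Real.exp_pos _) (det_pos (hh.posDef e y a4))).le (le_trans (mul_nonneg
      (Complex.le_def.1 ((isRho_omM D.V).psd e y a4 (not_not.2 hy)).det_nonneg).1 (sq_nonneg _))
      (a1 hy)))) a2
  rw [rat_at hh (isRho_omM D.V) a4 hy, RiemH.nrm_on hρ (sec_one hD T) a5 trivial]
  ring

end Vale.Agent.P281Z.Lf.Lw
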