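import Vale.Agent.P281Z.Lf.Sk
import Vale.Agent.P277Z.Slc.Div
import Vale.Agent.P281Z.Hm.Alg

/-!
# P281Z, the base of the variation: the assembly
-/

open scoped Topology
open Set Filter Matrix
open Vale.Agent.P285.H281.FD
open Vale.Agent.P281Z.Hm (Cv GV Ln cz)

noncomputable section

namespace Vale.Agent.P281Z.Lf

theorem den {κ : Type} [Fintype κ] (α : κ → ℚ) :
    ∃ (a : ℕ) (m : κ → ℤ), 0 < a ∧ ∀ l, (m l : ℚ) = a * α l := by
  classical
  refine ⟨∏ l, (α l).den, fun l => (∏ l' ∈ Finset.univ.erase l, (α l').den : ℕ) * (α l).num,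
    Finset.prod_pos fun l _ => (α l).den_pos, fun l => ?_⟩
  rw [← Finset.prod_erase_mul _ _ (Finset.mem_univ l)]
  push_cast
  rw [mul_assoc, Rat.den_mul_eq_num]

theorem hl_of (hMin : Hm.StMin) (hAl : Hm.StAlpha) (omm : OMM) (sncb : SNCB) (r0 : R0) (leaf : LEAF)
    (fib : FIB) (tp : TP) (germ : GERM) (zed : ZED) (modz : MODZ) (bpf : BPF) (nef : NEF)
    (theta : THETA) (out : OUT) : HL := by
  intro p W S C n _ _ V l L hc hk hf hl hm
  obtain ⟨k, V', L', B, hmin, hB, -, -, hρ, -, -, hY, hlam, -, -, hmod⟩ := hMin p W.X S C n V l L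
  have hf' : Free V' := fun g x h => by
    have h1 := hρ g
    rw [hf g x h, Matrix.one_mul] at h1
    refine Hm.cz_inj (Matrix.ext_iff_mulVec.2 fun v => hB ?_)
    rw [mulVec_mulVec, ← Hm.cz_mul, ← h1, Hm.cz_one, one_mulVec]
  have hl' : ∀ g, L'.lam g = 1 := fun g => hlam ▸ hl g
  obtain ⟨r, hr, hy⟩ := (omm p W S C _ V').max
  have hL : LeafR r := by
    cases r with
    | zero => exact r0
    | succ r => exact leaf r
  obtain ⟨u, a, q, B₀, hL⟩ := hL p W S C _ V' l L' hc hk hf' hl' hmin (hmod hm) hr hy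
  obtain ⟨F⟩ := fib p W r u B₀ hc hk hL.thin hL.mer hL.hol hL.ind
  obtain ⟨V₁, Ψ, hT, hF⟩ := tp p W S C _ V' l L' r u a q B₀ hl' hL
  obtain ⟨D⟩ := germ p W S C _ V₁ r u B₀ F Ψ hc hL.sub hF
  obtain ⟨z1, z2⟩ := zed p W S C _ V' l L' r u a q B₀ V₁ Ψ F D hL hT hmin
  have z3 := modz p W S C _ V' l L' r u a q B₀ V₁ Ψ F D hL hT (hmod hm)
  obtain ⟨α, hα⟩ := hAl r F.Z.X F.S D.C' _ D.V' _ D.L' F.sconn z3
  obtain ⟨a', m, ha', hm'⟩ := den α
  choose O σ hO using fun j => P277Z.Slc.stDiv r F.Z.X (F.S.G j) fun x =>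
    ((sncb r F.Z F.S).1 x).imp' (fun ζ => ζ j) fun _ h => h.1 j
  obtain ⟨b, -, b1, b2, b3⟩ := bpf r F.Z F.A F.lbA F.posA
  have ok : (Zd.mk F.Z F.S D.C' _ D.V' D.L' α a' m O σ (F.A.pow b)).Ok :=
    ⟨F.connZ, F.kahZ, F.sconn, z3, z1, z2, hα, ha', hm', hO, b1, b2, b3⟩
  obtain ⟨o⟩ := out p W S C _ V' l L' r u a q B₀ V₁ Ψ F D α a' m O σ _ hL hT ok (nef r _ ok)
    (theta r _ ok)
  refine ⟨{ o with nrm := fun i j y h1 h2 => ?_ }⟩
  obtain ⟨c, g, k1, k2, k3, k4, k5⟩ := o.nrm i j y h1 h2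
  have : ∀ᶠ x in 𝓝 y, L'.hY i (o.μ x) = L.hY i (o.μ x) :=
    ((o.modif.2.hol.continuous.continuousAt).eventually ((L.lb.isOpen i).mem_nhds h1)).mono
      fun x hx => hY i _ hx
  refine ⟨c, g, k1, k2, k3, ?_, fun ε hε => (k5 ε hε).imp fun K hK => ?_⟩
  · filter_upwards [this, k4] with x e1 e2 using e1 ▸ e2
  · filter_upwards [this, hK] with x e1 e2 using e1 ▸ e2

end Vale.Agent.P281Z.Lf
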