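import Vale.Agent.P281Z.Lf.Omm
import Vale.Agent.P281Z.Hm.Line
import Vale.Agent.P281Z.Hm.Snc
import Vale.Agent.P281Z.Hm.Cpt
import Vale.Agent.P281Z.Sc.Riem
import Vale.Agent.P281Z.Mf.An

/-!
# P281Z, variations of rank zero
-/

set_option linter.unusedSectionVars false

open scoped Manifold ContDiff Topology ComplexOrder Matrix.Norms.Operator
open Set Filter Matrix
open Vale.Agent.P272.K Vale.Agent.P285.H281.FD
open Vale.Agent.P277Z (Hol Mer Nz at_chart gen_of_nhds)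
open Vale.Agent.P281Z.Hm

noncomputable section

namespace Vale.Agent.P281Z.Lf

namespace R0

theorem ev_const {k E F : Type} [RCLike k] [NormedAddCommGroup E] [NormedSpace ℝ E]
    [NormedSpace k E] [NormedAddCommGroup F] [NormedSpace k F] {f : E → F} {z : E}
    (h : ∀ᶠ x in 𝓝 z, DifferentiableAt k f x ∧ fderiv k f x = 0) : ∀ᶠ x in 𝓝 z, f x = f z := by
  obtain ⟨r, hr, h1⟩ := Metric.eventually_nhds_iff_ball.1 h
  filter_upwards [Metric.ball_mem_nhds z hr] with x hx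
  exact Metric.isOpen_ball.is_const_of_fderiv_eq_zero (convex_ball z r).isPreconnected
    (fun y hy => (h1 y hy).1.differentiableWithinAt) (fun y hy => (h1 y hy).2) hx
    (Metric.mem_ball_self hr)

/-- a frame whose derivatives are proportional to it has a constant direction -/
theorem dir_const {n E : Type} [Fintype n] [NormedAddCommGroup E] [NormedSpace ℝ E]
    [NormedSpace ℂ E] {ψ : E → n → ℂ} {z : E} (h0 : ψ z ≠ 0)
    (h : ∀ᶠ x in 𝓝 z, AnalyticAt ℂ ψ x ∧ ∀ v, v ∈ kerL ψ x) :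
    ∀ᶠ x in 𝓝 z, Submodule.span ℂ {ψ x} = Submodule.span ℂ {ψ z} := by
  obtain ⟨k, hk⟩ := Function.ne_iff.1 h0
  have h1 : ∀ᶠ x in 𝓝 z, ψ x k ≠ 0 :=
    (continuousAt_pi.1 h.self_of_nhds.1.continuousAt k).eventually_ne hk
  have h2 : ∀ᶠ x in 𝓝 z, (ψ x k)⁻¹ • ψ x = (ψ z k)⁻¹ • ψ z := ev_const (k := ℂ) <| by
    filter_upwards [h, h1] with x a b
    have d := a.1.differentiableAt.hasFDerivAt
    have d1 := ((hasFDerivAt_inv b).comp x (hasFDerivAt_pi'.1 d k)).smul d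
    refine ⟨d1.differentiableAt, d1.fderiv.trans (ContinuousLinearMap.ext fun v => ?_)⟩
    obtain ⟨c, hc⟩ := Submodule.mem_span_singleton.1 (a.2 v)
    have e : fderiv ℂ ψ x v = c • ψ x := hc.symm
    funext j
    simp [e]
    field_simp
    ring
  filter_upwards [h1, h2] with x a b
  rw [← Submodule.span_singleton_smul_eq (inv_ne_zero a).isUnit, b,
    Submodule.span_singleton_smul_eq (inv_ne_zero hk).isUnit]

theorem tp_smul {n : Type} (a : ℕ) (c : ℂ) (s : n → ℂ) : tp a (c • s) = c ^ a • tp a s := by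
  funext I
  simp [tp, Finset.prod_mul_distrib]

variable {p : ℕ} {Y : Type} [TopologicalSpace Y] [ChartedSpace (Cm p) Y] {U : Set Y} {C : Cv Y U}

theorem const_of {A : Type} (f : C.X → A) (h : ∀ e ∈ atlas (Cm p) Y, ∀ σ z, Sc C e σ z →
    ∀ᶠ z' in 𝓝 z, f (σ z') = f (σ z)) (x x' : C.X) : f x = f x' := by
  refine ((IsLocallyConstant.iff_eventually_eq f).2 fun x => ?_).apply_eq_of_preconnectedSpace x x'
  have he := at_chart (n := p) (C.π x)
  obtain ⟨σ, h1, h2, h3⟩ := exists_sc _ x he.2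
  filter_upwards [h3, (((chartAt (Cm p) (C.π x)).continuousAt he.2).comp
    (Br.loc C).continuous.continuousAt).eventually (h _ he.1 σ _ h1)] with y a b
  rwa [Function.comp_apply, Function.comp_apply, a, h2] at b

variable [IsManifold 𝓘(ℂ, Cm p) ω Y] {n : Type} [Fintype n] [DecidableEq n] {V : GV p C n}
  {l : Bd Y} (L : Ln V l) {e : Chart p Y} {σ : Cm p → C.X} {z : Cm p}

theorem th_zero (hr : RkLe V 0) (he : e ∈ atlas (Cm p) Y) (h : Sc C e σ z) (v : Cm p) :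
    thS V σ z v = 0 :=
  not_not.1 fun k => hr e he σ z h (fun _ => v) ((linearIndependent_unique_iff (ι := Fin 1)).2 k)

theorem gr_const (hr : RkLe V 0) (x x' : C.X) : V.gr x = V.gr x' :=
  funext fun q => const_of (p := p) (fun x => V.gr x q) (fun e he σ z h => ev_const (k := ℝ)
    (f := fun z => V.gr (σ z) q) (h.ev.mono fun y a => by
      have k := a.lv V he
      refine ⟨(k.an q).differentiableAt, ContinuousLinearMap.ext fun v => ?_⟩
      rw [fderiv_eq_wd, k.id.dπ, k.id.bπ, k.ts_eq, show th _ _ _ v = 0 from th_zero hr he a v]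
      simp)) x x'

theorem fin_ord (hr : RkLe V 0) : ∃ a, 0 < a ∧ ∀ g, V.ρ g ^ a = 1 := by
  obtain ⟨x⟩ : Nonempty C.X := inferInstance
  have hb : ∀ q, ‖V.gr x q‖ ≤ ∑ q ∈ Finset.range (V.w + 1), ‖V.gr x q‖ := fun q => by
    by_cases hq : q < V.w + 1
    · exact Finset.single_le_sum (f := fun q => ‖V.gr x q‖) (fun _ _ => norm_nonneg _)
        (Finset.mem_range.2 hq)
    · rw [(V.hs x).top q (by omega), norm_zero]
      exact Finset.sum_nonneg fun _ _ => norm_nonneg _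
  have h1 : (range V.ρ).Finite := (stProp n V.Q V.w _).subset (by
    rintro _ ⟨g, rfl⟩
    exact ⟨V.pQ g, _, _, V.hs x, V.hs x, fun q => ⟨hb q, hb q⟩, fun q => by
      rw [← V.eqv, gr_const hr (g • x) x]⟩)
  have : Finite V.ρ.toHomUnits.range := (h1.preimage Units.val_injective.injOn).subset (by
    rintro _ ⟨g, rfl⟩
    exact ⟨g, rfl⟩)
  exact ⟨Nat.card V.ρ.toHomUnits.range, Nat.card_pos, fun g => congrArg (fun u => u.1.1)
    (pow_card_eq_one' (x := (⟨_, g, rfl⟩ : V.ρ.toHomUnits.range)))⟩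

theorem ne {i : l.ι} {x : C.X} (hx : C.π x ∈ l.U i) : L.ψ i x ≠ 0 :=
  (L.ln i ℂ _ 0 (Cv.lift_const x 0) hx).ne

include L in
theorem ev_U (h : Sc C e σ z) {i : l.ι} (hi : C.π (σ z) ∈ l.U i) :
    ∀ᶠ y in 𝓝 z, C.π (σ y) ∈ l.U i :=
  ((Br.loc C).continuous.continuousAt.comp h.self_of_nhds.1).eventually
    ((L.lb.isOpen i).mem_nhds hi)

theorem line (hr : RkLe V 0) : ∃ (ψ₀ : n → ℂ) (k : n), ψ₀ k = 1 ∧
    ∀ i x, C.π x ∈ l.U i → L.ψ i x = L.ψ i x k • ψ₀ := by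
  choose c hc using L.lb.cover
  have h1 : ∀ i x, C.π x ∈ l.U i →
      Submodule.span ℂ {L.ψ (c (C.π x)) x} = Submodule.span ℂ {L.ψ i x} := fun i x hx => by
    rw [L.ch i _ x hx (hc _), Submodule.span_singleton_smul_eq (L.lb.ne_zero _ _ _ hx (hc _)).isUnit]
  have h2 := const_of (p := p) (fun x => Submodule.span ℂ {L.ψ (c (C.π x)) x}) fun e he σ z h => by
    have k := ev_U L h (hc _)
    filter_upwards [k, dir_const (ψ := fun y => L.ψ (c (C.π (σ z))) (σ y)) (ne L (hc _)) (by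
      filter_upwards [k, h.ev] with y a b
      have k1 := L.ln _ _ σ y (b.lift he) a
      exact ⟨k1.an, fun v => ((stLine n _ V.Q V.w _ _ y (b.lv V he) k1).2.2 v).2.2.1 (by
        rw [show th _ _ _ v = 0 from th_zero hr he b v, zero_mulVec])⟩)] with y a b
    rw [h1 _ _ a, b]
  obtain ⟨x₀⟩ : Nonempty C.X := inferInstance
  obtain ⟨k, hk⟩ := Function.ne_iff.1 (ne L (hc (C.π x₀)))
  refine ⟨(L.ψ _ x₀ k)⁻¹ • L.ψ _ x₀, k, inv_mul_cancel₀ hk, fun i x hx => ?_⟩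
  obtain ⟨t, ht⟩ := Submodule.mem_span_singleton.1
    (((h1 i x hx).symm.trans (h2 x x₀)).le (Submodule.mem_span_singleton_self _))
  rw [← ht, smul_smul, Pi.smul_apply, smul_eq_mul, mul_assoc, mul_inv_cancel₀ hk, mul_one]

open Classical in
/-- the power of a coordinate of the frame, as a function on the base -/
def fn (k : n) (a : ℕ) (i : l.ι) (y : Y) : ℂ := if h : ∃ x, C.π x = y then L.ψ i h.choose k ^ a else 0

variable {L} {ψ₀ : n → ℂ} {k : n} {a : ℕ} {i : l.ι}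

/-- the data in rank zero -/
structure Dt (L : Ln V l) (ψ₀ : n → ℂ) (k : n) (a : ℕ) : Prop where
  one : ψ₀ k = 1
  eq : ∀ i x, C.π x ∈ l.U i → L.ψ i x = L.ψ i x k • ψ₀
  ord : ∀ g, V.ρ g ^ a = 1
  lam : ∀ g, L.lam g = 1

namespace Dt

variable (h : Dt L ψ₀ k a)
include h

theorem ne {x : C.X} (hx : C.π x ∈ l.U i) : L.ψ i x k ≠ 0 := fun e =>
  R0.ne L hx (by rw [h.eq i x hx, e, zero_smul])

theorem inv (g : C.Γ) {x : C.X} (hx : C.π x ∈ l.U i) : L.ψ i (g • x) k ^ a = L.ψ i x k ^ a := by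
  have h1 := L.eqv i g x hx
  rw [h.lam, one_smul, h.eq i x hx, h.eq i _ ((C.inv g x).symm ▸ hx), mulVec_smul] at h1
  have h2 : ∀ m : ℕ, L.ψ i (g • x) k ^ m • ψ₀ = L.ψ i x k ^ m • (cz (V.ρ g) ^ m *ᵥ ψ₀) := fun m => by
    induction m with
    | zero => simp
    | succ m ih =>
      rw [pow_succ, mul_smul, h1, smul_comm, ← mulVec_smul, ih, mulVec_smul, mulVec_mulVec,
        smul_smul, ← pow_succ', ← pow_succ']
  have h3 := congrFun (h2 a) k
  rwa [← cz_pow, h.ord, cz_one, one_mulVec, Pi.smul_apply, Pi.smul_apply, h.one, smul_eq_mul,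
    smul_eq_mul, mul_one, mul_one] at h3

theorem fn_eq {x : C.X} (hx : C.π x ∈ l.U i) : fn L k a i (C.π x) = L.ψ i x k ^ a := by
  have e : ∃ x', C.π x' = C.π x := ⟨x, rfl⟩
  obtain ⟨g, hg⟩ := C.tr x e.choose e.choose_spec.symm
  rw [fn, dif_pos e, hg, h.inv g hx]

theorem fn_ev (hs : Sc C e σ z) (hi : e.symm z ∈ l.U i) : ∀ᶠ y in 𝓝 z,
    C.π (σ y) ∈ l.U i ∧ fn L k a i (e.symm y) = L.ψ i (σ y) k ^ a := by
  filter_upwards [hs.ev, ev_U L hs (hs.pi ▸ hi)] with y b c using ⟨c, b.pi ▸ h.fn_eq c⟩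

theorem fn_hol {y : Y} (hy : y ∈ U) (hi : y ∈ l.U i) : Hol p (fn L k a i) y ∧ fn L k a i y ≠ 0 := by
  refine ⟨fun e he => ?_, ?_⟩
  · obtain ⟨σ, hs⟩ := exists_sc' (C := C) hy he.2
    have h1 := h.fn_ev hs ((e.left_inv he.2).symm ▸ hi)
    exact ((analyticAt_pi_iff.1 (L.ln i _ σ _ (hs.lift he.1) h1.self_of_nhds.1).an k).pow a).congr
      (h1.mono fun _ b => b.2.symm)
  · obtain ⟨x, rfl⟩ := C.surj y hy
    rw [h.fn_eq hi]
    exact pow_ne_zero _ (h.ne hi)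

end Dt

section snc

variable (S : Hm.Snc p Y)

/-- the equation of the divisor at `y` -/
def eqn (y y' : Y) : ℂ := ∏ j ∈ S.K y, chartAt (Cm p) y y' j

theorem eqn_hol (y : Y) : Hol p (eqn S y) y := Hol.prod _ fun j _ => hol_chart (at_chart y) j

theorem eqn_ev (y : Y) : ∀ᶠ y' in 𝓝 y, y' ∈ S.U ↔ eqn S y y' ≠ 0 :=
  (S.ev_U y).mono fun _ h => h.trans Finset.prod_ne_zero_iff.symm

theorem thin_U : Thin p S.Uᶜ :=
  ⟨fun y => ⟨1, fun _ => eqn S y, fun _ => eqn_hol S y, (eqn_ev S y).mono fun _ h => by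
    simp [h]⟩, by rw [compl_compl]; exact dense_U S⟩

theorem eqn_le (y : Y) : ∀ᶠ y' in 𝓝 y, ‖eqn S y y'‖ ≤ 1 := by
  filter_upwards [(Finset.eventually_all (S.K y)).2 fun j hj =>
    (hol_chart (at_chart (n := p) y) j).cont.norm.eventually_lt continuousAt_const
      (show _ < (1 : ℝ) by rw [S.zero_K hj, norm_zero]; exact one_pos)] with y' h
  rw [eqn, norm_prod]
  exact Finset.prod_le_one (fun _ _ => norm_nonneg _) fun j hj => (h j hj).le

variable {S} {C : Cv Y S.U} {V : GV p C n} {L : Ln V l}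

theorem Dt.bd (h : Dt L ψ₀ k a) (hr : RkLe V 0) (hm : L.Mod) {y : Y} (hi : y ∈ l.U i) :
    ∃ (N : ℕ) (B : ℝ), ∀ᶠ y' in 𝓝 y, y' ∈ S.U → ‖fn L k a i y' * eqn S y y' ^ N‖ ≤ B := by
  obtain ⟨B, A, h1⟩ := hm y i hi
  obtain ⟨x₀⟩ : Nonempty C.X := inferInstance
  have h0 : 0 < hn (gH V.Q V.w (V.gr x₀)) ψ₀ :=
    hn_pos (V.hs x₀).pos fun e => one_ne_zero (h.one.symm.trans (congrFun e k))
  obtain ⟨N, hN⟩ := exists_nat_ge (A / 2)
  refine ⟨N * a, √(B / hn (gH V.Q V.w (V.gr x₀)) ψ₀) ^ a, ?_⟩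
  filter_upwards [h1, eqn_ev S y, eqn_le S y, (L.lb.isOpen i).mem_nhds hi] with y' b c d f hy
  obtain ⟨x, rfl⟩ := C.surj y' hy
  have h2 := b hy
  rw [L.hY_eq f, Ln.h, h.eq i x f, hn_smul, gr_const hr x x₀,
    S.prod_ab y _ (fun t => t ^ A) (Real.one_rpow A),
    Real.finsetProd_rpow _ _ fun _ _ => norm_nonneg _, ← norm_prod] at h2
  rw [h.fn_eq f, pow_mul, ← mul_pow, norm_pow]
  refine pow_le_pow_left₀ (norm_nonneg _) (Real.le_sqrt_of_sq_le ((le_div_iff₀ h0).2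
    (le_trans ?_ h2))) _
  rw [norm_mul, mul_pow, mul_right_comm, norm_pow, ← pow_mul, ← Real.rpow_natCast _ (N * 2)]
  refine mul_le_mul_of_nonneg_left (Real.rpow_le_rpow_of_exponent_ge (norm_pos_iff.2 (c.1 hy)) d
    ?_) (by positivity)
  push_cast
  linarith

theorem Dt.mer (h : Dt L ψ₀ k a) (hr : RkLe V 0) (hm : L.Mod) {y : Y} (hi : y ∈ l.U i) :
    Mer p (fun y => (fn L k a i y)⁻¹) y := by
  obtain ⟨N, B, h1⟩ := h.bd hr hm hi
  have h2 := mem_closure_iff_frequently.1 (dense_U S y)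
  have h3 := (eqn_ev S y).and ((L.lb.isOpen i).eventually_mem hi)
  obtain ⟨b, b1, b2⟩ := riem (f := fun y' => fn L k a i y' * eqn S y y' ^ N) (C := B) (eqn_hol S y)
    (fun e => (h2.and_eventually (h3.and e)).exists.elim fun _ c => c.2.1.1.1 c.1 c.2.2) (by
      filter_upwards [h1, h3, (eqn_hol S y).near] with w c d f g
      exact ⟨(h.fn_hol (d.1.2 g) d.2).1.mul (f.pow N), c (d.1.2 g)⟩)
  refine ⟨fun y' => eqn S y y' ^ N, b, (eqn_hol S y).pow N, b1, fun e => ?_, ?_⟩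
  · obtain ⟨w, c, d, f, g⟩ := (h2.and_eventually (h3.and (e.and b2))).exists
    exact mul_ne_zero (h.fn_hol c d.2).2 (pow_ne_zero N (d.1.1 c)) ((g (d.1.1 c)).symm.trans f)
  · filter_upwards [(thin_U S).gen y, gen_of_nhds (h3.and b2)] with w c d
    have c' := not_not.1 c
    rw [d.2 (d.1.1.1 c'), inv_mul_cancel_left₀ (h.fn_hol c' d.1.2).2]

end snc

end R0

open R0 in
/-- **R0** -/
theorem r0 : R0 := by
  intro p W S C n _ _ V l L _ _ _ hl _ hm hr hy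
  obtain ⟨a, ha, h1⟩ := fin_ord hr
  obtain ⟨ψ₀, k, h2, h3⟩ := line L hr
  have h : Dt L ψ₀ k a := ⟨h2, h3, h1, hl⟩
  refine ⟨Fin.elim0, a, fun i y => (fn L k a i y)⁻¹, S.Uᶜ, ha, thin_U S, (compl_compl _).le,
    fun j => j.elim0, fun j => j.elim0,
    hy.imp fun y c => ⟨not_not.2 c.1, fun j => j.elim0, fun _ _ => linearIndependent_empty_type⟩,
    fun i y hi => h.mer hr hm hi, fun i y hi c => ?_, fun i j y hi hj c => ?_,
    fun i e he σ z hs _ hi _ v _ => ⟨th_zero hr he hs v, ?_⟩, hy⟩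
  · have h4 := h.fn_hol (not_not.1 c) hi
    exact ⟨h4.1.inv h4.2, inv_ne_zero h4.2⟩
  · obtain ⟨x, rfl⟩ := C.surj y (not_not.1 c)
    have h4 := L.lb.ne_zero i j _ hi hj
    rw [h.fn_eq hi, h.fn_eq hj, L.ch i j x hi hj, Pi.smul_apply, smul_eq_mul, mul_pow, mul_inv,
      mul_inv_cancel_left₀ (pow_ne_zero a h4)]
  · have h4 : (fun x => (fn L k a i (e.symm x))⁻¹ • tp a (L.ψ i (σ x))) =ᶠ[𝓝 z] fun _ => tp a ψ₀ := by
      filter_upwards [h.fn_ev hs hi] with y c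
      rw [c.2, h.eq i _ c.1, tp_smul, ← h.eq i _ c.1, inv_smul_smul₀ (pow_ne_zero a (h.ne c.1))]
    rw [h4.fderiv_eq, fderiv_fun_const]
    rfl

end Vale.Agent.P281Z.Lf
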