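import Vale.Agent.P281Z.Lf.Defs

/-!
# P281Z, the base of the variation: statements of the rows
-/

open scoped Manifold ContDiff Topology ComplexConjugate ComplexOrder ENNReal Matrix.Norms.Operator
open Set Filter MeasureTheory Matrix
open Vale.Agent.P272.K Vale.Agent.P285.H281.FD
open Vale.Agent.P277Z (Hol Mer gen)
open Vale.Agent.P277Z.Slc (lin Ind LEq IsDiv triv)
open Vale.Agent.P277.HD (pull)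
open Vale.Agent.P284.H608.K (Af ev Ad dhL)
open Vale.Agent.P284.H395 (IsRho)
open Vale.Agent.P284Z (levi)
open Vale.Agent.P281Z.Hm (Cv GV Ln Mx cz omB omH hn gH kerL BdL Dm St Un ex)

noncomputable section

namespace Vale.Agent.P281Z.Lf

/-- a statement for all variations on the complement of a divisor -/
def ForV (P : ∀ (p : ℕ) (W : Mf p) (S : Hm.Snc p W.X) (C : Cv W.X S.U) (n : Type) [Fintype n]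
    [DecidableEq n], GV p C n → Prop) : Prop :=
  ∀ (p : ℕ) (W : Mf p) (S : Hm.Snc p W.X) (C : Cv W.X S.U) (n : Type) [Fintype n] [DecidableEq n]
    (V : GV p C n), P p W S C n V

/-! ### generalities -/

/-- sections of the covering, the Hodge metric, the rank -/
structure Omm {p : ℕ} {W : Mf p} {S : Hm.Snc p W.X} {C : Cv W.X S.U} {n : Type} [Fintype n]
    [DecidableEq n] (V : GV p C n) : Prop where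
  ex : ∀ (e : Chart p W.X) x, At e (C.π x) → ∃ σ, Sc C e σ (e (C.π x)) ∧ σ (e (C.π x)) = x ∧
    ∀ᶠ x' in 𝓝 x, σ (e (C.π x')) = x'
  lift : ∀ e ∈ atlas (Cm p) W.X, ∀ σ z, Sc C e σ z → C.Lift p σ z ∧ ∀ᶠ z' in 𝓝 z, Sc C e σ z'
  two : ∀ e ∈ atlas (Cm p) W.X, ∀ σ σ' z, Sc C e σ z → Sc C e σ' z →
    ∃ g : C.Γ, ∀ᶠ z' in 𝓝 z, σ' z' = g • σ z'
  hs : ∀ x, Hm.Hs V.Q V.w (V.gr x)
  rho : IsRho S.Uᶜ p (omM V)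
  eq : ∀ e ∈ atlas (Cm p) W.X, ∀ σ z, Sc C e σ z → (omM V e z = of fun j k =>
    omB V.w (fun x => V.gr (σ x)) z (Pi.single j 1) (Pi.single k 1)) ∧
    ∀ v, qd (omM V e z) v = omH V.w (fun x => V.gr (σ x)) z v
  rk1 : ∀ r, ∀ e ∈ atlas (Cm p) W.X, ∀ σ z, Sc C e σ z →
    (∃ v : Fin r → Cm p, LinearIndependent ℂ fun j => thS V σ z (v j)) → RkAt V r (e.symm z)
  opn : ∀ r, IsOpen {y | y ∈ S.U ∧ RkAt V r y}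
  dense : ∀ r, (∃ y ∈ S.U, RkAt V r y) → Dense {y | y ∈ S.U ∧ RkAt V r y}
  max : ∃ r, RkLe V r ∧ ∃ y ∈ S.U, RkAt V r y
  hY : ∀ (l : Bd W.X) (L : Ln V l) i x, C.π x ∈ l.U i → L.hY i (C.π x) = L.h i x

/-- **OMM** -/
def OMM : Prop := ForV fun _ _ _ _ _ _ _ V => Omm V

/-- **SNCB**: the two forms of simple normal crossings -/
def SNCB : Prop := ∀ (p : ℕ) (W : Mf p) (S : Hm.Snc p W.X), P277Z.Slc.Snc p S.G ∧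
  ∀ y l ζ, LEq p (S.G l) y ζ → ∃ c C : ℝ, 0 < c ∧ ∀ᶠ y' in 𝓝 y,
    c * S.ab y l (chartAt (Cm p) y y') ≤ ‖ζ y'‖ ∧ ‖ζ y'‖ ≤ C * S.ab y l (chartAt (Cm p) y y')

/-- **RECH**: adapted charts -/
def RECH : Prop := ∀ (p : ℕ) (W : Mf p) (k : ℕ) (G : Fin k → Set W.X), P277Z.Slc.Snc p G →
  ∃ (W' : Mf p) (e : W'.X ≃ₜ W.X) (S : Hm.Snc p W'.X) (h : S.r = k), HolM p p e ∧ HolM p p e.symm ∧
    (∀ l, S.G l = e ⁻¹' G (Fin.cast h l)) ∧ (W.Kah → W'.Kah) ∧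
    ∀ L : Bd W.X, IsLB p L → IsLB p (pull e L) ∧ (Pos p L → Pos p (pull e L))

/-- **POLAR**: zeros and poles of a meromorphic section -/
def POLAR : Prop := ∀ (p : ℕ) (W : Mf p) (l : Bd W.X) (a : ℕ) (q : l.ι → W.X → ℂ) (D : Set W.X),
  ConnectedSpace W.X → IsLB p l → IsOpen D → Dense D → (∀ i, ∀ y ∈ l.U i, Mer p (q i) y) →
  (∀ i j, ∀ y ∈ D, y ∈ l.U i → y ∈ l.U j → q i y = l.g i j y ^ a * q j y) →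
  (∃ i, ∃ y ∈ l.U i, Hol p (q i) y ∧ ¬ ∀ᶠ x in 𝓝 y, q i x = 0) →
  ∃ (B : Set W.X) (q' : l.ι → W.X → ℂ), Thin p B ∧ (∀ i, ∀ y ∈ l.U i, Mer p (q' i) y ∧
    (Hol p (q i) y → ∀ᶠ x in 𝓝 y, q' i x = q i x) ∧ (y ∉ B ↔ Hol p (q' i) y ∧ q' i y ≠ 0)) ∧
    ∀ i j, ∀ y ∉ B, y ∈ l.U i → y ∈ l.U j → q' i y = l.g i j y ^ a * q' j y

/-- **MON**: growth along a divisor -/
def MON : Prop := ∀ (p : ℕ) (W : Mf p) (κ : Type) [Fintype κ] (G : κ → Set W.X) (x : W.X)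
  (ζ : κ → W.X → ℂ) (f : W.X → ℂ), P277Z.Slc.Snc p G → (∀ k, LEq p (G k) x (ζ k)) → Mer p f x →
  (∀ᶠ y in 𝓝 x, y ∈ off G → Hol p f y) →
  (∃ (C : ℝ) (A : ℕ), ∀ᶠ y in 𝓝 x, y ∈ off G → ‖f y‖ * ∏ k, ‖ζ k y‖ ^ A ≤ C) ∧
  ((∀ᶠ y in 𝓝 x, y ∈ off G → f y ≠ 0) →
    ∃ (c : ℝ) (A : ℕ), 0 < c ∧ ∀ᶠ y in 𝓝 x, y ∈ off G → c * ∏ k, ‖ζ k y‖ ^ A ≤ ‖f y‖)

/-! ### leaves -/

/-- **POT**: the complete metric -/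
def POT : Prop := ∀ (p : ℕ) (W : Mf p) (S : Hm.Snc p W.X)
  (ρ : Chart p W.X → Cm p → Matrix (Fin p) (Fin p) ℂ), W.Kah → IsRho S.Uᶜ p ρ →
  (∀ y, ∃ B : ℝ, ∀ᶠ y' in 𝓝 y, y' ∈ S.U → ∀ v, qd (ρ (chartAt (Cm p) y) (chartAt (Cm p) y y')) v ≤
    B * S.poin y (chartAt (Cm p) y y') v) →
  ∃ h, CK p S.U h ∧ ∀ (e : Chart p W.X) x, At e x → x ∈ S.U → ∀ v,
    qd (ρ e (e x)) v ≤ qd (h e (e x)) v

/-- **ATB**: holomorphic forms with given jets along the core of a tube -/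
def ATB : Prop := ∀ (n R : ℕ) (ρ : ℝ), 0 < ρ → ∃ c₀ : ℝ, ∀ (W : Mf n) (Ω : Set W.X) h, CK n Ω h →
  ∀ (r : ℕ) (N : Set W.X) (β : W.X → Cm R), Tube n Ω h (r + 1) ρ N β →
  ∀ (T : Type) [Fintype T] (x₀ : T → W.X) (e₀ : T → Chart n W.X),
  (∀ t, x₀ t ∈ N ∧ β (x₀ t) = 0 ∧ At (e₀ t) (x₀ t)) →
  ∀ (I : Fin (r + 1) → Fin R) (J : Type) [Fintype J] (L : J → Bd W.X)
    (φ : ∀ j, (L j).ι → W.X → ℝ) (P : ∀ j, (L j).ι → W.X → ℂ) (f : J → Cm R → ℂ)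
    (i₀ : ∀ j, T → (L j).ι), (∀ j, LBOn n Ω (L j) (φ j) ∧ Frm n (φ j) N β ρ c₀ (P j) ∧
      Differentiable ℂ (f j) ∧ ∀ t, x₀ t ∈ (L j).U (i₀ j t)) →
  ∀ ε : ℝ, 0 < ε → ∃ Ψ, Wt n Ω N β Ψ ∧ ∀ j, ∃ b : Fr n (L j) (r + 1), Sol n h (φ j) Ψ b ∧ ∀ t,
    Jet (fun z => (f j (β ((e₀ t).symm z)) * P j (i₀ j t) ((e₀ t).symm z)) •
      dX (fun z k => β ((e₀ t).symm z) (I k)) z) (b (i₀ j t) (e₀ t)) (e₀ t (x₀ t)) ε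

/-- **LAM** -/
def LAM : Prop := ForV fun _ W _ _ _ _ _ V => Free V → ∃ (Λ : Bd W.X) (φ : _) (m : _), Lam V Λ φ m

section bun
variable {p : ℕ} {Y : Type} [TopologicalSpace Y] [ChartedSpace (Cm p) Y] {U : Set Y} {C : Cv Y U}
  {n : Type} [Fintype n] [DecidableEq n] {V : GV p C n} {l : Bd Y}

/-- `c Λ + a l` -/
def bun (Λ l : Bd Y) (U : Set Y) (c a : ℕ) : Bd Y := (Λ.pow c).mul ((res l U).pow a)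

/-- its weight -/
def bw {Λ : Bd Y} (φ : Λ.ι → Y → ℝ) (L : Ln V l) (c a : ℕ) : (bun Λ l U c a).ι → Y → ℝ :=
  fun i y => c * φ i.1 y + a * lw L i.2 y

/-- its coordinates -/
def bm {Λ : Bd Y} (m : Mx n → Λ.ι → C.X → ℂ) (L : Ln V l) (k : n) (c a : ℕ) :
    Mx n → (bun Λ l U c a).ι → C.X → ℂ := fun A i x => m A i.1 x ^ c * lm L k A i.2 x ^ a

end bun

/-- **LLB** -/
def LLB : Prop := ForV fun p W S C _ _ _ V => ∀ (l : Bd W.X) (L : Ln V l) Λ φ m, Lam V Λ φ m →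
  (∀ g, L.lam g = 1) → ∀ c a, LBOn p S.U (bun Λ l S.U c a) (bw φ L c a) ∧
    (∀ k, Dual V (bun Λ l S.U c a) (bw φ L c a) (bm m L k c a)) ∧
    ∀ i, ∀ e ∈ atlas (Cm p) W.X, ∀ σ z, Sc C e σ z → e.symm z ∈ (bun Λ l S.U c a).U i → ∀ v,
      4 * c * omH V.w (fun x => V.gr (σ x)) z v ≤ levi (fun x => bw φ L c a i (e.symm x)) z v

/-- **FLX**: transverse coordinates at a point of maximal rank -/
def FLX : Prop := ForV fun p W _ C _ _ _ V => ∀ r, RkLe V r → ∀ e ∈ atlas (Cm p) W.X, ∀ σ z,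
  Sc C e σ z → RkAt V r (e.symm z) → ∃ (X : Cm p → Cm r) (ε : ℝ), AnalyticAt ℂ X z ∧ 0 < ε ∧
    ∀ᶠ y in 𝓝 z, Function.Surjective (fderiv ℂ X y) ∧ ∀ v,
      (fderiv ℂ X y v = 0 → thS V σ y v = 0) ∧
      ε * ‖fderiv ℂ X y v‖ ^ 2 ≤ omH V.w (fun x => V.gr (σ x)) y v

/-- **TUBE** -/
def TUBE : Prop := ForV fun p W S C _ _ _ V => ∀ (l : Bd W.X) (L : Ln V l) Λ φ m h r,
  Lam V Λ φ m → (∀ g, L.lam g = 1) → L.Min → RkLe V r → (∃ y ∈ S.U, RkAt V r y) →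
  (∀ (e : Chart p W.X) x, At e x → x ∈ S.U → ∀ v, qd (omM V e (e x)) v ≤ qd (h e (e x)) v) →
  ∃ (R : ℕ) (ρ : ℝ) (N : Set W.X) (β : W.X → Cm R) (x₀ : W.X) (I : Fin r → Fin R), 0 < ρ ∧
    Tube p S.U h r ρ N β ∧ x₀ ∈ N ∧ β x₀ = 0 ∧ RkAt V r x₀ ∧ Ind p (fun k y => β y (I k)) x₀ ∧
    (∀ e σ x, At e x → x ∈ N → Sc C e σ (e x) → ∀ v, thS V σ (e x) v = 0 → dB β e x v = 0) ∧
    ∀ c₀ : ℝ, ∃ c a : ℕ, 0 < c ∧ 0 < a ∧ ∀ a' ∈ ({0, a} : Set ℕ), ∃ P,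
      Frm p (bw φ L c a') N β ρ c₀ P ∧ ∀ i, x₀ ∈ (bun Λ l S.U c a').U i → P i x₀ ≠ 0

/-- **PAR**: closed forms in the kernel of the curvature -/
def PAR : Prop := (∀ (n r : ℕ) (w Θ : Matrix (Fin n) (Fin n) ℂ) (b : Af n r)
    (T : Cm n →L[ℂ] Cm r) (ε : ℝ), w.PosDef → Θ.IsHermitian → Ad w Θ b = 0 → Function.Surjective T →
    0 < ε → (∀ v, ε * ‖T v‖ ^ 2 ≤ qd Θ v) → ∃ c : ℂ, b = c • (detF r).compContinuousLinearMap T) ∧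
  ∀ (n r : ℕ) (X : Cm n → Cm r) (b : Cm n → Af n r) (φ : Cm n → ℝ) (z : Cm n), AnalyticAt ℂ X z →
    Function.Surjective (fderiv ℂ X z) → AnalyticAt ℂ b z → (∀ᶠ y in 𝓝 z, ∃ c : ℂ, b y = c • dX X y) →
    dhL φ b z = 0 → dX X z ≠ 0 ∧ ∃ f : Cm n → ℂ, AnalyticAt ℂ f z ∧ (∀ᶠ y in 𝓝 z, b y = f y • dX X y) ∧
      ∀ v, fderiv ℂ X z v = 0 → fderiv ℂ f z v = f z * dv φ z v

/-- a polynomial family of functions of exponential growth on the model -/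
structure Gw {n : Type} [Fintype n] [DecidableEq n] {p : ℕ} (K : Finset (Fin p))
    (T : Fin p → Matrix n n ℤ) (F : Mx n → Cm p → ℂ) : Prop where
  an : ∀ A, AnalyticOnNhd ℂ (F A) (Dm K)
  sh : ∀ A, ∀ i ∈ K, ∀ ζ ∈ Dm K, F A (ζ + Pi.single i 1) = F (A * cz (T i)) ζ
  poly : ∃ d : ℕ, ∀ ζ ∈ Dm K, ∃ P : MvPolynomial (n × n) ℂ, P.totalDegree ≤ d ∧
    ∀ A, F A ζ = MvPolynomial.eval (fun ab => A ab.1 ab.2) P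
  gr : ∀ A, ∃ M : ℝ, ∀ R η : ℝ, 0 < η → ∃ B : ℝ, ∀ ζ ∈ St K R η,
    ‖F A ζ‖ ≤ B * Real.exp (M * ∑ i ∈ K, (ζ i).im)

/-- **GROW** -/
def GROW : Prop := ForV fun p W S C n _ _ V => ∀ (L : Bd W.X) φ m, LBOn p S.U L φ → Dual V L φ m →
  ∀ (k : ℕ) (b : Fr p L k), HolF p b → L2F p φ b → ∀ y, ∃ O ∈ 𝓝 y, ∀ ρ f g, BdL S C y ρ f g →
  (∀ z ∈ Metric.ball (chartAt (Cm p) y y) ρ, (chartAt (Cm p) y).symm z ∈ O) →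
  ∀ J : Fin k → Fin p, ∃ F : Mx n → Cm p → ℂ, Gw (S.K y) (fun i => V.ρ (g i)) F ∧
    ∀ A, ∀ ζ ∈ Dm (S.K y), ∀ i, C.π (f ζ) ∈ L.U i → F A ζ =
      ev (b i (chartAt (Cm p) y) (chartAt (Cm p) y (C.π (f ζ)))) J * m A i (f ζ)

/-- **MERQ** -/
def MERQ : Prop := ∀ (n : Type) [Fintype n] [DecidableEq n] (p : ℕ) (K : Finset (Fin p)) (Q : Mx n)
  (T : Fin p → Matrix n n ℤ) (a : ℕ) (N : Fin p → Mx n) (F₀ F₁ : Mx n → Cm p → ℂ),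
  Un K Q T a N → Gw K T F₀ → Gw K T F₁ → (∃ A, ∃ ζ ∈ Dm K, F₀ A ζ ≠ 0) →
  (Dm K ⊆ closure {ζ | ζ ∈ Dm K ∧ ∃ c : ℂ, ∀ A, F₁ A ζ = c * F₀ A ζ}) →
  ∃ φ₀ φ₁ : Cm p → ℂ, AnalyticOnNhd ℂ φ₀ (Metric.ball 0 1) ∧ AnalyticOnNhd ℂ φ₁ (Metric.ball 0 1) ∧
    (∃ σ ∈ Metric.ball (0 : Cm p) 1, φ₀ σ ≠ 0) ∧
    ∀ ζ ∈ Dm K, ∀ c : ℂ, (∀ A, F₁ A ζ = c * F₀ A ζ) → φ₁ (ex K 1 ζ) = c * φ₀ (ex K 1 ζ)

/-- **RAT**: the ratios are meromorphic -/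
def RAT : Prop := ForV fun p W S _ _ _ _ V => ∀ (l : Bd W.X) (L : Ln V l) Λ φ m, Lam V Λ φ m →
  (∀ g, L.lam g = 1) → L.Mod → ∀ (c a k : ℕ) (b₀ : Fr p (bun Λ l S.U c 0) k)
  (b₁ : Fr p (bun Λ l S.U c a) k) (D : Set W.X) (q : l.ι → W.X → ℂ), HolF p b₀ → HolF p b₁ →
  L2F p (bw φ L c 0) b₀ → L2F p (bw φ L c a) b₁ → IsOpen D → Dense D →
  (∀ y ∈ D, ∀ i t e, At e y → y ∈ (bun Λ l S.U c 0).U (i, t) → b₀ (i, t) e (e y) ≠ 0 ∧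
    b₁ (i, t) e (e y) = q t y • b₀ (i, t) e (e y)) → ∀ t, ∀ y ∈ l.U t, Mer p (q t) y

/-- the conclusion of the block, for the rank `r` -/
def LeafR (r : ℕ) : Prop := ForV fun _ W S _ _ _ _ V => ∀ (l : Bd W.X) (L : Ln V l),
  ConnectedSpace W.X → W.Kah → Free V → (∀ g, L.lam g = 1) → L.Min → L.Mod → RkLe V r →
  (∃ y ∈ S.U, RkAt V r y) → ∃ u a q B, Leaf L r u a q B

/-- **R0** -/
def R0 : Prop := LeafR 0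

/-- **LEAF** -/
def LEAF : Prop := ∀ r, LeafR (r + 1)

/-! ### descent -/

/-- **FIB** -/
def FIB : Prop := ∀ (p : ℕ) (W : Mf p) (r : ℕ) (u : Fin r → W.X → ℂ) (B₀ : Set W.X),
  ConnectedSpace W.X → W.Kah → Thin p B₀ → (∀ j x, Mer p (u j) x) → (∀ j, ∀ x ∉ B₀, Hol p (u j) x) →
  (∃ x ∉ B₀, Ind p u x) → Nonempty (Fo W u B₀)

/-- **TP** -/
def TP : Prop := ForV fun _ W _ _ _ _ _ V => ∀ (l : Bd W.X) (L : Ln V l) r u a q B,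
  (∀ g, L.lam g = 1) → Leaf L r u a q B → ∃ V₁ Ψ, Tp L a q B V₁ Ψ ∧ Fl V₁ Ψ u B

/-- **GERM** -/
def GERM : Prop := ForV fun p W S _ _ _ _ V => ∀ (r : ℕ) (u : Fin r → W.X → ℂ) B₀ (F : Fo W u B₀) Ψ,
  ConnectedSpace W.X → B₀ᶜ ⊆ S.U → Fl (p := p) V Ψ u B₀ → Nonempty (Desc F V Ψ)

/-- **ZED** -/
def ZED : Prop := ForV fun _ W _ _ _ _ _ V => ∀ (l : Bd W.X) (L : Ln V l) r u a q B V₁ Ψ
  (F : Fo W u B) (D : Desc F V₁ Ψ), Leaf L r u a q B → Tp L a q B V₁ Ψ → L.Min →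
  D.L'.Min ∧ ∃ z ∈ F.S.U, RkAt D.V' r z

/-- **MS**: a local multisection at a general point of a component -/
def MS : Prop := ∀ (p : ℕ) (W : Mf p) (r : ℕ) (u : Fin r → W.X → ℂ) B₀ (F : Fo W u B₀) l,
  (F.S.G0 l).Nonempty → ∃ x, F.γ x ∈ F.S.G0 l ∧ ∀ ζ : Fin F.k → F.W'.X → ℂ,
    (∀ k, LEq p (F.G k) x (ζ k)) → ∀ O ∈ 𝓝 x, ∃ (c : ℝ) (A : ℕ), 0 < c ∧
      ∀ᶠ z in 𝓝 (F.γ x), z ∈ F.S.U → ∃ x' ∈ O, x' ∈ off F.G ∧ F.γ x' = z ∧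
        c * F.S.ab (F.γ x) l (chartAt (Cm r) (F.γ x) z) ^ A ≤ ∏ k, ‖ζ k x'‖

/-- **MODZ** -/
def MODZ : Prop := ForV fun _ W _ _ _ _ _ V => ∀ (l : Bd W.X) (L : Ln V l) r u a q B V₁ Ψ
  (F : Fo W u B) (D : Desc F V₁ Ψ), Leaf L r u a q B → Tp L a q B V₁ Ψ → L.Mod → D.L'.Mod

/-- **OUT** -/
def OUT : Prop := ForV fun _ W S _ n _ _ V => ∀ (l : Bd W.X) (L : Ln V l) r u a q B V₁ Ψ
  (F : Fo W u B) (D : Desc F V₁ Ψ) α a' m O σ A, Leaf L r u a q B → Tp L a q B V₁ Ψ →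
  (Zd.mk F.Z F.S D.C' (Fin a → n) D.V' D.L' α a' m O σ A).Ok →
  (Zd.mk F.Z F.S D.C' (Fin a → n) D.V' D.L' α a' m O σ A).Nef →
  (Zd.mk F.Z F.S D.C' (Fin a → n) D.V' D.L' α a' m O σ A).Theta → Nonempty (Out W S.U l L.hY)

/-! ### sections on `Z` -/

/-- **BPF** -/
def BPF : Prop := ∀ (r : ℕ) (Z : Mf r) (A : Bd Z.X), IsLB r A → Pos r A →
  ∃ k, 0 < k ∧ IsLB r (A.pow k) ∧ Pos r (A.pow k) ∧ Bpf r (A.pow k)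

/-- **NEF** -/
def NEF : Prop := ∀ (r : ℕ) (D : Zd r), D.Ok → D.Nef

/-- **NU** -/
def NU : Prop := ∀ (r : ℕ) (D : Zd r), D.Ok → ∃ ν, D.Nu ν

/-- **LOW** -/
def LOW : Prop := ∀ (r : ℕ) (D : Zd r), D.Ok → ∀ ν, D.Nu ν → ∀ T : Finset (Fin D.S.r),
  (∀ l ∉ T, D.V.Scalar l) → ∃ (d : ℝ) (N₁ : ℕ), 0 < d ∧ ∀ N c : ℕ, N₁ ≤ N → N ≤ c →
    ∃ k : ℕ, d * (N : ℝ) ^ (r - ν) * (c : ℝ) ^ ν ≤ k ∧ Ge r (lin D.E (D.ex T N c)) k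

/-- **STEP**: restriction to a smooth divisor -/
def STEP : Prop := ∀ (d : ℕ) (X : Mf (d + 1)) (α : Type) [Fintype α] [DecidableEq α]
  (E : α → Bd X.X) (a : α) (σ : (E a).ι → X.X → ℂ) (H : Set X.X) (F : Mf d) (i : F.X → X.X)
  (n : α → ℤ) (k K : ℕ), (∀ b, IsLB (d + 1) (E b)) → IsDiv (d + 1) H (E a) σ → Emb d (d + 1) i H →
  (∀ k', Ge d (lin (fun b => pull i (E b)) n) k' → k' ≤ K) → Ge (d + 1) (lin E n) k →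
  Ge (d + 1) (lin E (n - Pi.single a 1)) (k - K)

/-- **SLICE** -/
def SLICE : Prop := ∀ (n : ℕ) (X : Mf n) (A : Bd X.X) (κ : Type) [Fintype κ] (G : κ → Set X.X),
  IsLB n A → Bpf n A → P277Z.Slc.Snc n G →
  ∃ H σ, IsDiv n H A σ ∧ P277Z.Slc.Snc n fun o : Option κ => o.elim H G

/-- **PULL** -/
def PULL : Prop := ∀ (d : ℕ) (X : Mf (d + 1)) (κ : Type) [Fintype κ] (G : κ → Set X.X)
  (H : Set X.X), (P277Z.Slc.Snc (d + 1) fun o : Option κ => o.elim H G) →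
  (IsClosed H ∧ SubM (d + 1) d H) ∧ ∀ (F : Mf d) (i : F.X → X.X), Emb d (d + 1) i H →
    (P277Z.Slc.Snc d fun l => i ⁻¹' G l) ∧
    (∀ x l ζ, LEq (d + 1) (G l) (i x) ζ → LEq d (i ⁻¹' G l) x fun y => ζ (i y)) ∧
    ∀ L : Bd X.X, IsLB (d + 1) L → IsLB d (pull i L) ∧ (Pos (d + 1) L → Pos d (pull i L)) ∧
      (Bpf (d + 1) L → Bpf d (pull i L)) ∧ ∀ φ μ, NullW (d + 1) G L φ μ →
        NullW d (fun l => i ⁻¹' G l) (pull i L) (fun j y => φ j (i y)) μ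

/-- **VAN**: the maximum principle -/
def VAN : Prop := ∀ (d : ℕ) (X : Mf d) (α : Type) [Fintype α] (E : α → Bd X.X) (a₀ a₁ : α)
  (κ : Type) [Fintype κ] (G : κ → Set X.X) φ (μ : ℕ), a₀ ≠ a₁ → (∀ a, IsLB d (E a)) →
  Pos d (E a₀) → P277Z.Slc.Snc d G → NullW d G (E a₁) φ μ → μ < d →
  ∃ b : ℕ, ∀ (N : ℕ) (n : α → ℤ), 0 ≤ n a₁ → (∀ a, a ≠ a₀ → a ≠ a₁ → |n a| ≤ N) →
    n a₀ ≤ -(b * (N + 1)) → ∀ s, IsSec d (lin E n) s → ∀ i, ∀ x ∈ (lin E n).U i, s i x = 0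

/-- **POLY** -/
def POLY : Prop := ∀ (d : ℕ) (X : Mf d) (α : Type) [Fintype α] (E : α → Bd X.X) (a₀ : α),
  (∀ a, IsLB d (E a)) → Pos d (E a₀) → Bpf d (E a₀) → ∃ C : ℕ, ∀ (N : ℕ) (n : α → ℤ),
    (∀ a, |n a| ≤ N) → ∀ k, Ge d (lin E n) k → k ≤ C * (N + 1) ^ d

/-- **CNT** -/
def CNT : Prop := ∀ (d : ℕ) (X : Mf d) (α : Type) [Fintype α] (E : α → Bd X.X) (a₀ a₁ : α)
  (κ : Type) [Fintype κ] (G : κ → Set X.X) φ (μ : ℕ), a₀ ≠ a₁ → (∀ a, IsLB d (E a)) →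
  Pos d (E a₀) → Bpf d (E a₀) → P277Z.Slc.Snc d G → NullW d G (E a₁) φ μ →
  ∃ C : ℕ, ∀ (N c : ℕ) (n : α → ℤ), n a₁ = c → (∀ a, a ≠ a₁ → |n a| ≤ N) →
    ∀ k, Ge d (lin E n) k → k ≤ C * (N + 1) ^ (d - μ) * (N + c + 1) ^ μ

/-- **RESTR**: the limit metric on a boundary component -/
def RESTR : Prop := ∀ (d : ℕ) (D : Zd (d + 1)), D.Ok → ∀ ν l, D.L.Drop D.α ν l →
  ((D.S.G0 l).Nonempty → 1 ≤ ν) ∧ ∀ (F : Mf d) (i : F.X → D.Z.X), Emb d (d + 1) i (D.S.G l) →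
    ∃ φ, NullW d (fun l' : {l' // l' ≠ l} => i ⁻¹' D.S.G l') (pull i D.M) φ (ν - 1)

/-- **THETA** -/
def THETA : Prop := ∀ (r : ℕ) (D : Zd r), D.Ok → D.Theta

end Vale.Agent.P281Z.Lf
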