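import Vale.Agent.P281Z.Lf.Sk
import Vale.Agent.P281Z.Hm.Flag
import Vale.Agent.P281Z.Hm.Line
import Vale.Agent.P281Z.Hm.Lip
import Vale.Agent.P281Z.Hm.Cpt

/-!
# P281Z, tubes: coordinates on the space of gradings with a line
-/

set_option linter.unusedSectionVars false

open scoped Topology ComplexConjugate ComplexOrder Matrix.Norms.Operator
open Set Filter Matrix
open Vale.Agent.P281Z.Hm

noncomputable section

namespace Vale.Agent.P281Z.Lf.Tb

variable {n : Type} [Fintype n] [DecidableEq n] {s s' : n → ℂ} {A Q : Mx n} {c : ℂ} {k : n} {w : ℕ}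

/-- the orthogonal projector on the line of `s` -/
def pj (s : n → ℂ) : Mx n := (star s ⬝ᵥ s)⁻¹ • vecMulVec s (star s)

theorem dot_ne (hs : s ≠ 0) : star s ⬝ᵥ s ≠ 0 := mt dotProduct_star_self_eq_zero.1 hs

theorem pj_mulVec (s t : n → ℂ) : pj s *ᵥ t = ((star s ⬝ᵥ s)⁻¹ * (star s ⬝ᵥ t)) • s := by
  rw [pj, smul_mulVec, vecMulVec_mulVec, op_smul_eq_smul, smul_smul]

theorem pj_self (hs : s ≠ 0) : pj s *ᵥ s = s := by
  rw [pj_mulVec, inv_mul_cancel₀ (dot_ne hs), one_smul]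

theorem pj_smul (hc : c ≠ 0) (s : n → ℂ) : pj (c • s) = pj s := by
  have h : star c ≠ 0 := star_ne_zero.2 hc
  simp only [pj, star_smul, smul_dotProduct, dotProduct_smul, smul_vecMulVec, vecMulVec_smul,
    smul_smul, smul_eq_mul]
  congr 1
  field_simp

theorem mul_pj (A : Mx n) (s : n → ℂ) :
    A * pj s = (star s ⬝ᵥ s)⁻¹ • vecMulVec (A *ᵥ s) (star s) := by
  rw [pj, Matrix.mul_smul, mul_vecMulVec]

theorem rel_pj (hs : s' ≠ 0) (h : A *ᵥ s = c • s') : pj s' * A * pj s = A * pj s := by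
  rw [mul_pj, mul_pj, ← mulVec_mulVec, h, mulVec_smul, pj_self hs]

theorem of_rel (hs : s ≠ 0) (h : pj s' * A * pj s = A * pj s) : ∃ c : ℂ, A *ᵥ s = c • s' := by
  have e := congrArg (· *ᵥ s) h
  simp only [← mulVec_mulVec, pj_self hs] at e
  exact ⟨_, e.symm.trans (pj_mulVec _ _)⟩

theorem tr_pj (hs : s ≠ 0) (h : A *ᵥ s = c • s) : trace (A * pj s) = c := by
  rw [mul_pj, h, trace_smul, trace_vecMulVec, smul_dotProduct, dotProduct_comm s, smul_eq_mul,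
    smul_eq_mul, mul_left_comm, inv_mul_cancel₀ (dot_ne hs), mul_one]

/-- the normalised generator of the line -/
def nr (k : n) (M : Mx n) : n → ℂ := fun a => (M k k)⁻¹ * M a k

theorem pj_kk (hs : s ≠ 0) : pj s k k ≠ 0 ↔ s k ≠ 0 := by
  simp [pj, vecMulVec_apply, dot_ne hs]

theorem nr_pj (hs : s k ≠ 0) : nr k (pj s) = (s k)⁻¹ • s := by
  have h1 := dot_ne (s := s) fun e => hs (congrFun e k)
  have h2 : star (s k) ≠ 0 := star_ne_zero.2 hs
  funext a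
  simp only [nr, pj, Matrix.smul_apply, vecMulVec_apply, Pi.star_apply, smul_eq_mul, Pi.smul_apply]
  field_simp

theorem an_pj {E : Type} [NormedAddCommGroup E] [NormedSpace ℝ E] {ψ : E → n → ℂ} {z : E}
    (h : AnalyticAt ℝ ψ z) (h0 : ψ z ≠ 0) : AnalyticAt ℝ (fun x => pj (ψ x)) z :=
  an_of fun i j => ((an_dot (an_star h) h).inv (dot_ne h0)).mul
    ((an_crd h i).mul (an_crd (an_star h) j))

/-- the space of lines -/
def Ls (n : Type) [Fintype n] : Set (Mx n) := {M | ∃ s ≠ 0, M = pj s}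

theorem cpt_Ls : IsCompact (Ls n) := by
  have e : Ls n = pj '' Metric.sphere 0 1 := by
    refine Subset.antisymm ?_ ?_
    · rintro _ ⟨s, hs, rfl⟩
      have h : ((‖s‖⁻¹ : ℝ) : ℂ) ≠ 0 := by simpa using hs
      refine ⟨((‖s‖⁻¹ : ℝ) : ℂ) • s, ?_, pj_smul h s⟩
      simpa [norm_smul] using inv_mul_cancel₀ (norm_ne_zero_iff.2 hs)
    · rintro _ ⟨s, hs, rfl⟩
      exact ⟨s, ne_zero_of_mem_unit_sphere ⟨s, hs⟩, rfl⟩
  exact e ▸ (isCompact_sphere _ _).image_of_continuousOn fun s hs =>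
    (an_pj analyticAt_id (ne_zero_of_mem_unit_sphere ⟨s, hs⟩)).continuousAt.continuousWithinAt

/-- gradings with a line -/
abbrev Dt (n : Type) : Type := Gr n × Mx n

/-- the target of the coordinates -/
abbrev Et (w : ℕ) (n : Type) : Type := (Fin (w + 1) → Mx n) × (n → ℂ)

/-- the coordinates -/
def co (w : ℕ) (π₀ : Gr n) (k : n) (d : Dt n) : Et w n := (fun q => flag w π₀ d.1 q, nr k d.2)

/-- their domain -/
def Good (w : ℕ) (π₀ : Gr n) (k : n) (d : Dt n) : Prop := Near w π₀ d.1 ∧ d.2 k k ≠ 0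

/-- the Hodge metric is bounded -/
def Bn (Q : Mx n) (w : ℕ) (B : ℝ) (π : Gr n) : Prop := ∀ s, hn (gH Q w π) s ≤ B * ‖s‖ ^ 2

/-- `A` maps `d` to `d'` -/
def Rel (A : Mx n) (d d' : Dt n) : Prop :=
  (∀ q, d'.1 q * A = A * d.1 q) ∧ d'.2 * A * d.2 = A * d.2

variable {π₀ π : Gr n} {d d' d₀ : Dt n} {B : ℝ}

theorem cont_tm (w : ℕ) (π₀ : Gr n) (q : ℕ) : Continuous fun π => tm w π₀ π q := by
  unfold tm gF
  fun_prop

theorem cont_co (h : Good w π₀ k d) : ContinuousAt (co w π₀ k) d := by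
  refine .prodMk (continuousAt_pi.2 fun q => .mul ?_ continuousAt_const)
    (continuousAt_pi.2 fun a => .mul (.inv₀ (by fun_prop) h.2) (by fun_prop))
  refine (continuousAt_matrix_inv _ ?_).comp (f := fun d : Dt n => tm w π₀ d.1 q)
    ((cont_tm w π₀ q).comp continuous_fst).continuousAt
  rw [Ring.inverse_eq_inv']
  exact continuousAt_inv₀ (h.1 q).ne_zero

theorem good_ev (h : Good w π₀ k d) : ∀ᶠ d' in 𝓝 d, Good w π₀ k d' := by
  have h1 : ∀ᶠ d' in 𝓝 d, ∀ q ∈ Finset.range (w + 1), (tm w π₀ d'.1 q).det ≠ 0 :=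
    (eventually_all_finset _).2 fun q _ => (((cont_tm w π₀ q).comp
      continuous_fst).matrix_det.continuousAt).eventually_ne (h.1 q).ne_zero
  filter_upwards [h1, (by fun_prop : ContinuousAt (fun d' : Dt n => d'.2 k k) d).eventually_ne h.2]
    with d' a b
  refine ⟨fun q => ?_, b⟩
  by_cases hq : q ≤ w
  · exact (a q (Finset.mem_range.2 (by omega))).isUnit
  · simp [tm, gF, Finset.Icc_eq_empty hq]

theorem co_inj (h₀ : Hs Q w π₀) (h : Hs Q w d.1) (h' : Hs Q w d'.1) (l : d.2 ∈ Ls n)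
    (l' : d'.2 ∈ Ls n) (g : Good w π₀ k d) (g' : Good w π₀ k d') (e : co w π₀ k d = co w π₀ k d') :
    d = d' := by
  obtain ⟨s, hs, e1⟩ := l
  obtain ⟨s', hs', e2⟩ := l'
  have a := (pj_kk hs).1 (e1 ▸ g.2)
  have a' := (pj_kk hs').1 (e2 ▸ g'.2)
  have e3 : nr k d.2 = nr k d'.2 := congrArg Prod.snd e
  refine Prod.ext ((stFlagA n Q w π₀ h₀).2.2.2 _ _ h h' g.1 g'.1 fun q hq =>
    congrFun (congrArg Prod.fst e) ⟨q, by omega⟩) ?_
  rw [e1, e2, nr_pj a, nr_pj a'] at e3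
  rw [e1, e2, ← pj_smul (inv_ne_zero a), e3, pj_smul (inv_ne_zero a')]

theorem bn_ev (Q : Mx n) (w : ℕ) (π₀ : Gr n) : ∃ B, ∀ᶠ π in 𝓝 π₀, Bn Q w B π := by
  have h : Continuous fun π : Gr n => ‖gH Q w π‖ := by
    unfold gH gC
    fun_prop
  refine ⟨Fintype.card n * (‖gH Q w π₀‖ + 1), ?_⟩
  filter_upwards [h.continuousAt.eventually_lt continuousAt_const (lt_add_one _)] with π a s
  refine (Cp.hn_le _ s).trans ?_
  gcongr

theorem Bn.mono (h : Bn Q w B π) {B' : ℝ} (hB : B ≤ B') : Bn Q w B' π := fun s =>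
  (h s).trans (by gcongr)

/-- properness -/
theorem fin (Q : Mx n) (w : ℕ) (B : ℝ) : {g : Matrix n n ℤ | (cz g)ᴴ * Q * cz g = Q ∧
    ∃ π π' : Gr n, Hs Q w π ∧ Hs Q w π' ∧ Bn Q w B π ∧ Bn Q w B π' ∧
      ∀ q, π' q * cz g = cz g * π q}.Finite := by
  obtain ⟨B', h⟩ := (stCpt n Q w B).1
  exact (stProp n Q w B').subset fun g ⟨a, π, π', b, b', c, c', e⟩ =>
    ⟨a, π, π', b, b', fun q => ⟨(h π b c).1 q, (h π' b' c').1 q⟩, e⟩

theorem closed_rel (A : Mx n) : IsClosed {x : Dt n × Dt n | Rel A x.1 x.2} := by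
  simp only [Rel, ofPred_and, ofPred_forall]
  exact (isClosed_iInter fun q => isClosed_eq (by fun_prop) (by fun_prop)).inter
    (isClosed_eq (by fun_prop) (by fun_prop))

/-- near `d₀` only the stabiliser of `d₀` acts -/
theorem sep (Q : Mx n) (w : ℕ) (d₀ : Dt n) : ∃ W ∈ 𝓝 d₀, ∀ d ∈ W, ∀ d' ∈ W, ∀ g : Matrix n n ℤ,
    (cz g)ᴴ * Q * cz g = Q → Hs Q w d.1 → Hs Q w d'.1 → Rel (cz g) d d' → Rel (cz g) d₀ d₀ := by
  obtain ⟨B, hB⟩ := bn_ev Q w d₀.1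
  have h1 := (eventually_all_finite (fin Q w B)).2 fun g _ =>
    (by
      by_cases h : Rel (cz g) d₀ d₀
      · exact .of_forall fun _ _ => h
      · exact (closed_rel (cz g)).isOpen_compl.eventually_mem h |>.mono fun _ a b => absurd b a :
      ∀ᶠ x : Dt n × Dt n in 𝓝 (d₀, d₀), Rel (cz g) x.1 x.2 → Rel (cz g) d₀ d₀)
  rw [nhds_prod_eq] at h1
  obtain ⟨W, hW, h2⟩ := eventually_prod_self_iff'.1 h1
  exact ⟨_, inter_mem hW (continuousAt_fst.eventually hB), fun d a d' a' g b c c' e =>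
    h2 d a.1 d' a'.1 g ⟨b, _, _, c, c', a.2, a'.2, e.1⟩ e⟩

/-- small tubes are closed -/
theorem shrink (h₀ : Hs Q w d₀.1) (l₀ : d₀.2 ∈ Ls n) (hk : d₀.2 k k ≠ 0) {W : Set (Dt n)}
    (hW : W ∈ 𝓝 d₀) : ∃ (O O' : Set (Dt n)) (B ρ : ℝ), IsOpen O ∧ IsClosed O' ∧ d₀ ∈ O ∧ O' ⊆ O ∧
      O ⊆ W ∧ 0 < ρ ∧ (∀ d ∈ O, Good w d₀.1 k d ∧ Bn Q w B d.1 ∧ ‖co w d₀.1 k d‖ ≤ B) ∧
      ∀ d ∈ O, Hs Q w d.1 → d.2 ∈ Ls n → ‖co w d₀.1 k d - co w d₀.1 k d₀‖ ≤ ρ → d ∈ O' := by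
  have g₀ : Good w d₀.1 k d₀ := ⟨(stFlagA n Q w _ h₀).1, hk⟩
  obtain ⟨B, hB⟩ := bn_ev Q w d₀.1
  obtain ⟨O₂, h1, h2, h3⟩ := exists_mem_nhds_isClosed_subset (inter_mem hW ((good_ev g₀).and
    ((continuousAt_fst.eventually hB).and ((cont_co g₀).norm.eventually_lt continuousAt_const
      (lt_add_one _)))))
  obtain ⟨O', h4, h5, h6⟩ := exists_mem_nhds_isClosed_subset (interior_mem_nhds.2 h1)
  have h7 := ((stCpt n Q w B).2.prod cpt_Ls).inter_right (h2.sdiff (isOpen_interior (s := O')))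
  obtain ⟨a, ha, h8⟩ := h7.exists_forall_le' (f := fun d => ‖co w d₀.1 k d - co w d₀.1 k d₀‖)
    (fun d hd => ((cont_co (h3 hd.2.1).2.1).sub continuousAt_const).norm.continuousWithinAt)
    (a := 0) fun d hd => norm_pos_iff.2 (sub_ne_zero.2 fun e => hd.2.2
      (co_inj h₀ hd.1.1.1 h₀ hd.1.2 l₀ (h3 hd.2.1).2.1 g₀ e ▸ mem_interior_iff_mem_nhds.2 h4))
  refine ⟨interior O₂, O', max B (‖co w d₀.1 k d₀‖ + 1), a / 2, isOpen_interior, h5,
    mem_interior_iff_mem_nhds.2 h1, h6, fun d hd => (h3 (interior_subset hd)).1, half_pos ha,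
    fun d hd => ?_, fun d hd b c e => by_contra fun f => ?_⟩
  · have := (h3 (interior_subset hd)).2
    exact ⟨this.1, this.2.1.mono (le_max_left _ _), this.2.2.le.trans (le_max_right _ _)⟩
  · have := h8 d ⟨⟨⟨b, (h3 (interior_subset hd)).2.2.1⟩, c⟩, interior_subset hd,
      fun g => f (interior_subset g)⟩
    linarith

/-- the differential of the coordinates -/
def dco (k : n) (π : Gr n) (f : Et w n) (A : Mx n) : Et w n :=
  (fun q => (1 - f.1 q) * A * π q * f.1 q, A *ᵥ f.2 - (A *ᵥ f.2) k • f.2)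

theorem dco_le {f : Et w n} (h1 : ‖f‖ ≤ B) (h2 : ∀ q, ‖π q‖ ≤ B) (A : Mx n) :
    ‖dco k π f A‖ ≤ (1 + B) ^ 3 * ‖A‖ := by
  have : Nonempty n := ⟨k⟩
  have hB := (norm_nonneg _).trans h1
  have hA := norm_nonneg A
  have a : ∀ q, ‖f.1 q‖ ≤ B := fun q => (norm_le_pi_norm _ q).trans ((norm_fst_le f).trans h1)
  have b : ‖f.2‖ ≤ B := (norm_snd_le f).trans h1
  have c : ‖A *ᵥ f.2‖ ≤ ‖A‖ * B := (linfty_opNorm_mulVec _ _).trans (by gcongr)
  refine max_le ((pi_norm_le_iff_of_nonneg (by positivity)).2 fun q => ?_) ?_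
  · have e : ‖1 - f.1 q‖ ≤ 1 + B := (norm_sub_le _ _).trans (by rw [norm_one]; gcongr; exact a q)
    calc _ ≤ ‖1 - f.1 q‖ * ‖A‖ * ‖π q‖ * ‖f.1 q‖ := (norm_mul_le _ _).trans (by
          gcongr; exact (norm_mul_le _ _).trans (by gcongr; exact norm_mul_le _ _))
      _ ≤ (1 + B) * ‖A‖ * (1 + B) * (1 + B) := by
          gcongr
          exacts [(h2 q).trans (by linarith), (a q).trans (by linarith)]
      _ = _ := by ring
  · calc _ ≤ ‖A‖ * B + ‖A‖ * B * B := (norm_sub_le _ _).trans (by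
          rw [norm_smul]; gcongr; exact (norm_le_pi_norm _ k).trans c)
      _ ≤ _ := by nlinarith [mul_nonneg hA hB, mul_nonneg (mul_nonneg hA hB) hB,
          mul_nonneg (mul_nonneg (mul_nonneg hA hB) hB) hB]

section loc
variable {p : ℕ} {π : (Fin p → ℂ) → Gr n} {ψ : (Fin p → ℂ) → n → ℂ} {z : Fin p → ℂ}

theorem der (h : LVAt Q w π z) (l : LnAt w π ψ z) (h₀ : Hs Q w π₀)
    (g : Good w π₀ k (π z, pj (ψ z))) : AnalyticAt ℂ (fun x => co w π₀ k (π x, pj (ψ x))) z ∧ ∀ v,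
      fderiv ℂ (fun x => co w π₀ k (π x, pj (ψ x))) z v =
        dco k (π z) (co w π₀ k (π z, pj (ψ z))) (th w π z v) ∧
      (fderiv ℂ (fun x => co w π₀ k (π x, pj (ψ x))) z v = 0 → th w π z v = 0) := by
  obtain ⟨-, h1⟩ := stFlag n _ Q w π z π₀ h h₀ g.1
  have a := (pj_kk l.ne).1 g.2
  have a1 := an_crd l.an k
  have e : (fun x => (ψ x k)⁻¹ • ψ x) =ᶠ[𝓝 z] fun x => nr k (pj (ψ x)) :=
    (a1.continuousAt.eventually_ne a).mono fun x hx => (nr_pj hx).symm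
  have d1 : HasFDerivAt (fun x (q : Fin (w + 1)) => flag w π₀ (π x) q) _ z :=
    hasFDerivAt_pi.2 fun q => (h1 q).1.differentiableAt.hasFDerivAt
  have d2 := ((hasDerivAt_inv a).comp_hasFDerivAt z
    (hasFDerivAt_pi'.1 l.an.differentiableAt.hasFDerivAt k)).smul l.an.differentiableAt.hasFDerivAt
  have d3 := (d1.prodMk (d2.congr_of_eventuallyEq e.symm)).fderiv
  refine ⟨(analyticAt_pi_iff.2 fun q : Fin (w + 1) => (h1 q).1).prod (((a1.inv a).smul l.an).congr e),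
    fun v => ⟨?_, fun h0 => h.hs0.ext_right fun q hq => ?_⟩⟩
  · obtain ⟨c, hc⟩ := LineH.der h l v
    refine (DFunLike.congr_fun d3 v).trans (Prod.ext (funext fun q => ((h1 q).2 v).2) ?_)
    funext b
    simp [dco, co, nr_pj a, hc, mulVec_smul]
    field_simp
    ring
  · have := congrFun (congrArg Prod.fst ((DFunLike.congr_fun d3 v).symm.trans h0)) ⟨q, by omega⟩
    rw [((h1 q).2 v).1, show fderiv ℂ (fun x => flag w π₀ (π x) q) z v = 0 from this]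
    simp

end loc

end Vale.Agent.P281Z.Lf.Tb
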