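import Vale.Agent.P281Z.Lf.TubeA
import Vale.Agent.P281Z.Hm.Br

/-!
# P281Z, tubes: the period map with the line, general points
-/

set_option linter.unusedSectionVars false

open scoped Topology ComplexConjugate ComplexOrder Matrix.Norms.Operator
open Set Filter Matrix
open Vale.Agent.P272.K Vale.Agent.P285.H281.FD
open Vale.Agent.P281Z.Hm hiding Bd Fr

noncomputable section

namespace Vale.Agent.P281Z.Lf.Tb

variable {p : ℕ} {W : Mf p} {S : Hm.Snc p W.X} {C : Cv W.X S.U} {n : Type} [Fintype n]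
  [DecidableEq n] {V : GV p C n} {l : Bd W.X} (L : Ln V l) {i : l.ι} {x : C.X} {g g' : C.Γ}
  {e : Chart p W.X} {σ σ' : Cm p → C.X} {z : Cm p}

theorem open_U (C : Cv W.X S.U) : IsOpen S.U :=
  (Subset.antisymm (range_subset_iff.2 C.mem) C.surj : range C.π = S.U) ▸
    (Br.loc C).isOpenMap.isOpen_range

/-- an index -/
def ix (x : C.X) : l.ι := (L.lb.cover (C.π x)).choose

theorem ix_mem (x : C.X) : C.π x ∈ l.U (ix L x) := (L.lb.cover (C.π x)).choose_spec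

theorem ψ_ne (hx : C.π x ∈ l.U i) : L.ψ i x ≠ 0 := (L.ln i ℂ _ 0 (Cv.lift_const x 0) hx).ne

/-- the grading and the line -/
def D (x : C.X) : Dt n := (V.gr x, pj (L.ψ (ix L x) x))

theorem D_eq (hx : C.π x ∈ l.U i) : D L x = (V.gr x, pj (L.ψ i x)) := by
  rw [D, L.ch i _ x hx (ix_mem L x), pj_smul (L.lb.ne_zero _ _ _ hx (ix_mem L x))]

theorem D_ls (x : C.X) : (D L x).2 ∈ Ls n := ⟨_, ψ_ne L (ix_mem L x), rfl⟩

theorem mem_smul (g : C.Γ) (hx : C.π x ∈ l.U i) : C.π (g • x) ∈ l.U i := (C.inv g x).symm ▸ hx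

variable {L}

theorem ψ_smul (hl : ∀ g, L.lam g = 1) (g : C.Γ) (hx : C.π x ∈ l.U i) :
    L.ψ i (g • x) = cz (V.ρ g) *ᵥ L.ψ i x := by rw [L.eqv i g x hx, hl, one_smul]

theorem rel_D (hl : ∀ g, L.lam g = 1) (g : C.Γ) (x : C.X) :
    Rel (cz (V.ρ g)) (D L x) (D L (g • x)) := by
  rw [D_eq L (mem_smul g (ix_mem L x))]
  exact ⟨V.eqv g x, rel_pj (c := 1) (ψ_ne L (mem_smul g (ix_mem L x)))
    (by rw [one_smul, ψ_smul hl g (ix_mem L x)])⟩

theorem D_dep (hl : ∀ g, L.lam g = 1) (h : V.ρ g = V.ρ g') (x : C.X) :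
    D L (g • x) = D L (g' • x) := by
  rw [D_eq L (mem_smul g (ix_mem L x)), D_eq L (mem_smul g' (ix_mem L x)), ψ_smul hl g (ix_mem L x),
    ψ_smul hl g' (ix_mem L x), h]
  refine Prod.ext (funext fun q => ?_) rfl
  show V.gr (g • x) q = V.gr (g' • x) q
  rw [V.gr_smul g, h, ← V.eqv, ← h, Matrix.mul_assoc, V.r_mul_inv, Matrix.mul_one]

theorem gr_nn (hm : L.Min) (hg : g ∈ L.Nn) (x : C.X) : V.gr (g • x) = V.gr x := funext fun q => by
  rw [V.gr_smul g, (hm g hg x q).eq, Matrix.mul_assoc, V.r_mul_inv, Matrix.mul_one]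

theorem D_nn (hl : ∀ g, L.lam g = 1) (hm : L.Min) (hg : g ∈ L.Nn) (x : C.X) :
    D L (g • x) = D L x := by
  obtain ⟨c, hc⟩ := id hg
  have h1 := (ψ_smul hl g (ix_mem L x)).trans (hc _ x (ix_mem L x))
  rw [D_eq L (mem_smul g (ix_mem L x)), gr_nn hm hg, h1, pj_smul, D]
  rintro rfl
  exact ψ_ne L (mem_smul g (ix_mem L x)) (by rw [h1, zero_smul])

/-- a common order of the scalar elements -/
theorem ord (hm : L.Min) : ∃ o, 0 < o ∧ ∀ g ∈ L.Nn, V.ρ g ^ o = 1 := by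
  obtain ⟨x₀⟩ : Nonempty C.X := inferInstance
  obtain ⟨B, hB⟩ := bn_ev V.Q V.w (V.gr x₀)
  let H : Subgroup C.Γ :=
    { carrier := {g | ∀ x, V.gr (g • x) = V.gr x}
      one_mem' := fun x => by rw [one_smul]
      mul_mem' := fun a b x => by rw [mul_smul, a, b]
      inv_mem' := fun {g} a x => by rw [← a, smul_inv_smul] }
  have : Finite (H.map V.ρ.toHomUnits) := ((fin V.Q V.w B).preimage
    (f := Units.val) Units.val_injective.injOn).subset (by
      rintro _ ⟨g, hg, rfl⟩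
      exact ⟨V.pQ g, _, _, V.hs x₀, V.hs x₀, hB.self_of_nhds, hB.self_of_nhds, fun q =>
        (congrArg (fun π : Gr n => π q * _) (hg x₀)).symm.trans (V.eqv g x₀ q)⟩)
  exact ⟨Nat.card (H.map V.ρ.toHomUnits), Nat.card_pos, fun g hg => congrArg (fun u => u.1.1)
    (pow_card_eq_one' (x := (⟨_, g, gr_nn hm hg, rfl⟩ : H.map V.ρ.toHomUnits)))⟩

theorem ψ_pow {o : ℕ} (hl : ∀ g, L.lam g = 1) (hg : g ∈ L.Nn) (ho : V.ρ g ^ o = 1)
    (hx : C.π x ∈ l.U i) : ∃ c : ℂ, c ^ o = 1 ∧ L.ψ i (g • x) = c • L.ψ i x := by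
  obtain ⟨c, hc⟩ := hg
  have h1 : ∀ j : ℕ, cz (V.ρ g) ^ j *ᵥ L.ψ i x = c ^ j • L.ψ i x := fun j => by
    induction j with
    | zero => simp
    | succ j ih => rw [pow_succ', ← mulVec_mulVec, ih, mulVec_smul, hc i x hx, smul_smul, pow_succ]
  have h2 := h1 o
  rw [← cz_pow, ho, cz_one, one_mulVec] at h2
  exact ⟨c, smul_left_injective ℂ (ψ_ne L hx) (h2.symm.trans (one_smul _ _).symm),
    (ψ_smul hl g hx).trans (hc i x hx)⟩

theorem Sc.π (h : Sc C e σ z) : C.π (σ z) = e.symm z := h.self_of_nhds.2.2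

theorem lv (hO : Omm V) (he : e ∈ atlas (Cm p) W.X) (h : Sc C e σ z) :
    LVAt V.Q V.w (fun x => V.gr (σ x)) z := V.lv _ σ z (hO.lift e he σ z h).1

theorem sc_D (hO : Omm V) (he : e ∈ atlas (Cm p) W.X) (h : Sc C e σ z) (hi : C.π (σ z) ∈ l.U i) :
    LnAt V.w (fun x => V.gr (σ x)) (fun x => L.ψ i (σ x)) z ∧
      ∀ᶠ x in 𝓝 z, D L (σ x) = (V.gr (σ x), pj (L.ψ i (σ x))) :=
  ⟨L.ln i _ σ z (hO.lift e he σ z h).1 hi, (((Br.loc C).continuous.continuousAt.comp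
    h.self_of_nhds.1).eventually_mem ((L.lb.isOpen i).mem_nhds hi)).mono fun _ => D_eq L⟩

theorem an_D (hO : Omm V) (he : e ∈ atlas (Cm p) W.X) (h : Sc C e σ z) :
    AnalyticAt ℝ (fun x => (D L (σ x)).2) z := by
  obtain ⟨h1, h2⟩ := sc_D (L := L) hO he h (ix_mem L _)
  exact (an_pj h1.an.restrictScalars h1.ne).congr (h2.mono fun x a => (congrArg Prod.snd a).symm)

theorem cont_D (hO : Omm V) : Continuous (D L) := continuous_iff_continuousAt.2 fun x => by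
  have he : At (chartAt (Cm p) (C.π x)) (C.π x) := ⟨chart_mem_atlas _ _, mem_chart_source _ _⟩
  obtain ⟨σ, h1, -, h2⟩ := hO.ex _ x he
  have h3 : ContinuousAt (fun z => D L (σ z)) _ := .prodMk
    (continuousAt_pi.2 fun q => ((lv hO he.1 h1).an q).continuousAt) (an_D hO he.1 h1).continuousAt
  exact (h3.comp (f := fun x' => chartAt (Cm p) (C.π x) (C.π x'))
    (((chartAt _ _).continuousAt he.2).comp (Br.loc C).continuous.continuousAt)).congr
    (h2.mono fun x' a => congrArg (D L) a)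

theorem mem_nn (hO : Omm V)
    (h : ∀ x, (D L x).2 * cz (V.ρ g) * (D L x).2 = cz (V.ρ g) * (D L x).2) : g ∈ L.Nn := by
  obtain ⟨x₀⟩ : Nonempty C.X := inferInstance
  have h1 : ∀ i x, C.π x ∈ l.U i →
      cz (V.ρ g) *ᵥ L.ψ i x = trace (cz (V.ρ g) * (D L x).2) • L.ψ i x := fun i x hx => by
    have h2 := h x
    rw [D_eq L hx] at h2 ⊢
    obtain ⟨c, hc⟩ := of_rel (ψ_ne L hx) h2
    rwa [tr_pj (ψ_ne L hx) hc]
  have h2 := finite_spectrum (cz (V.ρ g))
  refine ⟨trace (cz (V.ρ g) * (D L x₀).2), fun i x hx => (h1 i x hx).trans (congrArg (· • _) ?_)⟩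
  refine isPreconnected_univ.constant_of_mapsTo (f := fun x => trace (cz (V.ρ g) * (D L x).2))
    h2.isDiscrete (continuous_const.matrix_mul (cont_D hO).snd).matrix_trace.continuousOn
    (fun x _ => spectrum.mem_iff.2 fun hu => ψ_ne L (ix_mem L x)
      (mulVec_injective_iff_isUnit.2 hu ?_)) trivial trivial
  rw [sub_mulVec, h1 _ x (ix_mem L x), Algebra.algebraMap_eq_smul_one, smul_mulVec, one_mulVec,
    sub_self, mulVec_zero]

/-- a general point -/
theorem gen (hO : Omm V) {r : ℕ} (h : ∃ y ∈ S.U, RkAt V r y) : ∃ x₀, RkAt V r (C.π x₀) ∧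
    ∀ g, Rel (cz (V.ρ g)) (D L x₀) (D L x₀) → g ∈ L.Nn := by
  obtain ⟨y, hy, h⟩ := h
  obtain ⟨x₁, rfl⟩ := C.surj y hy
  obtain ⟨B, hB⟩ := bn_ev V.Q V.w (V.gr x₁)
  have hc := cont_D (L := L) hO
  set u : Matrix n n ℤ → C.X → Mx n := fun A x =>
    (D L x).2 * cz A * (D L x).2 - cz A * (D L x).2
  have h1 := (((fin V.Q V.w B).inter_of_left {A | ¬ ∀ x, u A x = 0}).image
    fun A => {x | u A x ≠ 0}).dense_sInter (forall_mem_image.2 fun A _ => isOpen_ne_fun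
      (((hc.snd.mul continuous_const).mul hc.snd).sub (continuous_const.mul hc.snd))
      continuous_const) (forall_mem_image.2 fun A hA x => mem_closure_iff_frequently.2 fun a =>
      hA.2 ((stBr p W.X S.U C (open_U C)).2.2.2.2.2.2 _ (u A) (fun y σ z b => by
        have := an_D (L := L) hO (chart_mem_atlas _ y) b
        exact (an_mul (an_mul this analyticAt_const) this).sub (an_mul analyticAt_const this))
        x (a.mono fun _ => not_not.1)))
  obtain ⟨x₀, a, b, c⟩ := ((mem_closure_iff_frequently.1 (h1 x₁)).and_eventually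
    ((hc.fst.continuousAt.eventually hB).and ((Br.loc C).continuous.continuousAt.eventually_mem
      ((hO.opn r).mem_nhds ⟨hy, h⟩)))).exists
  refine ⟨x₀, c.2, fun g hg => mem_nn hO fun x => sub_eq_zero.1 (by_contra fun k =>
    a _ ⟨V.ρ g, ⟨⟨V.pQ g, _, _, V.hs x₀, V.hs x₀, b, b, hg.1⟩, fun k' => k (k' x)⟩, rfl⟩
      (sub_eq_zero.2 hg.2))⟩

/-- properness: images of closed bounded sets are closed -/
theorem cls (hO : Omm V) (hl : ∀ g, L.lam g = 1) {O : Set (Dt n)} {B : ℝ} (hc : IsClosed O)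
    (hB : ∀ d ∈ O, Bn V.Q V.w B d.1) {y : W.X} (hy : y ∈ S.U)
    (h : y ∈ closure (C.π '' (D L ⁻¹' O))) : y ∈ C.π '' (D L ⁻¹' O) := by
  obtain ⟨x₁, rfl⟩ := C.surj y hy
  obtain ⟨B₁, h1⟩ := bn_ev V.Q V.w (V.gr x₁)
  have hD := cont_D (L := L) hO
  by_contra h2
  have h3 := (eventually_all_finite (fin V.Q V.w (max B B₁))).2 fun A _ =>
    (by
      by_cases k : ∃ g, V.ρ g = A
      · obtain ⟨g, rfl⟩ := k
        exact ((hD.comp (C.csm g)).continuousAt.eventually_mem (hc.isOpen_compl.mem_nhds fun a =>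
          h2 ⟨g • x₁, a, C.inv g x₁⟩)).mono fun x a g' b => D_dep hl b x ▸ a
      · exact .of_forall fun _ g a => absurd ⟨g, a⟩ k :
      ∀ᶠ x in 𝓝 x₁, ∀ g, V.ρ g = A → D L (g • x) ∉ O)
  obtain ⟨x, ⟨x', a, b⟩, c, d⟩ := ((frequently_map.1 ((mem_closure_iff_frequently.1 h).filter_mono
    ((Br.loc C).isOpenMap.nhds_le x₁))).and_eventually
      (h3.and (hD.fst.continuousAt.eventually h1))).exists
  obtain ⟨g, rfl⟩ := C.tr x x' b.symm
  exact c _ ⟨V.pQ g, _, _, V.hs x, V.hs (g • x), Bn.mono d (le_max_right _ _),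
    (hB _ a).mono (le_max_left _ _), V.eqv g x⟩ g rfl a

/-- the kernel of the Higgs field does not depend on the section -/
theorem th_two (hO : Omm V) (he : e ∈ atlas (Cm p) W.X) (h : Sc C e σ z) (h' : Sc C e σ' z)
    {v : Cm p} (h0 : thS V σ z v = 0) : thS V σ' z v = 0 := by
  obtain ⟨g, hg⟩ := hO.two e he σ σ' z h h'
  have h1 := wd_congr (f := fun x => gJ V.w (V.gr (σ' x)) * cz (V.ρ g))
    (g := fun x => cz (V.ρ g) * gJ V.w (V.gr (σ x)))
    (hg.mono fun x a => by simp only [a, V.J_eqv]) v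
  rw [wd_mul_const (lv hO he h').an_J.differentiableAt,
    wd_const_mul _ (lv hO he h).an_J.differentiableAt] at h1
  have h2 : thS V σ' z v * cz (V.ρ g) = cz (V.ρ g) * thS V σ z v := h1
  rw [← Matrix.mul_one (thS V σ' z v), ← V.r_mul_inv g, ← Matrix.mul_assoc, h2, h0,
    Matrix.mul_zero, Matrix.zero_mul]

end Vale.Agent.P281Z.Lf.Tb
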